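import Crest.Agent.EG.Ctx

/-!
# Assembly of the cycles (S0064 blueprint Step E): definitions and edge accounting
-/

set_option autoImplicit false

namespace Crest.Agent.EG

open Finset
open scoped Classical

noncomputable section

variable {V : Type} [Fintype V] {P : Par} {G : SimpleGraph V} {Q : Finset V}

namespace Ctx

variable (c : Ctx P G Q)

/-- Zone of a network. -/
def Zn (i : Fin 3) : Finset V := c.T i ∪ c.A i ∪ c.B i

/-- Attach roots of network `i`. -/
def Up (i : Fin 3) : Finset V := c.W ∪ c.Zn (i + 2)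

/-- Hubs of the stage served by network `i`. The stage with network `1` also takes the edges inside `W`. -/
def Ho (i : Fin 3) : Finset V := if i = 1 then c.W ∪ c.Zn 0 else c.Zn (i + 2)

/-- Edges of the stage served by network `i`. -/
def St (i : Fin 3) : Set (Sym2 V) := {e | ∃ w ∈ c.W', ∃ v ∈ c.Ho i, G.Adj w v ∧ e = s(w, v)}

/-- Attach link edges at `W'`: removed at the start. -/
def ATT : Set (Sym2 V) :=
  {e | ∃ i, ∃ v ∈ c.W', ∃ j, ∃ c' : Fin 2, j ∈ c.lb i v ∧ j < P.r₀ ∧ e = s(v, c.attT i v j c')}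

/-- Light edges of the stage served by network `i`. -/
def Rr (i : Fin 3) : Set (Sym2 V) :=
  {e | e ∈ c.St i ∧ e ∉ c.ATT ∧ ∀ w ∈ c.W', ∀ v, e = s(w, v) → c.hm i w ∉ c.lb i v}

/-- Light graph. -/
def RG (i : Fin 3) : SimpleGraph V := SimpleGraph.fromEdgeSet (c.Rr i)

/-- Links of network `i`. -/
abbrev Lk (i : Fin 3) : Type := LkIdx c.W' (c.Up i) (c.lb i) P.r₀ P.M

/-- Reserved and used pending edges; `Us i` = set of pending units of network `i` used in the light phase. -/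
def Pe (Us : Fin 3 → Set (V × Fin P.M)) : Set (Sym2 V) :=
  {e | ∃ i, ∃ w ∈ c.W', ∃ k : Fin P.M, ((k : ℕ) < 2 ∨ (w, k) ∈ Us i) ∧ e = s(w, c.pendB i w k)}

/-- Smallest heavy class of an edge. -/
def cls (i : Fin 3) (e : Sym2 V) : ℕ :=
  sInf {j | ∃ w ∈ c.W', ∃ v, e = s(w, v) ∧ c.hm i w = j ∧ j ∈ c.lb i v}

/-- Heavy class graph. -/
def HG (Us : Fin 3 → Set (V × Fin P.M)) (i : Fin 3) (j : ℕ) : SimpleGraph V :=
  SimpleGraph.fromEdgeSet {e | e ∈ c.St i ∧ e ∉ c.ATT ∧ e ∉ c.Pe Us ∧ e ∉ c.Rr i ∧ c.cls i e = j}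

/-! ### Basic facts about zones -/

theorem disj_W_Zn (i : Fin 3) : Disjoint c.W (c.Zn i) := c.hWZ i

theorem disj_Zn (i i' : Fin 3) (h : i ≠ i') : Disjoint (c.Zn i) (c.Zn i') := c.hZZ i i' h

/-- Vertices of stage edges are outside the zone of the network. -/
theorem St_out {i : Fin 3} {e : Sym2 V} (he : e ∈ c.St i) {x : V} (hx : x ∈ e) : x ∉ c.Zn i := by
  obtain ⟨w, hw, v, hv, -, rfl⟩ := he
  intro hxZ
  rcases Sym2.mem_iff.1 hx with rfl | rfl
  · exact Finset.disjoint_left.1 (c.disj_W_Zn i) (c.hW'W hw) hxZ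
  · unfold Ho at hv
    split_ifs at hv with hi
    · rcases mem_union.1 hv with h | h
      · exact Finset.disjoint_left.1 (c.disj_W_Zn i) h hxZ
      · subst hi
        exact Finset.disjoint_left.1 (c.disj_Zn 0 1 (by decide)) h hxZ
    · have hne : i + 2 ≠ i := by
        have : ∀ j : Fin 3, j + 2 ≠ j := by decide
        exact this i
      exact Finset.disjoint_left.1 (c.disj_Zn (i + 2) i hne) hv hxZ

/-- Stage edges of different stages are disjoint. -/
theorem St_disj {i i' : Fin 3} (h : i ≠ i') : Disjoint (c.St i) (c.St i') := by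
  have hW : ∀ {j : Fin 3} {v : V}, v ∈ c.Ho j → v ∈ c.W → j = 1 := by
    intro j v hv hvW
    by_contra hj
    unfold Ho at hv
    rw [if_neg hj] at hv
    exact Finset.disjoint_left.1 (c.disj_W_Zn (j + 2)) hvW hv
  have hHo : ∀ {v : V}, v ∈ c.Ho i → v ∈ c.Ho i' → False := by
    intro v h1 h2
    by_cases hvW : v ∈ c.W
    · exact h ((hW h1 hvW).trans (hW h2 hvW).symm)
    have key : ∀ {j : Fin 3}, v ∈ c.Ho j → v ∈ c.Zn (j + 2) := by
      intro j hj
      unfold Ho at hj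
      split_ifs at hj with hj1
      · subst hj1
        rcases mem_union.1 hj with h' | h'
        · exact absurd h' hvW
        · exact h'
      · exact hj
    have hne : i + 2 ≠ i' + 2 := fun h' => h (add_right_cancel h')
    exact Finset.disjoint_left.1 (c.disj_Zn _ _ hne) (key h1) (key h2)
  rw [Set.disjoint_left]
  rintro e ⟨w, hw, v, hv, -, rfl⟩ ⟨w', hw', v', hv', -, he⟩
  rcases Sym2.eq_iff.1 he with ⟨rfl, rfl⟩ | ⟨rfl, rfl⟩
  · exact hHo hv hv'
  · exact h ((hW hv (c.hW'W hw')).trans (hW hv' (c.hW'W hw)).symm)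

/-- Every edge at `W'` is a stage edge. -/
theorem St_cover {w x : V} (hw : w ∈ c.W') (hx : G.Adj w x) : ∃ i, s(w, x) ∈ c.St i := by
  have hxQ : x ∈ Q := c.hNW w (c.hW'W hw) (mem_nbr.2 hx)
  have mk : ∀ i, x ∈ c.Ho i → ∃ i, s(w, x) ∈ c.St i := fun i hi => ⟨i, w, hw, x, hi, hx, rfl⟩
  rcases c.hQ x hxQ with hxW | ⟨i, hi⟩
  · exact mk 1 (by unfold Ho; rw [if_pos rfl]; exact mem_union_left _ hxW)
  · have hZ : x ∈ c.Zn i := by
      unfold Zn
      rcases hi with h | h | h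
      · exact mem_union_left _ (mem_union_left _ h)
      · exact mem_union_left _ (mem_union_right _ h)
      · exact mem_union_right _ h
    have h3 : ∀ j : Fin 3, j = 0 ∨ j = 1 ∨ j = 2 := by decide
    rcases h3 i with rfl | rfl | rfl
    · exact mk 1 (by unfold Ho; rw [if_pos rfl]; exact mem_union_right _ hZ)
    · exact mk 2 (by
        unfold Ho
        rw [if_neg (by decide)]
        have : (2 : Fin 3) + 2 = 1 := by decide
        rw [this]; exact hZ)
    · exact mk 0 (by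
        unfold Ho
        rw [if_neg (by decide)]
        have : (0 : Fin 3) + 2 = 2 := by decide
        rw [this]; exact hZ)

/-- Both ends of a stage edge lie in `W ∪ Zn (i+2)`. -/
theorem St_up {i : Fin 3} {e : Sym2 V} (he : e ∈ c.St i) {x : V} (hx : x ∈ e) : x ∈ c.Up i := by
  obtain ⟨w, hw, v, hv, -, rfl⟩ := he
  unfold Up
  rcases Sym2.mem_iff.1 hx with rfl | rfl
  · exact mem_union_left _ (c.hW'W hw)
  · unfold Ho at hv
    split_ifs at hv with hi
    · subst hi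
      exact hv
    · exact mem_union_right _ hv

/-- All ends of a stage edge lie in `Q`. -/
theorem St_Q {i : Fin 3} {e : Sym2 V} (he : e ∈ c.St i) {x : V} (hx : x ∈ e) : x ∈ Q := by
  have h := c.St_up he hx
  unfold Up at h
  rcases mem_union.1 h with h | h
  · exact c.hWQ h
  · exact c.hsubQ _ h

/-! ### The light graph -/

theorem RG_le (i : Fin 3) : c.RG i ≤ G := by
  intro x y hxy
  have h : s(x, y) ∈ (SimpleGraph.fromEdgeSet (c.Rr i)).edgeSet := hxy
  rw [SimpleGraph.edgeSet_fromEdgeSet] at h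
  obtain ⟨w, _, v, _, hwv, he⟩ := h.1.1
  have : s(x, y) ∈ G.edgeSet := by rw [he]; exact hwv
  exact this

theorem RG_edgeSet (i : Fin 3) : (c.RG i).edgeSet = c.Rr i := by
  unfold RG
  rw [SimpleGraph.edgeSet_fromEdgeSet]
  ext e
  simp only [Set.mem_sdiff, and_iff_left_iff_imp]
  rintro ⟨⟨w, _, v, _, hwv, rfl⟩, -, -⟩
  exact G.not_isDiag_of_mem_edgeSet hwv

theorem RG_end (i : Fin 3) (x y : V) (h : (c.RG i).Adj x y) : x ∈ c.W' ∨ y ∈ c.W' := by
  have he : s(x, y) ∈ (c.RG i).edgeSet := h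
  rw [c.RG_edgeSet] at he
  obtain ⟨w, hw, v, _, _, hev⟩ := he.1
  rcases Sym2.eq_iff.1 hev with ⟨rfl, rfl⟩ | ⟨rfl, rfl⟩
  · exact Or.inl hw
  · exact Or.inr hw

/-- Degree bound of the light graph: `friendly` at `W'`, `rbound` elsewhere (`r₀ h ≤ t₁`). -/
theorem RG_deg (i : Fin 3) (v : V) : (nbr (c.RG i) v).card ≤ P.t₁ := by
  have hadj : ∀ {x y : V}, (c.RG i).Adj x y → x ∈ c.W' → c.hm i x ∉ c.lb i y ∧ G.Adj x y := by
    intro x y hxy hx
    have he : s(x, y) ∈ (c.RG i).edgeSet := hxy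
    rw [c.RG_edgeSet] at he
    exact ⟨he.2.2 x hx y rfl, c.RG_le i hxy⟩
  by_cases hv : v ∈ c.W'
  · refine le_trans (card_le_card ?_) (c.friendly i v hv)
    intro x hx
    have hx' := mem_nbr.1 hx
    obtain ⟨h1, h2⟩ := hadj hx' hv
    exact mem_filter.2 ⟨mem_nbr.2 h2, h1⟩
  · by_cases hn : nbr (c.RG i) v = ∅
    · rw [hn]; simp
    obtain ⟨x0, hx0⟩ := Finset.nonempty_iff_ne_empty.2 hn
    have hvQ : v ∈ Q := by
      have he : s(v, x0) ∈ (c.RG i).edgeSet := mem_nbr.1 hx0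
      rw [c.RG_edgeSet] at he
      exact c.St_Q he.1 (Sym2.mem_mk_left _ _)
    have hle : (nbr (c.RG i) v).card ≤ P.r₀ * P.h := by
      refine le_trans (card_le_card ?_) (c.rbound i v hvQ)
      intro x hx
      have hx' := mem_nbr.1 hx
      have hxW : x ∈ c.W' := by
        rcases c.RG_end i v x hx' with h | h
        · exact absurd h hv
        · exact h
      obtain ⟨h1, h2⟩ := hadj hx'.symm hxW
      exact mem_filter.2 ⟨mem_inter.2 ⟨mem_nbr.2 h2.symm, hxW⟩, h1⟩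
    have := P.ctx_num
    omega

/-- `|E(R)| ≤ n r₀ h`: every edge `s(w, v)` has `hm i w ∉ lb i v`, use `rbound` at `v ∈ Q`. -/
theorem RG_edges (i : Fin 3) : (c.RG i).edgeFinset.card ≤ P.n * (P.r₀ * P.h) := by
  classical
  -- each edge is `s(w, v)` with `v ∈ Q`, `w` light at `v`
  let S : V → Finset V := fun v => (nbr G v ∩ c.W').filter fun w => c.hm i w ∉ c.lb i v
  have hsub : (c.RG i).edgeFinset ⊆ Q.biUnion fun v => (S v).image fun w => s(w, v) := by
    intro e he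
    rw [SimpleGraph.mem_edgeFinset, c.RG_edgeSet] at he
    obtain ⟨⟨w, hw, v, hv, hwv, rfl⟩, _, hl⟩ := he
    refine mem_biUnion.2 ⟨v, c.St_Q ⟨w, hw, v, hv, hwv, rfl⟩ (Sym2.mem_mk_right _ _), ?_⟩
    refine mem_image.2 ⟨w, mem_filter.2 ⟨mem_inter.2 ⟨mem_nbr.2 hwv.symm, hw⟩, hl w hw v rfl⟩, rfl⟩
  calc (c.RG i).edgeFinset.card ≤ (Q.biUnion fun v => (S v).image fun w => s(w, v)).card :=
        card_le_card hsub
    _ ≤ ∑ v ∈ Q, ((S v).image fun w => s(w, v)).card := card_biUnion_le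
    _ ≤ ∑ v ∈ Q, (P.r₀ * P.h) := by
        refine sum_le_sum fun v hv => card_image_le.trans (c.rbound i v hv)
    _ = P.n * (P.r₀ * P.h) := by rw [sum_const, c.hcard, smul_eq_mul]

theorem RG_verts (i : Fin 3) : (univ.filter fun v => ∃ x, (c.RG i).Adj v x).card ≤ P.n := by
  rw [← c.hcard]
  refine card_le_card fun v hv => ?_
  obtain ⟨x, hx⟩ := (mem_filter.1 hv).2
  have he : s(v, x) ∈ (c.RG i).edgeSet := hx
  rw [c.RG_edgeSet] at he
  exact c.St_Q he.1 (Sym2.mem_mk_left _ _)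

/-! ### The heavy graphs -/

/-- The defining set of edges of a heavy class graph. -/
theorem HG_edgeSet (Us : Fin 3 → Set (V × Fin P.M)) (i : Fin 3) (j : ℕ) :
    (c.HG Us i j).edgeSet =
      {e | e ∈ c.St i ∧ e ∉ c.ATT ∧ e ∉ c.Pe Us ∧ e ∉ c.Rr i ∧ c.cls i e = j} := by
  unfold HG
  rw [SimpleGraph.edgeSet_fromEdgeSet]
  ext e
  simp only [Set.mem_sdiff, Set.mem_ofPred_eq, and_iff_left_iff_imp]
  rintro ⟨⟨w, _, v, _, hwv, rfl⟩, -⟩
  exact G.not_isDiag_of_mem_edgeSet hwv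

theorem HG_le (Us : Fin 3 → Set (V × Fin P.M)) (i : Fin 3) (j : ℕ) : c.HG Us i j ≤ G := by
  intro x y hxy
  have he : s(x, y) ∈ (c.HG Us i j).edgeSet := hxy
  rw [c.HG_edgeSet] at he
  obtain ⟨w, _, v, _, hwv, h⟩ := he.1
  have : s(x, y) ∈ G.edgeSet := by rw [h]; exact hwv
  exact this

theorem HG_edge (Us : Fin 3 → Set (V × Fin P.M)) (i : Fin 3) (j : ℕ) {e : Sym2 V}
    (he : e ∈ (c.HG Us i j).edgeSet) :
    e ∈ c.St i ∧ e ∉ c.ATT ∧ e ∉ c.Pe Us ∧ e ∉ c.Rr i ∧ c.cls i e = j := by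
  rwa [c.HG_edgeSet] at he

theorem HG_disj (Us : Fin 3 → Set (V × Fin P.M)) (i : Fin 3) (j j' : ℕ) (h : j ≠ j') :
    Disjoint (c.HG Us i j).edgeSet (c.HG Us i j').edgeSet := by
  rw [Set.disjoint_left]
  intro e he he'
  exact h ((c.HG_edge Us i j he).2.2.2.2.symm.trans (c.HG_edge Us i j' he').2.2.2.2)

/-- A stage edge which is neither attach nor light has a witness for its smallest class. -/
theorem cls_spec {i : Fin 3} {e : Sym2 V} (h1 : e ∈ c.St i) (h2 : e ∉ c.ATT) (h4 : e ∉ c.Rr i) :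
    ∃ w ∈ c.W', ∃ v, e = s(w, v) ∧ c.hm i w = c.cls i e ∧ c.cls i e ∈ c.lb i v := by
  have hne : {j | ∃ w ∈ c.W', ∃ v, e = s(w, v) ∧ c.hm i w = j ∧ j ∈ c.lb i v}.Nonempty := by
    by_contra hne
    apply h4
    refine ⟨h1, h2, fun w hw v hev hl => hne ⟨c.hm i w, w, hw, v, hev, rfl, hl⟩⟩
  exact Nat.sInf_mem hne

theorem cls_lt {i : Fin 3} {e : Sym2 V} (h1 : e ∈ c.St i) (h2 : e ∉ c.ATT) (h4 : e ∉ c.Rr i) :
    c.cls i e < P.r₀ := by
  obtain ⟨w, hw, v, -, hj, -⟩ := c.cls_spec h1 h2 h4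
  rw [← hj]
  exact c.hm_lt i w hw

/-- A vertex of `HG` is a `W'`-vertex of home `j` or a vertex with label `j`, and `j < r₀`. -/
theorem HG_vert (Us : Fin 3 → Set (V × Fin P.M)) (i : Fin 3) (j : ℕ) {x y : V}
    (h : (c.HG Us i j).Adj x y) :
    j < P.r₀ ∧ x ∈ c.Up i ∧ ((x ∈ c.W' ∧ c.hm i x = j) ∨ j ∈ c.lb i x) := by
  have he : s(x, y) ∈ (c.HG Us i j).edgeSet := h
  obtain ⟨h1, h2, -, h4, h5⟩ := c.HG_edge Us i j he
  refine ⟨h5 ▸ c.cls_lt h1 h2 h4, c.St_up h1 (Sym2.mem_mk_left x y), ?_⟩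
  obtain ⟨w, hw, v, hev, hj, hl⟩ := c.cls_spec h1 h2 h4
  rw [h5] at hj hl
  have hx : x ∈ s(w, v) := hev ▸ Sym2.mem_mk_left x y
  rcases Sym2.mem_iff.1 hx with rfl | rfl
  · exact Or.inl ⟨hw, hj⟩
  · exact Or.inr hl

/-- A stage edge neither attach, pending, nor light lies in the heavy graph of its class. -/
theorem HG_cover (Us : Fin 3 → Set (V × Fin P.M)) (i : Fin 3) {e : Sym2 V}
    (h1 : e ∈ c.St i) (h2 : e ∉ c.ATT) (h3 : e ∉ c.Pe Us) (h4 : e ∉ c.Rr i) :
    c.cls i e < P.r₀ ∧ e ∈ (c.HG Us i (c.cls i e)).edgeSet := by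
  refine ⟨c.cls_lt h1 h2 h4, ?_⟩
  rw [c.HG_edgeSet]
  exact ⟨h1, h2, h3, h4, rfl⟩

private theorem W'_card_le : c.W'.card ≤ P.n := by
  rw [← c.hcard]
  exact card_le_card (c.hW'W.trans c.hWQ)

/-- `∑_j |V(H j)| ≤ |W'| + ∑_v |lb i v| ≤ 2.1 n`, so at most `3 n`. -/
theorem HG_verts (Us : Fin 3 → Set (V × Fin P.M)) (i : Fin 3) :
    ∑ j ∈ range P.r₀, (univ.filter fun v => ∃ x, (c.HG Us i j).Adj v x).card ≤ 3 * P.n := by
  have hsub : ∀ j ∈ range P.r₀, (univ.filter fun v => ∃ x, (c.HG Us i j).Adj v x) ⊆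
      (c.W'.filter fun x => c.hm i x = j) ∪ (Q.filter fun x => j ∈ c.lb i x) := by
    intro j _ v hv
    obtain ⟨x, hx⟩ := (mem_filter.1 hv).2
    have hvert := c.HG_vert Us i j hx
    have he : s(v, x) ∈ (c.HG Us i j).edgeSet := hx
    have hvQ : v ∈ Q := c.St_Q (c.HG_edge Us i j he).1 (Sym2.mem_mk_left v x)
    rcases hvert.2.2 with ⟨h1, h2⟩ | h3
    · exact mem_union_left _ (mem_filter.2 ⟨h1, h2⟩)
    · exact mem_union_right _ (mem_filter.2 ⟨hvQ, h3⟩)
  have h1 : ∑ j ∈ range P.r₀, (c.W'.filter fun x => c.hm i x = j).card ≤ c.W'.card := by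
    have := card_eq_sum_card_fiberwise (f := fun x => c.hm i x) (s := c.W') (t := range P.r₀)
      (fun x hx => mem_coe.2 (mem_range.2 (c.hm_lt i x (mem_coe.1 hx))))
    exact this.symm.le
  have h2 : ∑ j ∈ range P.r₀, (Q.filter fun x => j ∈ c.lb i x).card ≤ ∑ v ∈ Q, (c.lb i v).card := by
    simp only [card_filter]
    rw [sum_comm]
    refine sum_le_sum fun v _ => ?_
    rw [← card_filter]
    refine card_le_card fun j hj => ?_
    exact (mem_filter.1 hj).2
  have h3 := c.sumLab i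
  have h4 := c.W'_card_le
  calc ∑ j ∈ range P.r₀, (univ.filter fun v => ∃ x, (c.HG Us i j).Adj v x).card
      ≤ ∑ j ∈ range P.r₀, ((c.W'.filter fun x => c.hm i x = j).card
          + (Q.filter fun x => j ∈ c.lb i x).card) :=
        sum_le_sum fun j hj => (card_le_card (hsub j hj)).trans (card_union_le _ _)
    _ ≤ 3 * P.n := by
        rw [sum_add_distrib]
        omega

/-- Number of attach edges at `W'`. -/
theorem ATT_card : (c.ATT).ncard ≤ 9 * P.n := by
  classical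
  -- the index set
  let I : Finset (Fin 3 × V × ℕ × Fin 2) :=
    (univ : Finset (Fin 3)).biUnion fun i => c.W'.biUnion fun v => (c.lb i v).biUnion fun j =>
      (univ : Finset (Fin 2)).image fun c' => (i, v, j, c')
  let f : Fin 3 × V × ℕ × Fin 2 → Sym2 V := fun p => s(p.2.1, c.attT p.1 p.2.1 p.2.2.1 p.2.2.2)
  have hsub : c.ATT ⊆ ((I.image f : Finset (Sym2 V)) : Set (Sym2 V)) := by
    rintro e ⟨i, v, hv, j, c', hj, _, rfl⟩
    refine mem_coe.2 (mem_image.2 ⟨(i, v, j, c'), ?_, rfl⟩)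
    simp only [I, mem_biUnion, mem_image, mem_univ, true_and]
    exact ⟨i, v, hv, j, hj, c', rfl⟩
  have hI : I.card ≤ 9 * P.n := by
    have hstep : ∀ i : Fin 3, (c.W'.biUnion fun v => (c.lb i v).biUnion fun j =>
        (univ : Finset (Fin 2)).image fun c' => (i, v, j, c')).card ≤ 3 * P.n := by
      intro i
      have h1 : (c.W'.biUnion fun v => (c.lb i v).biUnion fun j =>
          (univ : Finset (Fin 2)).image fun c' => (i, v, j, c')).card
          ≤ ∑ v ∈ c.W', (c.lb i v).card * 2 := by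
        refine card_biUnion_le.trans (sum_le_sum fun v _ => ?_)
        refine card_biUnion_le.trans ?_
        refine (sum_le_sum fun j _ => card_image_le).trans ?_
        simp
      have h2 : ∑ v ∈ c.W', (c.lb i v).card ≤ ∑ v ∈ Q, (c.lb i v).card :=
        sum_le_sum_of_subset (c.hW'W.trans c.hWQ)
      have h3 := c.sumLab i
      rw [← sum_mul] at h1
      omega
    refine card_biUnion_le.trans ?_
    refine (sum_le_sum fun i _ => hstep i).trans ?_
    simp only [sum_const, card_univ, Fintype.card_fin, smul_eq_mul]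
    omega
  calc (c.ATT).ncard ≤ ((I.image f : Finset (Sym2 V)) : Set (Sym2 V)).ncard :=
        Set.ncard_le_ncard hsub (Finset.finite_toSet _)
    _ = (I.image f).card := Set.ncard_coe_finset _
    _ ≤ I.card := card_image_le
    _ ≤ 9 * P.n := hI

theorem ATT_finite : (c.ATT).Finite := Set.toFinite _

end Ctx

end

end Crest.Agent.EG
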