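import Mathlib

/-!
# Erdős–Gallai (S0064): basic definitions.

`IsEC G S`: the set `S` of unordered pairs is a single edge of `G` or the edge set of a cycle of `G`.
`Cov G E k`: `E` is a disjoint union of at most `k` such sets.
`nbr G v`: the neighbour finset, classical instances throughout.
-/

set_option autoImplicit false

namespace Crest.Agent.EG

open Finset
open scoped Classical

variable {V : Type}

/-- A set of unordered pairs is a single edge of `G` or the edge set of a cycle of `G`. -/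
def IsEC (G : SimpleGraph V) (S : Set (Sym2 V)) : Prop :=
  (∃ e ∈ G.edgeSet, S = {e}) ∨ ∃ (u : V) (w : G.Walk u u), w.IsCycle ∧ {e | e ∈ w.edges} = S

/-- `E` is a disjoint union of at most `k` sets each of which is an edge or a cycle of `G`. -/
def Cov (G : SimpleGraph V) (E : Set (Sym2 V)) (k : ℕ) : Prop :=
  ∃ F : Fin k → Set (Sym2 V), (∀ i, F i = ∅ ∨ IsEC G (F i)) ∧
    (Pairwise fun i j => Disjoint (F i) (F j)) ∧ (⋃ i, F i) = E

namespace Cov

variable {G G' : SimpleGraph V} {E E₁ E₂ : Set (Sym2 V)} {k k₁ k₂ : ℕ}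

theorem empty (k : ℕ) : Cov G (∅ : Set (Sym2 V)) k := by
  refine ⟨fun _ => ∅, fun _ => Or.inl rfl, ?_, ?_⟩
  · intro i j _
    simp
  · simp

theorem mono {k' : ℕ} (h : Cov G E k) (hk : k ≤ k') : Cov G E k' := by
  obtain ⟨F, hF, hd, hU⟩ := h
  refine ⟨fun i => if hi : i.1 < k then F ⟨i.1, hi⟩ else ∅, ?_, ?_, ?_⟩
  · intro i
    by_cases hi : i.1 < k
    · simpa [hi] using hF ⟨i.1, hi⟩
    · simp [hi]
  · intro i j hij
    by_cases hi : i.1 < k <;> by_cases hj : j.1 < k <;> simp [hi, hj]
    exact hd (fun h => hij (Fin.ext (by simpa using congrArg Fin.val h)))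
  · rw [← hU]
    ext e
    simp only [Set.mem_iUnion]
    constructor
    · rintro ⟨i, hi⟩
      by_cases h' : i.1 < k
      · exact ⟨⟨i.1, h'⟩, by simpa [h'] using hi⟩
      · simp [h'] at hi
    · rintro ⟨i, hi⟩
      exact ⟨⟨i.1, lt_of_lt_of_le i.2 hk⟩, by simpa [i.2] using hi⟩

theorem union (h₁ : Cov G E₁ k₁) (h₂ : Cov G E₂ k₂) (hd : Disjoint E₁ E₂) :
    Cov G (E₁ ∪ E₂) (k₁ + k₂) := by
  obtain ⟨F₁, hF₁, hd₁, hU₁⟩ := h₁
  obtain ⟨F₂, hF₂, hd₂, hU₂⟩ := h₂
  refine ⟨Fin.addCases F₁ F₂, ?_, ?_, ?_⟩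
  · intro i
    induction i using Fin.addCases with
    | left i => simpa using hF₁ i
    | right i => simpa using hF₂ i
  · have h1 : ∀ i, F₁ i ⊆ E₁ := fun i => by rw [← hU₁]; exact Set.subset_iUnion F₁ i
    have h2 : ∀ i, F₂ i ⊆ E₂ := fun i => by rw [← hU₂]; exact Set.subset_iUnion F₂ i
    intro i j hij
    induction i using Fin.addCases with
    | left i =>
      induction j using Fin.addCases with
      | left j =>
        simpa using hd₁ (fun h => hij (by rw [h]))
      | right j =>
        simpa using hd.mono (h1 i) (h2 j)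
    | right i =>
      induction j using Fin.addCases with
      | left j =>
        simpa using (hd.mono (h1 j) (h2 i)).symm
      | right j =>
        simpa using hd₂ (fun h => hij (by rw [h]))
  · ext e
    simp only [Set.mem_iUnion, Set.mem_union]
    constructor
    · rintro ⟨i, hi⟩
      induction i using Fin.addCases with
      | left i =>
        left
        rw [← hU₁]
        exact Set.mem_iUnion.2 ⟨i, by simpa using hi⟩
      | right i =>
        right
        rw [← hU₂]
        exact Set.mem_iUnion.2 ⟨i, by simpa using hi⟩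
    · rintro (h | h)
      · rw [← hU₁] at h
        obtain ⟨i, hi⟩ := Set.mem_iUnion.1 h
        exact ⟨Fin.castAdd k₂ i, by simpa using hi⟩
      · rw [← hU₂] at h
        obtain ⟨i, hi⟩ := Set.mem_iUnion.1 h
        exact ⟨Fin.natAdd k₁ i, by simpa using hi⟩

theorem of_isEC (h : IsEC G E) : Cov G E 1 := by
  refine ⟨fun _ => E, fun _ => Or.inr h, ?_, ?_⟩
  · intro i j hij
    exact absurd (Subsingleton.elim i j) hij
  · exact Set.iUnion_const E

theorem single {e : Sym2 V} (he : e ∈ G.edgeSet) : Cov G {e} 1 :=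
  of_isEC (Or.inl ⟨e, he, rfl⟩)

theorem cycle {u : V} (w : G.Walk u u) (hw : w.IsCycle) : Cov G {e | e ∈ w.edges} 1 :=
  of_isEC (Or.inr ⟨u, w, hw, rfl⟩)

theorem IsEC_mono (hG : G ≤ G') {S : Set (Sym2 V)} (h : IsEC G S) : IsEC G' S := by
  rcases h with ⟨e, he, rfl⟩ | ⟨u, w, hw, rfl⟩
  · exact Or.inl ⟨e, SimpleGraph.edgeSet_mono hG he, rfl⟩
  · refine Or.inr ⟨u, w.mapLe hG, ?_, ?_⟩
    · exact SimpleGraph.Walk.IsCycle.mapLe hG hw
    · ext e
      simp

theorem mono_graph (hG : G ≤ G') (h : Cov G E k) : Cov G' E k := by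
  obtain ⟨F, hF, hd, hU⟩ := h
  exact ⟨F, fun i => (hF i).imp id (IsEC_mono hG), hd, hU⟩

/-- Disjoint union over a list of sets. -/
theorem list_union {ι : Type} (l : List ι) (E : ι → Set (Sym2 V)) (k : ι → ℕ)
    (h : ∀ i ∈ l, Cov G (E i) (k i))
    (hd : l.Pairwise fun i j => Disjoint (E i) (E j)) :
    Cov G (⋃ i ∈ l, E i) (l.map k).sum := by
  induction l with
  | nil => simpa using empty 0
  | cons a l ih =>
    have h1 := h a (by simp)
    have h2 := ih (fun i hi => h i (by simp [hi])) (List.pairwise_cons.1 hd).2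
    have h3 := h1.union h2 (by
      rw [Set.disjoint_left]
      intro e he1 he2
      obtain ⟨i, hi, hi2⟩ : ∃ i ∈ l, e ∈ E i := by simpa using he2
      exact Set.disjoint_left.1 ((List.pairwise_cons.1 hd).1 i hi) he1 hi2)
    convert h3 using 1
    · ext e; simp
    · simp

end Cov

section Counts

variable [Fintype V]

/-- Neighbour finset with classical instances. -/
noncomputable def nbr (G : SimpleGraph V) (v : V) : Finset V := univ.filter (G.Adj v)

theorem mem_nbr {G : SimpleGraph V} {v x : V} : x ∈ nbr G v ↔ G.Adj v x := by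
  simp [nbr]

/-- Edges of a bipartite graph between `T` and `A` with both ends in `S`
(as ordered pairs `(t, a)`, `t ∈ T`, `a ∈ A`). -/
noncomputable def eIn (Γ : SimpleGraph V) (T A S : Finset V) : ℕ :=
  ((T ×ˢ A).filter fun p => Γ.Adj p.1 p.2 ∧ p.1 ∈ S ∧ p.2 ∈ S).card

/-- Edges of a bipartite graph between `T` and `A` with one end in `S` and the other in `S'`. -/
noncomputable def eBetween (Γ : SimpleGraph V) (T A S S' : Finset V) : ℕ :=
  ((T ×ˢ A).filter fun p =>
    Γ.Adj p.1 p.2 ∧ ((p.1 ∈ S ∧ p.2 ∈ S') ∨ (p.1 ∈ S' ∧ p.2 ∈ S))).card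

end Counts

/-- The labelling form of the theorem from a uniform `Cov` bound. -/
theorem labelling_of_cov (C : ℕ)
    (h : ∀ (V : Type) [Fintype V] (G : SimpleGraph V), Cov G G.edgeSet (C * Fintype.card V)) :
    ∃ C : ℝ, ∀ (V : Type) [Fintype V] (G : SimpleGraph V),
      ∃ (m : ℕ) (f : Sym2 V → Fin m), (m : ℝ) ≤ C * Fintype.card V ∧
        ∀ i : Fin m, G.edgeSet ∩ f ⁻¹' {i} = ∅ ∨
          (∃ e ∈ G.edgeSet, G.edgeSet ∩ f ⁻¹' {i} = {e}) ∨
          (∃ (u : V) (w : G.Walk u u), w.IsCycle ∧ {e | e ∈ w.edges} = G.edgeSet ∩ f ⁻¹' {i}) := by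
  refine ⟨(C : ℝ) + 1, ?_⟩
  intro V _ G
  by_cases hV : IsEmpty V
  · have : IsEmpty (Sym2 V) := ⟨fun e => by
      induction e using Sym2.ind with
      | _ a _ => exact hV.elim a⟩
    refine ⟨0, fun e => this.elim e, ?_, fun i => i.elim0⟩
    simp
  have hV1 : 1 ≤ Fintype.card V := by
    rw [Nat.one_le_iff_ne_zero, Ne, Fintype.card_eq_zero_iff]
    exact hV
  obtain ⟨F, hF, hd, hU⟩ := h V G
  -- use one extra label for the non-edges
  have hmem : ∀ e ∈ G.edgeSet, ∃ i, e ∈ F i := by
    intro e he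
    rw [← hU] at he
    exact Set.mem_iUnion.1 he
  let f : Sym2 V → Fin (C * Fintype.card V + 1) := fun e =>
    if he : e ∈ G.edgeSet then Fin.castSucc (Classical.choose (hmem e he)) else Fin.last _
  have hf : ∀ (e : Sym2 V) (he : e ∈ G.edgeSet), e ∈ F (Classical.choose (hmem e he)) :=
    fun e he => Classical.choose_spec (hmem e he)
  have hfib : ∀ i : Fin (C * Fintype.card V), G.edgeSet ∩ f ⁻¹' {Fin.castSucc i} = F i := by
    intro i
    ext e
    constructor
    · rintro ⟨he, hfe⟩
      have : f e = Fin.castSucc i := hfe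
      simp only [f, he, dif_pos] at this
      have h2 := Fin.castSucc_injective _ this
      rw [← h2]
      exact hf e he
    · intro he
      have heE : e ∈ G.edgeSet := by
        rw [← hU]
        exact Set.mem_iUnion.2 ⟨i, he⟩
      refine ⟨heE, ?_⟩
      show f e = Fin.castSucc i
      simp only [f, heE, dif_pos]
      congr 1
      by_contra hne
      exact Set.disjoint_left.1 (hd hne) (hf e heE) he
  have hlast : G.edgeSet ∩ f ⁻¹' {Fin.last _} = ∅ := by
    ext e
    simp only [Set.mem_inter_iff, Set.mem_preimage, Set.mem_singleton_iff, Set.mem_empty_iff_false,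
      iff_false, not_and]
    intro he hfe
    simp only [f, he, dif_pos] at hfe
    exact absurd hfe (Fin.castSucc_lt_last _).ne
  refine ⟨C * Fintype.card V + 1, f, ?_, ?_⟩
  · have : (1 : ℝ) ≤ Fintype.card V := by exact_mod_cast hV1
    push_cast
    nlinarith
  · intro i
    induction i using Fin.lastCases with
    | last => exact Or.inl hlast
    | cast i =>
      rw [hfib i]
      rcases hF i with h0 | h1
      · exact Or.inl h0
      · rcases h1 with h1 | h1
        · exact Or.inr (Or.inl h1)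
        · exact Or.inr (Or.inr h1)

end Crest.Agent.EG
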