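import Crest.Agent.EG.Basic

/-!
# Closing paths by connectors (blueprint Step E, CLOSING)

`U` and `Z` are disjoint vertex sets.  A connector from `a ∈ U` to `b ∈ U` is a walk of positive length
whose vertices other than its two ends lie in `Z`, all of whose edges have an end in `Z`
(so it is edge-disjoint from anything inside `U`).
-/

set_option autoImplicit false

namespace Crest.Agent.EG

open Finset
open scoped Classical

variable {V : Type}

/-- A connector: a walk from `a` to `b` (`a ≠ b` not assumed) all of whose vertices except the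
first and last lie in `Z`, with at least one interior vertex. -/
def IsConnector {G : SimpleGraph V} (Z : Set V) {a b : V} (J : G.Walk a b) : Prop :=
  a ∉ Z ∧ b ∉ Z ∧ 2 ≤ J.length ∧ ∀ i, 0 < i → i < J.length → J.getVert i ∈ Z

namespace ClosingAux

open SimpleGraph

variable {G : SimpleGraph V}

theorem mem_support_app {u v w x y : V} (p : G.Walk u v) (h : G.Adj v w) (q : G.Walk w x) :
    y ∈ (p.append (Walk.cons h q)).support ↔ y ∈ p.support ∨ y ∈ q.support := by
  rw [Walk.mem_support_append_iff, Walk.support_cons, List.mem_cons]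
  constructor
  · rintro (h1 | h1 | h1)
    · exact Or.inl h1
    · exact Or.inl (h1 ▸ p.end_mem_support)
    · exact Or.inr h1
  · rintro (h1 | h1)
    · exact Or.inl h1
    · exact Or.inr (Or.inr h1)

theorem mem_edges_app {u v w x : V} {e : Sym2 V} (p : G.Walk u v) (h : G.Adj v w) (q : G.Walk w x) :
    e ∈ (p.append (Walk.cons h q)).edges ↔ e ∈ p.edges ∨ e = s(v, w) ∨ e ∈ q.edges := by
  rw [Walk.edges_append, Walk.edges_cons, List.mem_append, List.mem_cons]

theorem isPath_app {u v w x : V} {p : G.Walk u v} {h : G.Adj v w} {q : G.Walk w x}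
    (hp : p.IsPath) (hq : q.IsPath) (hd : ∀ y ∈ p.support, y ∉ q.support) :
    (p.append (Walk.cons h q)).IsPath := by
  rw [Walk.isPath_def, Walk.support_append]
  simp only [Walk.support_cons, List.tail_cons]
  rw [List.nodup_append]
  refine ⟨(Walk.isPath_def _).1 hp, (Walk.isPath_def _).1 hq, ?_⟩
  intro x hx y hy hxy
  subst hxy
  exact hd x hx hy

/-- A vertex of an edge of a walk lies on the walk. -/
theorem mem_support_of_mem_edge {u v x : V} {p : G.Walk u v} {e : Sym2 V} (he : e ∈ p.edges)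
    (hx : x ∈ e) : x ∈ p.support := by
  induction e using Sym2.ind with
  | _ a b =>
    rcases Sym2.mem_iff.1 hx with rfl | rfl
    · exact Walk.fst_mem_support_of_mem_edges _ he
    · exact Walk.snd_mem_support_of_mem_edges _ he

/-- A path outside `X`, closed up through `X`. -/
theorem exists_cycle_of_path_connector (X : Set V) {a b a1 b1 : V} (P : G.Walk a b)
    (hP : P.IsPath) (hab : a ≠ b) (hPX : ∀ v ∈ P.support, v ∉ X)
    (hb : G.Adj b b1) (ha : G.Adj a1 a) (J : G.Walk b1 a1) (hJ : ∀ v ∈ J.support, v ∈ X) :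
    ∃ (x : V) (C : G.Walk x x), C.IsCycle ∧ (∀ e ∈ P.edges, e ∈ C.edges) ∧
      ∀ e ∈ C.edges, e ∈ P.edges ∨ e = s(b, b1) ∨ e = s(a1, a) ∨ e ∈ J.edges := by
  set J' : G.Walk b1 a1 := (J.toPath : G.Walk b1 a1) with hJ'def
  have hJ'p : J'.IsPath := J.toPath.2
  have hJ's : ∀ v ∈ J'.support, v ∈ X := fun v hv => hJ v (J.support_toPath_subset_support hv)
  have hJ'e : ∀ e ∈ J'.edges, e ∈ J.edges := fun e he => J.edges_toPath_subset_edges he
  have ha1X : a1 ∈ X := hJ's _ J'.end_mem_support
  have haP : a ∉ X := hPX _ P.start_mem_support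
  have hbP : b ∉ X := hPX _ P.end_mem_support
  set Q : G.Walk a a1 := P.append (Walk.cons hb J') with hQ
  have hQp : Q.IsPath := isPath_app hP hJ'p (fun y hy hy' => hPX y hy (hJ's y hy'))
  have hnot : s(a1, a) ∉ Q.edges := by
    rw [hQ, mem_edges_app]
    rintro (h | h | h)
    · exact hPX a1 (Walk.fst_mem_support_of_mem_edges _ h) ha1X
    · rcases Sym2.eq_iff.1 h with ⟨h1, _⟩ | ⟨_, h2⟩
      · exact hbP (h1 ▸ ha1X)
      · exact hab h2
    · exact haP (hJ's a (Walk.snd_mem_support_of_mem_edges _ h))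
  refine ⟨a1, Walk.cons ha Q, (Walk.cons_isCycle_iff _ _).2 ⟨hQp, hnot⟩, ?_, ?_⟩
  · intro e he
    rw [Walk.edges_cons, List.mem_cons, hQ, mem_edges_app]
    exact Or.inr (Or.inl he)
  · intro e he
    rw [Walk.edges_cons, List.mem_cons, hQ, mem_edges_app] at he
    rcases he with he | he | he | he
    · exact Or.inr (Or.inr (Or.inl he))
    · exact Or.inl he
    · exact Or.inr (Or.inl he)
    · exact Or.inr (Or.inr (Or.inr (hJ'e e he)))

/-- Decomposition of a connector into two link edges and an interior walk inside `Z`. -/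
theorem decomp {Z : Set V} {a b : V} {J : G.Walk a b} (h : IsConnector Z J) :
    ∃ (α α' : V) (h1 : G.Adj a α) (h2 : G.Adj α' b) (I : G.Walk α α'),
      (∀ v ∈ I.support, v ∈ Z) ∧ J = Walk.cons h1 (I.concat h2) := by
  obtain ⟨_, _, hlen, hint⟩ := h
  cases J with
  | nil => simp at hlen
  | @cons _ α _ h1 J' =>
    cases J' with
    | nil => simp at hlen
    | cons h2 J'' =>
      obtain ⟨x, q, h', heq⟩ := Walk.exists_cons_eq_concat h2 J''
      refine ⟨α, x, h1, h', q, ?_, by rw [heq]⟩
      intro v hv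
      obtain ⟨i, rfl, hi⟩ := Walk.mem_support_iff_exists_getVert.1 hv
      have h3 := hint (i + 1) (Nat.succ_pos _) (by
        rw [Walk.length_cons, heq, Walk.length_concat]
        omega)
      rw [Walk.getVert_cons_succ, heq, Walk.concat_eq_append, Walk.getVert_append'] at h3
      simpa [hi] using h3

end ClosingAux

open SimpleGraph

open ClosingAux in
/-- A path `P` from `a` to `b` with vertices outside `Z`, closed by a connector from `b` to `a`
which is a trail: the edges of `P` together with part of the connector form a cycle. -/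
theorem close_mono {G : SimpleGraph V} (Z : Set V) {a b : V} (P : G.Walk a b) (J : G.Walk b a)
    (hP : P.IsPath) (hP0 : 0 < P.length) (hPZ : ∀ v ∈ P.support, v ∉ Z) (hJ : IsConnector Z J) :
    ∃ E : Set (Sym2 V), {e | e ∈ P.edges} ⊆ E ∧ E ⊆ {e | e ∈ P.edges} ∪ {e | e ∈ J.edges} ∧
      Cov G E 1 := by
  obtain ⟨α, α', h1, h2, I, hI, rfl⟩ := decomp hJ
  have hab : a ≠ b := by
    rintro rfl
    have := Walk.length_eq_zero_iff.2 (Walk.isPath_iff_nil.1 hP)
    omega
  obtain ⟨x, C, hC, hC1, hC2⟩ := exists_cycle_of_path_connector Z P hP hab hPZ h1 h2 I hI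
  refine ⟨{e | e ∈ C.edges}, hC1, ?_, Cov.cycle C hC⟩
  intro e he
  rcases hC2 e he with h | h | h | h
  · exact Or.inl h
  · right
    simp [Walk.edges_cons, Walk.edges_concat, h]
  · right
    simp [Walk.edges_cons, Walk.edges_concat, h]
  · right
    simp [Walk.edges_cons, Walk.edges_concat, h]

open ClosingAux in
/-- Two vertex-disjoint paths `P : a₁ → a₂`, `P' : b₁ → b₂` outside `Z`, edge-disjoint connectors
`J₁ : a₁ → b₁`, `J₂ : a₂ → b₂`.  If the connectors are vertex-disjoint we get one cycle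
`a₁ P a₂ J₂ b₂ P'⁻¹ b₁ J₁⁻¹ a₁`; if they meet at `x` we get two edge-disjoint cycles, one through `P`
and one through `P'`: split `J₁` and `J₂` at `x` and shortcut. -/
theorem close_pair {G : SimpleGraph V} (Z : Set V) {a₁ a₂ b₁ b₂ : V}
    (P : G.Walk a₁ a₂) (P' : G.Walk b₁ b₂) (J₁ : G.Walk a₁ b₁) (J₂ : G.Walk a₂ b₂)
    (hP : P.IsPath) (hP0 : 0 < P.length) (hP' : P'.IsPath) (hP'0 : 0 < P'.length)
    (hPZ : ∀ v ∈ P.support, v ∉ Z) (hP'Z : ∀ v ∈ P'.support, v ∉ Z)
    (hdisj : List.Disjoint P.support P'.support)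
    (hJ₁ : IsConnector Z J₁) (hJ₂ : IsConnector Z J₂) (hJ₁t : J₁.IsTrail) (hJ₂t : J₂.IsTrail)
    (hJJ : List.Disjoint J₁.edges J₂.edges) :
    ∃ E : Set (Sym2 V), {e | e ∈ P.edges} ∪ {e | e ∈ P'.edges} ⊆ E ∧
      E ⊆ {e | e ∈ P.edges} ∪ {e | e ∈ P'.edges} ∪ {e | e ∈ J₁.edges} ∪ {e | e ∈ J₂.edges} ∧
      Cov G E 2 := by
  have haa : a₁ ≠ a₂ := by
    rintro rfl
    have := Walk.length_eq_zero_iff.2 (Walk.isPath_iff_nil.1 hP)
    omega
  have hbb : b₁ ≠ b₂ := by
    rintro rfl
    have := Walk.length_eq_zero_iff.2 (Walk.isPath_iff_nil.1 hP')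
    omega
  obtain ⟨α₁, α₁', h1a, h1b, I₁, hI₁, rfl⟩ := decomp hJ₁
  obtain ⟨α₂, α₂', h2a, h2b, I₂, hI₂, rfl⟩ := decomp hJ₂
  have hpp : ∀ y ∈ P.support, y ∉ P'.support := fun y h1 h2 => hdisj h1 h2
  have hα₁ : α₁ ∈ Z := hI₁ _ I₁.start_mem_support
  have hα₁' : α₁' ∈ Z := hI₁ _ I₁.end_mem_support
  have hα₂ : α₂ ∈ Z := hI₂ _ I₂.start_mem_support
  have hα₂' : α₂' ∈ Z := hI₂ _ I₂.end_mem_support
  have ha₁ : a₁ ∉ Z := hPZ _ P.start_mem_support
  have ha₂ : a₂ ∉ Z := hPZ _ P.end_mem_support
  have hb₁ : b₁ ∉ Z := hP'Z _ P'.start_mem_support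
  have hb₂ : b₂ ∉ Z := hP'Z _ P'.end_mem_support
  -- membership in the connector edge lists
  have hJ1mem : ∀ {e : Sym2 V}, e ∈ (Walk.cons h1a (I₁.concat h1b)).edges ↔
      e = s(a₁, α₁) ∨ e ∈ I₁.edges ∨ e = s(α₁', b₁) := by
    intro e
    simp [Walk.edges_cons, Walk.edges_concat, List.mem_append]
  have hJ2mem : ∀ {e : Sym2 V}, e ∈ (Walk.cons h2a (I₂.concat h2b)).edges ↔
      e = s(a₂, α₂) ∨ e ∈ I₂.edges ∨ e = s(α₂', b₂) := by
    intro e
    simp [Walk.edges_cons, Walk.edges_concat, List.mem_append]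
  by_cases hshare : ∃ x, x ∈ I₁.support ∧ x ∈ I₂.support
  · -- two cycles
    obtain ⟨x, hx1, hx2⟩ := hshare
    set A₁ := I₁.takeUntil x hx1 with hA₁
    set B₁ := I₁.dropUntil x hx1 with hB₁
    set A₂ := I₂.takeUntil x hx2 with hA₂
    set B₂ := I₂.dropUntil x hx2 with hB₂
    have hI₁e : I₁.edges = A₁.edges ++ B₁.edges := by
      conv_lhs => rw [← I₁.take_spec hx1]
      rw [Walk.edges_append]
    have hI₂e : I₂.edges = A₂.edges ++ B₂.edges := by
      conv_lhs => rw [← I₂.take_spec hx2]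
      rw [Walk.edges_append]
    have hA₁s : ∀ v ∈ A₁.support, v ∈ Z :=
      fun v hv => hI₁ v (I₁.support_takeUntil_subset_support hx1 hv)
    have hB₁s : ∀ v ∈ B₁.support, v ∈ Z :=
      fun v hv => hI₁ v (I₁.support_dropUntil_subset_support hx1 hv)
    have hA₂s : ∀ v ∈ A₂.support, v ∈ Z :=
      fun v hv => hI₂ v (I₂.support_takeUntil_subset_support hx2 hv)
    have hB₂s : ∀ v ∈ B₂.support, v ∈ Z :=
      fun v hv => hI₂ v (I₂.support_dropUntil_subset_support hx2 hv)
    -- first cycle through `P`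
    obtain ⟨y₁, C₁, hC₁, hC₁P, hC₁E⟩ := exists_cycle_of_path_connector Z P hP haa hPZ h2a h1a.symm
      (A₂.append A₁.reverse) (by
        intro v hv
        rw [Walk.mem_support_append_iff, Walk.support_reverse, List.mem_reverse] at hv
        exact hv.elim (hA₂s v) (hA₁s v))
    -- second cycle through `P'`
    obtain ⟨y₂, C₂, hC₂, hC₂P, hC₂E⟩ := exists_cycle_of_path_connector Z P' hP' hbb hP'Z h2b.symm h1b
      (B₂.reverse.append B₁) (by
        intro v hv
        rw [Walk.mem_support_append_iff, Walk.support_reverse, List.mem_reverse] at hv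
        exact hv.elim (hB₂s v) (hB₁s v))
    -- list-level facts from the trails
    have hN₁ : (s(a₁, α₁) :: (A₁.edges ++ (B₁.edges ++ [s(α₁', b₁)]))).Nodup := by
      have := hJ₁t.edges_nodup
      simpa [Walk.edges_cons, Walk.edges_concat, hI₁e, List.append_assoc] using this
    have hN₂ : (s(a₂, α₂) :: (A₂.edges ++ (B₂.edges ++ [s(α₂', b₂)]))).Nodup := by
      have := hJ₂t.edges_nodup
      simpa [Walk.edges_cons, Walk.edges_concat, hI₂e, List.append_assoc] using this
    -- classification of the edges of the two cycles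
    have hL : ∀ e ∈ C₁.edges, e ∈ P.edges ∨ e = s(a₁, α₁) ∨ e ∈ A₁.edges ∨
        e = s(a₂, α₂) ∨ e ∈ A₂.edges := by
      intro e he
      rcases hC₁E e he with h | h | h | h
      · exact Or.inl h
      · exact Or.inr (Or.inr (Or.inr (Or.inl h)))
      · right; left; rw [h]; exact Sym2.eq_swap
      · rw [Walk.edges_append, List.mem_append, Walk.edges_reverse, List.mem_reverse] at h
        rcases h with h | h
        · exact Or.inr (Or.inr (Or.inr (Or.inr h)))
        · exact Or.inr (Or.inr (Or.inl h))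
    have hR : ∀ e ∈ C₂.edges, e ∈ P'.edges ∨ e = s(α₁', b₁) ∨ e ∈ B₁.edges ∨
        e = s(α₂', b₂) ∨ e ∈ B₂.edges := by
      intro e he
      rcases hC₂E e he with h | h | h | h
      · exact Or.inl h
      · right; right; right; left; rw [h]; exact Sym2.eq_swap
      · exact Or.inr (Or.inl h)
      · rw [Walk.edges_append, List.mem_append, Walk.edges_reverse, List.mem_reverse] at h
        rcases h with h | h
        · exact Or.inr (Or.inr (Or.inr (Or.inr h)))
        · exact Or.inr (Or.inr (Or.inl h))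
    -- every edge on the connector side has an end in `Z`
    have hLZ : ∀ e, (e = s(a₁, α₁) ∨ e ∈ A₁.edges ∨ e = s(a₂, α₂) ∨ e ∈ A₂.edges) →
        e ∉ P'.edges := by
      intro e he hP'e
      rcases he with rfl | h | rfl | h
      · exact hP'Z α₁ (Walk.snd_mem_support_of_mem_edges _ hP'e) hα₁
      · induction e using Sym2.ind with
        | _ u v =>
          exact hP'Z u (Walk.fst_mem_support_of_mem_edges _ hP'e)
            (hA₁s u (Walk.fst_mem_support_of_mem_edges _ h))
      · exact hP'Z α₂ (Walk.snd_mem_support_of_mem_edges _ hP'e) hα₂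
      · induction e using Sym2.ind with
        | _ u v =>
          exact hP'Z u (Walk.fst_mem_support_of_mem_edges _ hP'e)
            (hA₂s u (Walk.fst_mem_support_of_mem_edges _ h))
    have hRZ : ∀ e, (e = s(α₁', b₁) ∨ e ∈ B₁.edges ∨ e = s(α₂', b₂) ∨ e ∈ B₂.edges) →
        e ∉ P.edges := by
      intro e he hPe
      rcases he with rfl | h | rfl | h
      · exact hPZ α₁' (Walk.fst_mem_support_of_mem_edges _ hPe) hα₁'
      · induction e using Sym2.ind with
        | _ u v =>
          exact hPZ u (Walk.fst_mem_support_of_mem_edges _ hPe)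
            (hB₁s u (Walk.fst_mem_support_of_mem_edges _ h))
      · exact hPZ α₂' (Walk.fst_mem_support_of_mem_edges _ hPe) hα₂'
      · induction e using Sym2.ind with
        | _ u v =>
          exact hPZ u (Walk.fst_mem_support_of_mem_edges _ hPe)
            (hB₂s u (Walk.fst_mem_support_of_mem_edges _ h))
    -- disjointness inside each trail
    have hD₁ : ∀ e, (e = s(a₁, α₁) ∨ e ∈ A₁.edges) → (e = s(α₁', b₁) ∨ e ∈ B₁.edges) → False := by
      intro e h1 h2
      rw [List.nodup_cons, List.nodup_append] at hN₁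
      obtain ⟨hn1, _, _, hn2⟩ := hN₁
      rcases h1 with rfl | h1
      · apply hn1
        simp only [List.mem_append, List.mem_singleton]
        rcases h2 with h2 | h2
        · exact Or.inr (Or.inr h2)
        · exact Or.inr (Or.inl h2)
      · refine hn2 _ h1 e ?_ rfl
        simp only [List.mem_append, List.mem_singleton]
        rcases h2 with h2 | h2
        · exact Or.inr h2
        · exact Or.inl h2
    have hD₂ : ∀ e, (e = s(a₂, α₂) ∨ e ∈ A₂.edges) → (e = s(α₂', b₂) ∨ e ∈ B₂.edges) → False := by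
      intro e h1 h2
      rw [List.nodup_cons, List.nodup_append] at hN₂
      obtain ⟨hn1, _, _, hn2⟩ := hN₂
      rcases h1 with rfl | h1
      · apply hn1
        simp only [List.mem_append, List.mem_singleton]
        rcases h2 with h2 | h2
        · exact Or.inr (Or.inr h2)
        · exact Or.inr (Or.inl h2)
      · refine hn2 _ h1 e ?_ rfl
        simp only [List.mem_append, List.mem_singleton]
        rcases h2 with h2 | h2
        · exact Or.inr h2
        · exact Or.inl h2
    have hin₁ : ∀ e, (e = s(a₁, α₁) ∨ e ∈ A₁.edges ∨ e = s(α₁', b₁) ∨ e ∈ B₁.edges) →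
        e ∈ (Walk.cons h1a (I₁.concat h1b)).edges := by
      intro e he
      rw [hJ1mem, hI₁e, List.mem_append]
      rcases he with h | h | h | h
      · exact Or.inl h
      · exact Or.inr (Or.inl (Or.inl h))
      · exact Or.inr (Or.inr h)
      · exact Or.inr (Or.inl (Or.inr h))
    have hin₂ : ∀ e, (e = s(a₂, α₂) ∨ e ∈ A₂.edges ∨ e = s(α₂', b₂) ∨ e ∈ B₂.edges) →
        e ∈ (Walk.cons h2a (I₂.concat h2b)).edges := by
      intro e he
      rw [hJ2mem, hI₂e, List.mem_append]
      rcases he with h | h | h | h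
      · exact Or.inl h
      · exact Or.inr (Or.inl (Or.inl h))
      · exact Or.inr (Or.inr h)
      · exact Or.inr (Or.inl (Or.inr h))
    have hcov := (Cov.cycle C₁ hC₁).union (Cov.cycle C₂ hC₂) (by
      rw [Set.disjoint_left]
      intro e he1 he2
      rcases hL e he1 with h | h | h | h | h <;> rcases hR e he2 with h' | h' | h' | h' | h'
      · -- `P` against `P'`
        induction e using Sym2.ind with
        | _ u v =>
          exact hpp u (Walk.fst_mem_support_of_mem_edges _ h)
            (Walk.fst_mem_support_of_mem_edges _ h')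
      · exact hRZ e (Or.inl h') h
      · exact hRZ e (Or.inr (Or.inl h')) h
      · exact hRZ e (Or.inr (Or.inr (Or.inl h'))) h
      · exact hRZ e (Or.inr (Or.inr (Or.inr h'))) h
      · exact hLZ e (Or.inl h) h'
      · exact hD₁ e (Or.inl h) (Or.inl h')
      · exact hD₁ e (Or.inl h) (Or.inr h')
      · exact hJJ (hin₁ e (Or.inl h)) (hin₂ e (Or.inr (Or.inr (Or.inl h'))))
      · exact hJJ (hin₁ e (Or.inl h)) (hin₂ e (Or.inr (Or.inr (Or.inr h'))))
      · exact hLZ e (Or.inr (Or.inl h)) h'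
      · exact hD₁ e (Or.inr h) (Or.inl h')
      · exact hD₁ e (Or.inr h) (Or.inr h')
      · exact hJJ (hin₁ e (Or.inr (Or.inl h))) (hin₂ e (Or.inr (Or.inr (Or.inl h'))))
      · exact hJJ (hin₁ e (Or.inr (Or.inl h))) (hin₂ e (Or.inr (Or.inr (Or.inr h'))))
      · exact hLZ e (Or.inr (Or.inr (Or.inl h))) h'
      · exact hJJ (hin₁ e (Or.inr (Or.inr (Or.inl h')))) (hin₂ e (Or.inl h))
      · exact hJJ (hin₁ e (Or.inr (Or.inr (Or.inr h')))) (hin₂ e (Or.inl h))
      · exact hD₂ e (Or.inl h) (Or.inl h')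
      · exact hD₂ e (Or.inl h) (Or.inr h')
      · exact hLZ e (Or.inr (Or.inr (Or.inr h))) h'
      · exact hJJ (hin₁ e (Or.inr (Or.inr (Or.inl h')))) (hin₂ e (Or.inr (Or.inl h)))
      · exact hJJ (hin₁ e (Or.inr (Or.inr (Or.inr h')))) (hin₂ e (Or.inr (Or.inl h)))
      · exact hD₂ e (Or.inr h) (Or.inl h')
      · exact hD₂ e (Or.inr h) (Or.inr h'))
    refine ⟨{e | e ∈ C₁.edges} ∪ {e | e ∈ C₂.edges}, ?_, ?_, hcov⟩
    · rintro e (he | he)
      · exact Or.inl (hC₁P e he)
      · exact Or.inr (hC₂P e he)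
    · rintro e (he | he)
      · rcases hL e he with h | h | h | h | h
        · exact Or.inl (Or.inl (Or.inl h))
        · exact Or.inl (Or.inr (hin₁ e (Or.inl h)))
        · exact Or.inl (Or.inr (hin₁ e (Or.inr (Or.inl h))))
        · exact Or.inr (hin₂ e (Or.inl h))
        · exact Or.inr (hin₂ e (Or.inr (Or.inl h)))
      · rcases hR e he with h | h | h | h | h
        · exact Or.inl (Or.inl (Or.inr h))
        · exact Or.inl (Or.inr (hin₁ e (Or.inr (Or.inr (Or.inl h)))))
        · exact Or.inl (Or.inr (hin₁ e (Or.inr (Or.inr (Or.inr h)))))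
        · exact Or.inr (hin₂ e (Or.inr (Or.inr (Or.inl h))))
        · exact Or.inr (hin₂ e (Or.inr (Or.inr (Or.inr h))))
  · -- one cycle
    have hsh : ∀ y ∈ I₁.support, y ∉ I₂.support := fun y h1 h2 => hshare ⟨y, h1, h2⟩
    set K₁ : G.Walk α₁ α₁' := (I₁.toPath : G.Walk α₁ α₁') with hK₁
    set K₂ : G.Walk α₂ α₂' := (I₂.toPath : G.Walk α₂ α₂') with hK₂
    have hK₁p : K₁.IsPath := I₁.toPath.2
    have hK₂p : K₂.IsPath := I₂.toPath.2
    have hK₁s : ∀ v ∈ K₁.support, v ∈ I₁.support := fun v hv => I₁.support_toPath_subset_support hv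
    have hK₂s : ∀ v ∈ K₂.support, v ∈ I₂.support := fun v hv => I₂.support_toPath_subset_support hv
    have hK₁e : ∀ e ∈ K₁.edges, e ∈ I₁.edges := fun e he => I₁.edges_toPath_subset_edges he
    have hK₂e : ∀ e ∈ K₂.edges, e ∈ I₂.edges := fun e he => I₂.edges_toPath_subset_edges he
    -- the walk from `b₁` to `α₁`
    set R3 : G.Walk b₁ α₁ := Walk.cons h1b.symm K₁.reverse with hR3
    have hR3p : R3.IsPath := by
      rw [hR3, Walk.cons_isPath_iff]
      refine ⟨hK₁p.reverse, ?_⟩
      rw [Walk.support_reverse, List.mem_reverse]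
      intro h
      exact hb₁ (hI₁ _ (hK₁s _ h))
    have hR3s : ∀ {y}, y ∈ R3.support → y = b₁ ∨ y ∈ I₁.support := by
      intro y hy
      rw [hR3, Walk.support_cons, List.mem_cons, Walk.support_reverse, List.mem_reverse] at hy
      exact hy.imp id (hK₁s y)
    -- the walk from `b₂` to `α₁`
    set R2 : G.Walk b₂ α₁ := P'.reverse.append R3 with hR2
    have hR2p : R2.IsPath := by
      rw [hR2, hR3]
      refine isPath_app hP'.reverse hK₁p.reverse ?_
      intro y hy hy'
      rw [Walk.support_reverse, List.mem_reverse] at hy hy'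
      exact hP'Z y hy (hI₁ _ (hK₁s _ hy'))
    have hR2s : ∀ {y}, y ∈ R2.support → y ∈ P'.support ∨ y ∈ I₁.support := by
      intro y hy
      rw [hR2, Walk.mem_support_append_iff, Walk.support_reverse, List.mem_reverse] at hy
      rcases hy with hy | hy
      · exact Or.inl hy
      · rcases hR3s hy with rfl | hy
        · exact Or.inl P'.start_mem_support
        · exact Or.inr hy
    -- the walk from `α₂` to `α₁`
    set R1 : G.Walk α₂ α₁ := K₂.append (Walk.cons h2b R2) with hR1
    have hR1p : R1.IsPath := by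
      refine isPath_app hK₂p hR2p ?_
      intro y hy hy'
      rcases hR2s hy' with h | h
      · exact hP'Z y h (hI₂ _ (hK₂s _ hy))
      · exact hsh y h (hK₂s _ hy)
    have hR1s : ∀ {y}, y ∈ R1.support → y ∈ I₂.support ∨ y ∈ P'.support ∨ y ∈ I₁.support := by
      intro y hy
      rw [hR1, mem_support_app] at hy
      rcases hy with hy | hy
      · exact Or.inl (hK₂s _ hy)
      · exact Or.inr (hR2s hy)
    -- the whole path from `a₁` to `α₁`
    set Q : G.Walk a₁ α₁ := P.append (Walk.cons h2a R1) with hQ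
    have hQp : Q.IsPath := by
      refine isPath_app hP hR1p ?_
      intro y hy hy'
      rcases hR1s hy' with h | h | h
      · exact hPZ y hy (hI₂ _ h)
      · exact hpp y hy h
      · exact hPZ y hy (hI₁ _ h)
    -- edges of `Q`
    have hQe : ∀ e ∈ Q.edges, e ∈ P.edges ∨ e = s(a₂, α₂) ∨ e ∈ K₂.edges ∨ e = s(α₂', b₂) ∨
        e ∈ P'.edges ∨ e = s(b₁, α₁') ∨ e ∈ K₁.edges := by
      intro e he
      rw [hQ, mem_edges_app, hR1, mem_edges_app, hR2, Walk.edges_append, List.mem_append,
        Walk.edges_reverse, List.mem_reverse, hR3, Walk.edges_cons, List.mem_cons,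
        Walk.edges_reverse, List.mem_reverse] at he
      tauto
    have hnot : s(α₁, a₁) ∉ Q.edges := by
      intro h
      rcases hQe _ h with h | h | h | h | h | h | h
      · exact hPZ α₁ (Walk.fst_mem_support_of_mem_edges _ h) hα₁
      · rcases Sym2.eq_iff.1 h with ⟨h1, _⟩ | ⟨_, h1⟩
        · exact ha₂ (h1 ▸ hα₁)
        · exact haa h1
      · exact ha₁ (hI₂ _ (hK₂s _ (Walk.snd_mem_support_of_mem_edges _ h)))
      · rcases Sym2.eq_iff.1 h with ⟨_, h1⟩ | ⟨_, h1⟩
        · exact hpp a₁ P.start_mem_support (h1 ▸ P'.end_mem_support)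
        · exact ha₁ (h1 ▸ hα₂')
      · exact hP'Z α₁ (Walk.fst_mem_support_of_mem_edges _ h) hα₁
      · rcases Sym2.eq_iff.1 h with ⟨h1, _⟩ | ⟨_, h1⟩
        · exact hb₁ (h1 ▸ hα₁)
        · exact hpp a₁ P.start_mem_support (h1 ▸ P'.start_mem_support)
      · exact ha₁ (hI₁ _ (hK₁s _ (Walk.snd_mem_support_of_mem_edges _ h)))
    have hC : (Walk.cons h1a.symm Q).IsCycle := (Walk.cons_isCycle_iff _ _).2 ⟨hQp, hnot⟩
    refine ⟨{e | e ∈ (Walk.cons h1a.symm Q).edges}, ?_, ?_, (Cov.cycle _ hC).mono (by norm_num)⟩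
    · rintro e (he | he)
      · show e ∈ (Walk.cons h1a.symm Q).edges
        rw [Walk.edges_cons, List.mem_cons, hQ, mem_edges_app]
        exact Or.inr (Or.inl he)
      · show e ∈ (Walk.cons h1a.symm Q).edges
        rw [Walk.edges_cons, List.mem_cons, hQ, mem_edges_app, hR1, mem_edges_app, hR2,
          Walk.edges_append, List.mem_append, Walk.edges_reverse, List.mem_reverse]
        exact Or.inr (Or.inr (Or.inr (Or.inr (Or.inr (Or.inl he)))))
    · intro e he
      have he' : e ∈ (Walk.cons h1a.symm Q).edges := he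
      rw [Walk.edges_cons, List.mem_cons] at he'
      rcases he' with he' | he'
      · exact Or.inl (Or.inr (hJ1mem.2 (Or.inl (he'.trans Sym2.eq_swap))))
      · rcases hQe e he' with h | h | h | h | h | h | h
        · exact Or.inl (Or.inl (Or.inl h))
        · exact Or.inr (hJ2mem.2 (Or.inl h))
        · exact Or.inr (hJ2mem.2 (Or.inr (Or.inl (hK₂e e h))))
        · exact Or.inr (hJ2mem.2 (Or.inr (Or.inr h)))
        · exact Or.inl (Or.inl (Or.inr h))
        · exact Or.inl (Or.inr (hJ1mem.2 (Or.inr (Or.inr (h.trans Sym2.eq_swap)))))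
        · exact Or.inl (Or.inr (hJ1mem.2 (Or.inr (Or.inl (hK₁e e h)))))

end Crest.Agent.EG
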