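import Crest.Agent.EG.Basic

/-!
# The one probabilistic lemma of S0064 (blueprint Step B)

Exponential Markov on uniform colourings, union bound.
-/

set_option autoImplicit false

namespace Crest.Agent.EG

open Finset
open scoped Classical

/-- For one pair `(G, c₀)`: the number of colourings with fewer than `|G|/20` points of `G` of
colour `c₀` is at most `b ^ |G| * 10 ^ |α|`, `b = (9 + s ^ 20) / (10 s)`, `s = 24/25`
(exponential Markov with weight `s ^ (20 cnt)`). -/
private theorem bad_count {α κ : Type} [Fintype α] [Fintype κ]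
    (hκ : Fintype.card κ = 10) (G : Finset α) (c₀ : κ) :
    (((univ : Finset (α → κ)).filter
        fun χ => 20 * (G.filter fun x => χ x = c₀).card < G.card).card : ℝ) * (24 / 25 : ℝ) ^ G.card
      ≤ ((9 + (24 / 25 : ℝ) ^ 20) / 10) ^ G.card * (10 : ℝ) ^ Fintype.card α := by
  set s : ℝ := 24 / 25 with hs
  have hs0 : 0 < s := by rw [hs]; norm_num
  have hs1 : s ≤ 1 := by rw [hs]; norm_num
  set q : ℝ := s ^ 20 with hq
  have hq0 : 0 ≤ q := by positivity
  -- weight of one colouring
  let w : (α → κ) → ℝ := fun χ => ∏ x, (if x ∈ G ∧ χ x = c₀ then q else 1)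
  have hw_eq : ∀ χ : α → κ, w χ = s ^ (20 * (G.filter fun x => χ x = c₀).card) := by
    intro χ
    have h1 : ∏ x, (if x ∈ G ∧ χ x = c₀ then q else 1)
        = ∏ x ∈ (univ : Finset α).filter (fun x => x ∈ G ∧ χ x = c₀), q := by
      rw [Finset.prod_filter]
    have h2 : (univ : Finset α).filter (fun x => x ∈ G ∧ χ x = c₀)
        = G.filter fun x => χ x = c₀ := by
      ext x; simp
    change ∏ x, (if x ∈ G ∧ χ x = c₀ then q else 1) = _
    rw [h1, h2, Finset.prod_const, hq, ← pow_mul]
  have hw_nonneg : ∀ χ : α → κ, 0 ≤ w χ := fun χ => by rw [hw_eq]; positivity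
  -- total weight
  have hsum : ∑ χ : α → κ, w χ = ((9 + q) / 10) ^ G.card * (10 : ℝ) ^ Fintype.card α := by
    have h1 : ∑ χ : α → κ, w χ
        = ∏ x : α, ∑ k : κ, (if x ∈ G ∧ k = c₀ then q else 1) := by
      have := Finset.prod_univ_sum (fun _ : α => (univ : Finset κ))
        (fun x k => if x ∈ G ∧ k = c₀ then q else (1 : ℝ))
      rw [this, Fintype.piFinset_univ]
    have h2 : ∀ x : α, ∑ k : κ, (if x ∈ G ∧ k = c₀ then q else (1 : ℝ))
        = (if x ∈ G then (9 + q) / 10 else 1) * 10 := by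
      intro x
      by_cases hx : x ∈ G
      · simp only [hx, true_and, if_true]
        have : ∀ k : κ, (if k = c₀ then q else (1 : ℝ)) = 1 + (if k = c₀ then q - 1 else 0) := by
          intro k; split_ifs <;> ring
        simp only [this, Finset.sum_add_distrib, Finset.sum_ite_eq', Finset.mem_univ, if_true,
          Finset.sum_const, Finset.card_univ, hκ, nsmul_eq_mul, mul_one]
        push_cast
        ring
      · simp [hx, hκ]
    rw [h1, Finset.prod_congr rfl (fun x _ => h2 x), Finset.prod_mul_distrib]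
    congr 1
    · rw [Finset.prod_ite_mem, Finset.univ_inter, Finset.prod_const]
    · rw [Finset.prod_const, Finset.card_univ]
  -- Markov
  have hbad : ∀ χ ∈ (univ : Finset (α → κ)).filter
      (fun χ => 20 * (G.filter fun x => χ x = c₀).card < G.card), s ^ G.card ≤ w χ := by
    intro χ hχ
    rw [hw_eq]
    exact pow_le_pow_of_le_one hs0.le hs1 (le_of_lt (Finset.mem_filter.mp hχ).2)
  calc (((univ : Finset (α → κ)).filter
        fun χ => 20 * (G.filter fun x => χ x = c₀).card < G.card).card : ℝ) * s ^ G.card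
      = ∑ _χ ∈ (univ : Finset (α → κ)).filter
        (fun χ => 20 * (G.filter fun x => χ x = c₀).card < G.card), s ^ G.card := by
        rw [Finset.sum_const, nsmul_eq_mul]
    _ ≤ ∑ χ ∈ (univ : Finset (α → κ)).filter
        (fun χ => 20 * (G.filter fun x => χ x = c₀).card < G.card), w χ :=
        Finset.sum_le_sum hbad
    _ ≤ ∑ χ : α → κ, w χ :=
        Finset.sum_le_sum_of_subset_of_nonneg (Finset.filter_subset _ _)
          (fun χ _ _ => hw_nonneg χ)
    _ = _ := hsum

/-- Uniform colouring with 10 colours.  For one pair `(X, c)`: the number `cnt` of elements of `X`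
with colour `c` has `E[2^{-cnt}] = (19/20)^{|X|}`, so `P(20 cnt < |X|) ≤ (19/20)^{|X|} 2^{|X|/20}
≤ (3/4)^{|X|/20}`, since `(19/20)^20 * 2 < 3/4`. -/
theorem exists_coloring {α κ ι : Type} [Fintype α] [Fintype κ] [Fintype ι]
    (hκ : Fintype.card κ = 10) (F : ι → Finset α) (c : ι → κ) (m : ℕ)
    (hm : ∀ i, 20 * m ≤ (F i).card)
    (hι : (Fintype.card ι : ℝ) * (3 / 4 : ℝ) ^ m < 1) :
    ∃ χ : α → κ, ∀ i, (F i).card ≤ 20 * ((F i).filter fun x => χ x = c i).card := by
  by_contra hcon
  push Not at hcon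
  -- `b` is the per-point ratio
  set b : ℝ := (9 + (24 / 25 : ℝ) ^ 20) / 10 / (24 / 25) with hb
  have hb0 : 0 < b := by rw [hb]; positivity
  have hb1 : b ≤ 1 := by rw [hb]; norm_num
  have hb20 : b ^ 20 ≤ 3 / 4 := by rw [hb]; norm_num
  have hΩ : (0 : ℝ) < (10 : ℝ) ^ Fintype.card α := by positivity
  -- count of bad colourings for one index
  have hone : ∀ i, (((univ : Finset (α → κ)).filter
      fun χ => 20 * ((F i).filter fun x => χ x = c i).card < (F i).card).card : ℝ)
        ≤ (3 / 4 : ℝ) ^ m * (10 : ℝ) ^ Fintype.card α := by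
    intro i
    have h := bad_count (α := α) hκ (F i) (c i)
    have hspos : (0 : ℝ) < (24 / 25 : ℝ) ^ (F i).card := by positivity
    have h1 : (((univ : Finset (α → κ)).filter
        fun χ => 20 * ((F i).filter fun x => χ x = c i).card < (F i).card).card : ℝ)
        ≤ b ^ (F i).card * (10 : ℝ) ^ Fintype.card α := by
      have hbpow : b ^ (F i).card * (24 / 25 : ℝ) ^ (F i).card
          = ((9 + (24 / 25 : ℝ) ^ 20) / 10) ^ (F i).card := by
        rw [← mul_pow, hb]
        congr 1
        field_simp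
      refine le_of_mul_le_mul_right ?_ hspos
      calc _ ≤ _ := h
        _ = (b ^ (F i).card * (10 : ℝ) ^ Fintype.card α) * (24 / 25 : ℝ) ^ (F i).card := by
            rw [← hbpow]; ring
    have h2 : b ^ (F i).card ≤ (3 / 4 : ℝ) ^ m := by
      calc b ^ (F i).card ≤ b ^ (20 * m) := pow_le_pow_of_le_one hb0.le hb1 (hm i)
        _ = (b ^ 20) ^ m := pow_mul _ _ _
        _ ≤ (3 / 4 : ℝ) ^ m := pow_le_pow_left₀ (by positivity) hb20 m
    exact h1.trans (mul_le_mul_of_nonneg_right h2 hΩ.le)
  -- union bound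
  have hcover : (univ : Finset (α → κ)) ⊆ univ.biUnion fun i : ι =>
      (univ : Finset (α → κ)).filter
        fun χ => 20 * ((F i).filter fun x => χ x = c i).card < (F i).card := by
    intro χ _
    obtain ⟨i, hi⟩ := hcon χ
    exact Finset.mem_biUnion.mpr ⟨i, Finset.mem_univ _, Finset.mem_filter.mpr ⟨Finset.mem_univ _, hi⟩⟩
  have hcard : (Fintype.card (α → κ) : ℝ) = (10 : ℝ) ^ Fintype.card α := by
    rw [Fintype.card_fun, hκ]; push_cast; rfl
  have hle : (Fintype.card (α → κ) : ℝ)
      ≤ (Fintype.card ι : ℝ) * ((3 / 4 : ℝ) ^ m * (10 : ℝ) ^ Fintype.card α) := by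
    have h1 : (Fintype.card (α → κ) : ℝ) ≤ ∑ i : ι, (((univ : Finset (α → κ)).filter
        fun χ => 20 * ((F i).filter fun x => χ x = c i).card < (F i).card).card : ℝ) := by
      have := (Finset.card_le_card hcover).trans Finset.card_biUnion_le
      rw [Finset.card_univ] at this
      exact_mod_cast this
    refine h1.trans ?_
    calc _ ≤ ∑ _i : ι, ((3 / 4 : ℝ) ^ m * (10 : ℝ) ^ Fintype.card α) :=
          Finset.sum_le_sum fun i _ => hone i
      _ = _ := by rw [Finset.sum_const, Finset.card_univ, nsmul_eq_mul]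
  rw [hcard] at hle
  have : (10 : ℝ) ^ Fintype.card α < (10 : ℝ) ^ Fintype.card α := by
    calc (10 : ℝ) ^ Fintype.card α
        ≤ (Fintype.card ι : ℝ) * ((3 / 4 : ℝ) ^ m * (10 : ℝ) ^ Fintype.card α) := hle
      _ = ((Fintype.card ι : ℝ) * (3 / 4 : ℝ) ^ m) * (10 : ℝ) ^ Fintype.card α := by ring
      _ < 1 * (10 : ℝ) ^ Fintype.card α := mul_lt_mul_of_pos_right hι hΩ
      _ = _ := one_mul _
  exact lt_irrefl _ this

end Crest.Agent.EG
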