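import Crest.Agent.EG.Basic

/-!
# Hall with capacities, and disjoint option groups (blueprint Step D)
-/

set_option autoImplicit false

namespace Crest.Agent.EG

open Finset
open scoped Classical

/-- Left vertices have at least `D` options, an option `r` is offered to at most `c r * D` left
vertices.  Then each left vertex can pick an option so that `r` is picked at most `c r` times.
(Hall on `c r` copies of `r`.)  (`R` is assumed nonempty only to define `f` off `U`.) -/
theorem hall_capacity {L R : Type} [Fintype L] [Fintype R] [Nonempty R] (U : Finset L)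
    (Nb : L → Finset R) (D : ℕ) (c : R → ℕ) (hD : 0 < D)
    (hl : ∀ l ∈ U, D ≤ (Nb l).card)
    (hr : ∀ r, (U.filter fun l => r ∈ Nb l).card ≤ c r * D) :
    ∃ f : L → R, (∀ l ∈ U, f l ∈ Nb l) ∧ ∀ r, (U.filter fun l => f l = r).card ≤ c r := by
  classical
  -- copies of the options
  let t : U → Finset (Σ r : R, Fin (c r)) := fun l =>
    (Nb l.1).sigma fun r => (univ : Finset (Fin (c r)))
  have hall : ∀ s : Finset U, s.card ≤ (s.biUnion t).card := by
    intro s
    -- the set of options offered to `s`
    let B : Finset R := s.biUnion fun l => Nb l.1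
    have hsub : B.sigma (fun r => (univ : Finset (Fin (c r)))) ⊆ s.biUnion t := by
      intro x hx
      simp only [mem_sigma, mem_univ, and_true] at hx
      obtain ⟨l, hls, hlx⟩ := mem_biUnion.mp hx
      exact mem_biUnion.mpr ⟨l, hls, by simp [t, hlx]⟩
    have hcard : ∑ r ∈ B, c r ≤ (s.biUnion t).card := by
      have := card_le_card hsub
      simpa [card_sigma] using this
    have hdc : D * s.card ≤ (∑ r ∈ B, c r) * D := by
      calc D * s.card = ∑ l ∈ s, D := by simp [mul_comm]
        _ ≤ ∑ l ∈ s, (Nb l.1).card := sum_le_sum fun l _ => hl l.1 l.2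
        _ = ∑ l ∈ s, ∑ r ∈ B, if r ∈ Nb l.1 then 1 else 0 := by
            refine sum_congr rfl fun l hl' => ?_
            have hsubl : Nb l.1 ⊆ B := fun r hr' => mem_biUnion.mpr ⟨l, hl', hr'⟩
            rw [sum_ite_mem, inter_eq_right.mpr hsubl]
            simp
        _ = ∑ r ∈ B, ∑ l ∈ s, if r ∈ Nb l.1 then 1 else 0 := sum_comm
        _ ≤ ∑ r ∈ B, c r * D := by
            refine sum_le_sum fun r _ => ?_
            refine le_trans ?_ (hr r)
            rw [← card_filter]
            -- inject `s.filter` into `U.filter`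
            refine card_le_card_of_injOn (fun l => l.1) ?_ ?_
            · intro l hl'
              have h' := mem_filter.mp (mem_coe.mp hl')
              exact mem_coe.mpr (mem_filter.mpr ⟨l.2, h'.2⟩)
            · intro a _ b _ hab
              exact Subtype.ext hab
        _ = (∑ r ∈ B, c r) * D := by rw [sum_mul]
    have : s.card ≤ ∑ r ∈ B, c r := by
      have h2 : s.card * D ≤ (∑ r ∈ B, c r) * D := by rw [mul_comm]; exact hdc
      exact Nat.le_of_mul_le_mul_right h2 hD
    exact this.trans hcard
  obtain ⟨g, hginj, hgt⟩ := (all_card_le_biUnion_card_iff_exists_injective t).mp hall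
  refine ⟨fun l => if h : l ∈ U then (g ⟨l, h⟩).1 else Classical.arbitrary R, ?_, ?_⟩
  · intro l hl'
    have := hgt ⟨l, hl'⟩
    simp only [t, mem_sigma, mem_univ, and_true] at this
    simpa [hl'] using this
  · intro r
    -- the map `l ↦ (g l).2` is injective on the fibre of `r`
    have hinj : ∀ l ∈ U.filter (fun l => (if h : l ∈ U then (g ⟨l, h⟩).1 else
        Classical.arbitrary R) = r), ∃ i : Fin (c r), ∃ h : l ∈ U, g ⟨l, h⟩ = ⟨r, i⟩ := by
      intro l hl'
      obtain ⟨hlU, hlr⟩ := mem_filter.mp hl'
      simp only [hlU, dif_pos] at hlr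
      subst hlr
      exact ⟨(g ⟨l, hlU⟩).2, hlU, rfl⟩
    rcases eq_empty_or_nonempty (U.filter (fun l => (if h : l ∈ U then (g ⟨l, h⟩).1 else
        Classical.arbitrary R) = r)) with hemp | ⟨l₀, hl₀⟩
    · rw [hemp]; simp
    obtain ⟨i₀, _⟩ := hinj l₀ hl₀
    have : Nonempty (Fin (c r)) := ⟨i₀⟩
    choose! φ hφ using hinj
    have : (U.filter (fun l => (if h : l ∈ U then (g ⟨l, h⟩).1 else
        Classical.arbitrary R) = r)).card ≤ (univ : Finset (Fin (c r))).card := by
      refine card_le_card_of_injOn φ (fun _ _ => mem_coe.mpr (mem_univ _)) ?_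
      intro a ha b hb hab
      obtain ⟨ha', hga⟩ := hφ a (mem_coe.mp ha)
      obtain ⟨hb', hgb⟩ := hφ b (mem_coe.mp hb)
      have : g ⟨a, ha'⟩ = g ⟨b, hb'⟩ := by rw [hga, hgb]; simp only [show φ a = φ b from hab]
      have h3 := hginj this
      exact congrArg Subtype.val h3
    simpa using this

/-- Split a finset of size `≥ k g` into `k` pairwise disjoint groups of size `≥ g`. -/
theorem exists_groups {R : Type} (O : Finset R) (k g : ℕ) (hO : k * g ≤ O.card) :
    ∃ G : Fin k → Finset R, (∀ i, G i ⊆ O ∧ g ≤ (G i).card) ∧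
      ∀ i j, i ≠ j → Disjoint (G i) (G j) := by
  classical
  induction k generalizing O with
  | zero => exact ⟨fun i => i.elim0, fun i => i.elim0, fun i => i.elim0⟩
  | succ k ih =>
    have hg : g ≤ O.card := by
      have : (k + 1) * g = k * g + g := by ring
      omega
    obtain ⟨A, hAO, hA⟩ := exists_subset_card_eq hg
    have hrest : k * g ≤ (O \ A).card := by
      rw [card_sdiff_of_subset hAO, hA]
      have : (k + 1) * g = k * g + g := by ring
      omega
    obtain ⟨G, hG, hdis⟩ := ih (O \ A) hrest
    refine ⟨Fin.cons A G, ?_, ?_⟩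
    · intro i
      refine Fin.cases ?_ (fun j => ?_) i
      · simpa using ⟨hAO, hA.ge⟩
      · simp only [Fin.cons_succ]
        exact ⟨(hG j).1.trans sdiff_subset, (hG j).2⟩
    · intro i j
      refine Fin.cases ?_ (fun i' => ?_) i <;> refine Fin.cases ?_ (fun j' => ?_) j
      · intro h; exact absurd rfl h
      · intro _
        simp only [Fin.cons_zero, Fin.cons_succ]
        exact (disjoint_of_subset_left (hG j').1 sdiff_disjoint).symm
      · intro _
        simp only [Fin.cons_zero, Fin.cons_succ]
        exact disjoint_of_subset_left (hG i').1 sdiff_disjoint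
      · intro h
        simp only [Fin.cons_succ]
        exact hdis i' j' (fun hij => h (by rw [hij]))

end Crest.Agent.EG
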