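import Crest.Agent.EG.Setup
import Crest.Agent.EG.Hall

/-!
# Link tables for one network (S0064 blueprint Step D)
-/

set_option autoImplicit false

namespace Crest.Agent.EG

open Finset
open scoped Classical

variable {V : Type} [Fintype V]

/-- Index set of the attach units. -/
noncomputable def attIdx (U' : Finset V) (lb : V → Finset ℕ) (r : ℕ) : Finset (V × ℕ × Fin 2) :=
  (U' ×ˢ (range r) ×ˢ (univ : Finset (Fin 2))).filter fun q => q.2.1 ∈ lb q.1

namespace Par

variable (P : Par)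

theorem tables_d₀_big : 10 ^ 73 * P.Λ ^ 23 ≤ P.d₀ := by
  have h1 := P.hn_big
  have h2 := P.hn_d
  have hΛ : 0 < P.Λ := by have := P.hΛ; omega
  have : P.Λ * (10 ^ 73 * P.Λ ^ 23) ≤ P.Λ * P.d₀ := by
    calc P.Λ * (10 ^ 73 * P.Λ ^ 23) = 10 ^ 73 * P.Λ ^ 24 := by ring
      _ ≤ P.n := h1
      _ ≤ P.Λ * P.d₀ := h2
  exact Nat.le_of_mul_le_mul_left this hΛ

theorem tables_num1 : 40 * (P.M * Par.Ga + 2 * P.t₁) ≤ P.d₀ := by
  have h0 := P.tables_d₀_big
  have hΛ : 1 ≤ P.Λ := by have := P.hΛ; omega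
  have hx : 1 ≤ P.Λ ^ 7 := Nat.one_le_pow _ _ hΛ
  have hy : P.Λ ^ 7 ≤ P.Λ ^ 23 := Nat.pow_le_pow_right hΛ (by norm_num)
  simp only [Par.M, Par.Ga, Par.t₁]
  generalize P.Λ ^ 7 = x at *
  generalize P.Λ ^ 23 = y at *
  nlinarith

theorem tables_d₂ : 128 ≤ P.d₂ := by
  have h0 := P.tables_d₀_big
  have hΛ : 1 ≤ P.Λ := by have := P.hΛ; omega
  have hy : 1 ≤ P.Λ ^ 23 := Nat.one_le_pow _ _ hΛ
  have h1 : 40 * (4 * 128) ≤ P.d₀ := by
    have : 10 ^ 73 * 1 ≤ 10 ^ 73 * P.Λ ^ 23 := Nat.mul_le_mul_left _ hy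
    have h3 : (40 * (4 * 128) : ℕ) ≤ 10 ^ 73 * 1 := by norm_num
    omega
  simp only [Par.d₂, Par.d₁]
  rw [Nat.le_div_iff_mul_le (by norm_num), Nat.le_div_iff_mul_le (by norm_num)]
  omega

theorem tables_Ga_h : Par.Ga ≤ P.h := by
  have hΛ : 1 ≤ P.Λ := by have := P.hΛ; omega
  have hy : 1 ≤ P.Λ ^ 6 := Nat.one_le_pow _ _ hΛ
  simp only [Par.Ga, Par.h]
  nlinarith

end Par

theorem exists_groups_on {I R : Type} (S : Finset I) (O : Finset R) (g : ℕ)
    (hO : S.card * g ≤ O.card) :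
    ∃ G : I → Finset R, (∀ i ∈ S, G i ⊆ O ∧ g ≤ (G i).card) ∧
      ∀ i ∈ S, ∀ j ∈ S, i ≠ j → Disjoint (G i) (G j) := by
  obtain ⟨G, hG, hd⟩ := exists_groups O S.card g hO
  refine ⟨fun i => if h : i ∈ S then G (S.equivFin ⟨i, h⟩) else ∅, ?_, ?_⟩
  · intro i hi
    simpa [hi] using hG _
  · intro i hi j hj hij
    simp only [hi, hj, dif_pos]
    apply hd
    intro h
    have := S.equivFin.injective h
    exact hij (congrArg Subtype.val this)

theorem le_ceil_mul (x a : ℕ) (ha : 0 < a) : x ≤ (x + a - 1) / a * a := by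
  have h1 := Nat.div_add_mod (x + a - 1) a
  have h2 := Nat.mod_lt (x + a - 1) ha
  have h3 : (x + a - 1) / a * a = a * ((x + a - 1) / a) := Nat.mul_comm _ _
  omega

/-- Blueprint Step D.

(a) pending: for `w ∈ W'` the options are `b ∈ N(w) ∩ B` with `hm w ∈ lb b`, `hm' w ∈ lb' b`; at least
`deg w / 40 - 2 t₁ ≥ M * Ga` of them (`Par`).  `exists_groups`: `M` disjoint groups of size `≥ Ga`.
`hall_capacity` with right vertices `(b, j)`: the unit `(w, k)` is offered `(b, hm w)`, `b` in its group;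
`(b, j)` is offered to at most `|X b j|` units (`w ∈ X b j`, one group per `w`).  Capacity
`⌈|X b j| / Ga⌉`.

(b) attach: for the copy `(v, j)`, `j ∈ lb v`, options `O = (N(v) ∩ Cl) ∩ col⁻¹ j`, `|O| ≥ |X v j|/40`.
Units of `(b, j)`, `b ∈ B`: the pending units with `pendB = b`, `hm w = j`; at most `⌈|X b j| / Ga⌉`.
Units of `(v, j)`, `v ∈ U'`: 2.  Split `O` into that many disjoint groups of size `≥ Kt` (`|X| ≥ h ≥ 3 Ga`,
`Ga ≥ 80 Kt`).  `hall_capacity` with right vertices `t`: `t` is offered to at most `deg_G t` units (one group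
per `v`, and `j = col t`).  Capacity `⌈deg_G t / Kt⌉`, and `64 ⌈deg_G t / Kt⌉ ≤ deg_Γ t` since
`deg_G t ≤ 160 deg_Γ t`, `Kt = 20480`, `deg_Γ t ≥ d₂ ≥ 128`. -/
theorem exists_tables (P : Par) (G Γ : SimpleGraph V) (Cl W' B U' : Finset V) (col : V → ℕ)
    (hm hm' : V → ℕ) (lb lb' : V → Finset ℕ) (X : V → ℕ → Finset V)
    (hBU : Disjoint B U')
    (hX_w : ∀ w ∈ W', ∀ b, G.Adj b w → w ∈ X b (hm w))
    (hX_sub : ∀ v j, X v j ⊆ nbr G v)
    (hlb : ∀ v j, j ∈ lb v → P.h ≤ (X v j).card)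
    (hacc : ∀ v, v ∈ B ∪ U' → ∀ j, j ∈ lb v →
      (X v j).card ≤ 40 * ((nbr G v ∩ Cl).filter fun t => col t = j).card)
    (hfr : ∀ w ∈ W', ((nbr G w).filter fun v => hm w ∉ lb v).card ≤ P.t₁)
    (hfr' : ∀ w ∈ W', ((nbr G w).filter fun v => hm' w ∉ lb' v).card ≤ P.t₁)
    (hdeg : ∀ w ∈ W', P.d₀ ≤ (nbr G w).card)
    (hB : ∀ w ∈ W', (nbr G w).card ≤ 40 * (nbr G w ∩ B).card)
    (hΓdeg : ∀ t ∈ Cl, (nbr G t).card ≤ 160 * (nbr Γ t).card)
    (hΓd₂ : ∀ t ∈ Cl, P.d₂ ≤ (nbr Γ t).card) :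
    ∃ (pendB pendT : V → Fin P.M → V) (attT : V → ℕ → Fin 2 → V),
      (∀ w ∈ W', ∀ k, pendB w k ∈ nbr G w ∩ B ∧ hm w ∈ lb (pendB w k) ∧ hm' w ∈ lb' (pendB w k)) ∧
      (∀ w ∈ W', ∀ k, pendT w k ∈ nbr G (pendB w k) ∩ Cl ∧ col (pendT w k) = hm w) ∧
      (∀ w ∈ W', ∀ k k', pendB w k = pendB w k' → k = k') ∧
      (∀ w ∈ W', ∀ w' ∈ W', ∀ k k', pendB w k = pendB w' k' → pendT w k = pendT w' k' →
        w = w' ∧ k = k') ∧
      (∀ v ∈ U', ∀ j ∈ lb v, ∀ c, attT v j c ∈ nbr G v ∩ Cl ∧ col (attT v j c) = j) ∧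
      (∀ v ∈ U', ∀ j ∈ lb v, ∀ c c', attT v j c = attT v j c' → c = c') ∧
      (∀ t ∈ Cl, 64 * (((W' ×ˢ (univ : Finset (Fin P.M))).filter fun q => pendT q.1 q.2 = t).card +
          ((attIdx U' lb P.r₀).filter fun q => attT q.1 q.2.1 q.2.2 = t).card)
        ≤ (nbr Γ t).card) := by
  classical
  rcases isEmpty_or_nonempty V with hV | hV
  · exact ⟨fun v => isEmptyElim v, fun v => isEmptyElim v, fun v => isEmptyElim v,
      fun w => isEmptyElim w, fun w => isEmptyElim w, fun w => isEmptyElim w,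
      fun w => isEmptyElim w, fun w => isEmptyElim w, fun w => isEmptyElim w,
      fun w => isEmptyElim w⟩
  -- numerics
  have hnum1 := P.tables_num1
  have hd2 := P.tables_d₂
  have hGah := P.tables_Ga_h
  have hGa0 : 0 < Par.Ga := by simp [Par.Ga]
  have hKt0 : 0 < Par.Kt := by simp [Par.Kt]
  have hGaKt : 80 * Par.Kt ≤ Par.Ga := by simp [Par.Ga, Par.Kt]
  have hKteq : Par.Kt = 128 * 160 := by simp [Par.Kt]
  -- Step (a): options and groups
  let O : V → Finset V := fun w => (nbr G w ∩ B).filter fun b => hm w ∈ lb b ∧ hm' w ∈ lb' b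
  have hOcard : ∀ w ∈ W', P.M * Par.Ga ≤ (O w).card := by
    intro w hw
    have hsub : nbr G w ∩ B ⊆ O w ∪ ((nbr G w).filter fun v => hm w ∉ lb v) ∪
        ((nbr G w).filter fun v => hm' w ∉ lb' v) := by
      intro b hb
      have hb' := mem_inter.mp hb
      by_cases h1 : hm w ∈ lb b
      · by_cases h2 : hm' w ∈ lb' b
        · exact mem_union_left _ (mem_union_left _ (mem_filter.mpr ⟨hb, h1, h2⟩))
        · exact mem_union_right _ (mem_filter.mpr ⟨hb'.1, h2⟩)
      · exact mem_union_left _ (mem_union_right _ (mem_filter.mpr ⟨hb'.1, h1⟩))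
    have h1 := card_le_card hsub
    have h2 := card_union_le (O w ∪ ((nbr G w).filter fun v => hm w ∉ lb v))
      ((nbr G w).filter fun v => hm' w ∉ lb' v)
    have h3 := card_union_le (O w) ((nbr G w).filter fun v => hm w ∉ lb v)
    have h4 := hfr w hw
    have h5 := hfr' w hw
    have h6 := hdeg w hw
    have h7 := hB w hw
    omega
  have hGrex : ∀ w, ∃ Gr : Fin P.M → Finset V, w ∈ W' →
      (∀ k, Gr k ⊆ O w ∧ Par.Ga ≤ (Gr k).card) ∧ ∀ k k', k ≠ k' → Disjoint (Gr k) (Gr k') := by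
    intro w
    by_cases hw : w ∈ W'
    · obtain ⟨Gr, h1, h2⟩ := exists_groups (O w) P.M Par.Ga (hOcard w hw)
      exact ⟨Gr, fun _ => ⟨h1, h2⟩⟩
    · exact ⟨fun _ => ∅, fun h => absurd h hw⟩
  choose Gr hGr using hGrex
  -- first Hall
  let U₁ : ℕ → Finset (V × Fin P.M) := fun j =>
    (W'.filter fun w => hm w = j) ×ˢ (univ : Finset (Fin P.M))
  have hall1 : ∀ j, ∃ f : V × Fin P.M → V, (∀ q ∈ U₁ j, f q ∈ Gr q.1 q.2) ∧
      ∀ b, ((U₁ j).filter fun q => f q = b).card ≤ ((X b j).card + Par.Ga - 1) / Par.Ga := by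
    intro j
    refine hall_capacity (U₁ j) (fun q => Gr q.1 q.2) Par.Ga
      (fun b => ((X b j).card + Par.Ga - 1) / Par.Ga) hGa0 ?_ ?_
    · intro q hq
      have hq1 := (mem_filter.mp (mem_product.mp hq).1).1
      exact ((hGr q.1 hq1).1 q.2).2
    · intro b
      refine le_trans ?_ (le_ceil_mul (X b j).card Par.Ga hGa0)
      refine card_le_card_of_injOn (fun q => q.1) ?_ ?_
      · intro q hq
        have hq' := mem_filter.mp (mem_coe.mp hq)
        have hq1 := mem_filter.mp (mem_product.mp hq'.1).1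
        have hb := ((hGr q.1 hq1.1).1 q.2).1 hq'.2
        have hb1 : G.Adj q.1 b :=
          mem_nbr.mp (mem_inter.mp (mem_filter.mp hb).1).1
        have := hX_w q.1 hq1.1 b hb1.symm
        rw [hq1.2] at this
        exact mem_coe.mpr this
      · intro q hq q' hq' hqq'
        have h1 := mem_filter.mp (mem_coe.mp hq)
        have h2 := mem_filter.mp (mem_coe.mp hq')
        have hq1 := mem_filter.mp (mem_product.mp h1.1).1
        have hqq : q.1 = q'.1 := hqq'
        by_contra hne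
        have hk : q.2 ≠ q'.2 := fun h => hne (Prod.ext hqq h)
        have hd := (hGr q.1 hq1.1).2 q.2 q'.2 hk
        have hb2 : b ∈ Gr q.1 q'.2 := by rw [hqq]; exact h2.2
        exact (disjoint_left.mp hd) h1.2 hb2
  choose f1 hf1 hf1load using hall1
  let pendB : V → Fin P.M → V := fun w k => f1 (hm w) (w, k)
  have hU₁mem : ∀ w ∈ W', ∀ k, (w, k) ∈ U₁ (hm w) := by
    intro w hw k
    exact mem_product.mpr ⟨mem_filter.mpr ⟨hw, rfl⟩, mem_univ _⟩
  have hpendB_Gr : ∀ w ∈ W', ∀ k, pendB w k ∈ Gr w k := fun w hw k => hf1 (hm w) (w, k) (hU₁mem w hw k)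
  have hpendB_O : ∀ w ∈ W', ∀ k, pendB w k ∈ O w := fun w hw k => ((hGr w hw).1 k).1 (hpendB_Gr w hw k)
  -- options of the attach units
  let Opt : V → ℕ → Finset V := fun v j => (nbr G v ∩ Cl).filter fun t => col t = j
  let Un : V → ℕ → Finset (V × Fin P.M) := fun b j => (U₁ j).filter fun q => f1 j q = b
  have hOptB : ∀ b ∈ B, ∀ j ∈ lb b, (Un b j).card * Par.Kt ≤ (Opt b j).card := by
    intro b hb j hj
    have h1 := hacc b (mem_union_left _ hb) j hj
    have h2 := hlb b j hj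
    have h3 := hf1load j b
    set x := (X b j).card with hx
    have h4 : (x + Par.Ga - 1) / Par.Ga * Par.Ga ≤ x + Par.Ga - 1 := Nat.div_mul_le_self _ _
    set c := (x + Par.Ga - 1) / Par.Ga with hc
    have h5 : c * (80 * Par.Kt) ≤ c * Par.Ga := Nat.mul_le_mul_left _ hGaKt
    have h6 : (Un b j).card * Par.Kt ≤ c * Par.Kt := Nat.mul_le_mul_right _ h3
    have h7 : c * (80 * Par.Kt) = 80 * (c * Par.Kt) := by ring
    have h8 : (Opt b j).card = ((nbr G b ∩ Cl).filter fun t => col t = j).card := rfl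
    omega
  have hGBex : ∀ b j, ∃ g : V × Fin P.M → Finset V, b ∈ B → j ∈ lb b →
      (∀ q ∈ Un b j, g q ⊆ Opt b j ∧ Par.Kt ≤ (g q).card) ∧
      ∀ q ∈ Un b j, ∀ q' ∈ Un b j, q ≠ q' → Disjoint (g q) (g q') := by
    intro b j
    by_cases hb : b ∈ B ∧ j ∈ lb b
    · obtain ⟨g, h1, h2⟩ := exists_groups_on (Un b j) (Opt b j) Par.Kt (hOptB b hb.1 j hb.2)
      exact ⟨g, fun _ _ => ⟨h1, h2⟩⟩
    · exact ⟨fun _ => ∅, fun h1 h2 => absurd ⟨h1, h2⟩ hb⟩
  choose GB hGB using hGBex
  have hOptU : ∀ v ∈ U', ∀ j ∈ lb v, 2 * Par.Kt ≤ (Opt v j).card := by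
    intro v hv j hj
    have h1 := hacc v (mem_union_right _ hv) j hj
    have h2 := hlb v j hj
    have h8 : (Opt v j).card = ((nbr G v ∩ Cl).filter fun t => col t = j).card := rfl
    omega
  have hGUex : ∀ v j, ∃ g : Fin 2 → Finset V, v ∈ U' → j ∈ lb v →
      (∀ c, g c ⊆ Opt v j ∧ Par.Kt ≤ (g c).card) ∧ ∀ c c', c ≠ c' → Disjoint (g c) (g c') := by
    intro v j
    by_cases hv : v ∈ U' ∧ j ∈ lb v
    · obtain ⟨g, h1, h2⟩ := exists_groups (Opt v j) 2 Par.Kt (hOptU v hv.1 j hv.2)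
      exact ⟨g, fun _ _ => ⟨h1, h2⟩⟩
    · exact ⟨fun _ => ∅, fun h1 h2 => absurd ⟨h1, h2⟩ hv⟩
  choose GU hGU using hGUex
  -- second Hall
  let U₂ : ℕ → Finset ((V × Fin P.M) ⊕ (V × Fin 2)) := fun j =>
    (U₁ j).disjSum ((U'.filter fun v => j ∈ lb v) ×ˢ (univ : Finset (Fin 2)))
  let Nb : ℕ → (V × Fin P.M) ⊕ (V × Fin 2) → Finset V := fun j u =>
    Sum.elim (fun q => GB (f1 j q) j q) (fun q => GU q.1 j q.2) u
  let base : ℕ → (V × Fin P.M) ⊕ (V × Fin 2) → V := fun j u =>
    Sum.elim (fun q => f1 j q) (fun q => q.1) u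
  -- basic facts on units of the first kind
  have hU₁fact : ∀ j, ∀ q ∈ U₁ j, f1 j q ∈ B ∧ j ∈ lb (f1 j q) ∧ q ∈ Un (f1 j q) j := by
    intro j q hq
    have hq1 := mem_filter.mp (mem_product.mp hq).1
    have h1 := ((hGr q.1 hq1.1).1 q.2).1 (hf1 j q hq)
    have h2 := mem_filter.mp h1
    refine ⟨(mem_inter.mp h2.1).2, ?_, mem_filter.mpr ⟨hq, rfl⟩⟩
    have h3 := h2.2.1
    rw [hq1.2] at h3
    exact h3
  have hNbOpt : ∀ j, ∀ u ∈ U₂ j, Nb j u ⊆ Opt (base j u) j ∧ Par.Kt ≤ (Nb j u).card := by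
    intro j u hu
    rcases u with q | q
    · have hq : q ∈ U₁ j := by simpa [U₂] using hu
      obtain ⟨h1, h2, h3⟩ := hU₁fact j q hq
      exact (hGB _ _ h1 h2).1 q h3
    · have hq : q ∈ (U'.filter fun v => j ∈ lb v) ×ˢ (univ : Finset (Fin 2)) := by
        simpa [U₂] using hu
      have hq1 := mem_filter.mp (mem_product.mp hq).1
      exact ((hGU q.1 j) hq1.1 hq1.2).1 q.2
  have hall2 : ∀ j, ∃ f : (V × Fin P.M) ⊕ (V × Fin 2) → V, (∀ u ∈ U₂ j, f u ∈ Nb j u) ∧
      ∀ t, ((U₂ j).filter fun u => f u = t).card ≤ ((nbr G t).card + Par.Kt - 1) / Par.Kt := by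
    intro j
    refine hall_capacity (U₂ j) (Nb j) Par.Kt
      (fun t => ((nbr G t).card + Par.Kt - 1) / Par.Kt) hKt0 (fun u hu => (hNbOpt j u hu).2) ?_
    intro t
    refine le_trans ?_ (le_ceil_mul (nbr G t).card Par.Kt hKt0)
    refine card_le_card_of_injOn (base j) ?_ ?_
    · intro u hu
      have hu' := mem_filter.mp (mem_coe.mp hu)
      have h1 := (hNbOpt j u hu'.1).1 hu'.2
      have h2 : t ∈ nbr G (base j u) := (mem_inter.mp (mem_filter.mp h1).1).1
      exact mem_coe.mpr (mem_nbr.mpr (mem_nbr.mp h2).symm)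
    · intro u hu u' hu' huu'
      have h1 := mem_filter.mp (mem_coe.mp hu)
      have h2 := mem_filter.mp (mem_coe.mp hu')
      rcases u with q | q <;> rcases u' with q' | q'
      · have hq : q ∈ U₁ j := by simpa [U₂] using h1.1
        have hq' : q' ∈ U₁ j := by simpa [U₂] using h2.1
        have hbb : f1 j q = f1 j q' := huu'
        obtain ⟨ha1, ha2, ha3⟩ := hU₁fact j q hq
        obtain ⟨hb1, hb2, hb3⟩ := hU₁fact j q' hq'
        rw [← hbb] at hb3
        by_contra hne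
        have hne' : q ≠ q' := fun h => hne (by rw [h])
        have hd := (hGB _ _ ha1 ha2).2 q ha3 q' hb3 hne'
        have ht1 : t ∈ GB (f1 j q) j q := h1.2
        have ht2 : t ∈ GB (f1 j q) j q' := by
          have : t ∈ GB (f1 j q') j q' := h2.2
          rw [← hbb] at this
          exact this
        exact (disjoint_left.mp hd) ht1 ht2
      · exfalso
        have hq : q ∈ U₁ j := by simpa [U₂] using h1.1
        have hq' : q' ∈ (U'.filter fun v => j ∈ lb v) ×ˢ (univ : Finset (Fin 2)) := by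
          simpa [U₂] using h2.1
        have hq1 := mem_filter.mp (mem_product.mp hq').1
        obtain ⟨ha1, -, -⟩ := hU₁fact j q hq
        have hbb : f1 j q = q'.1 := huu'
        exact (disjoint_left.mp hBU) ha1 (hbb ▸ hq1.1)
      · exfalso
        have hq : q' ∈ U₁ j := by simpa [U₂] using h2.1
        have hq' : q ∈ (U'.filter fun v => j ∈ lb v) ×ˢ (univ : Finset (Fin 2)) := by
          simpa [U₂] using h1.1
        have hq1 := mem_filter.mp (mem_product.mp hq').1
        obtain ⟨ha1, -, -⟩ := hU₁fact j q' hq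
        have hbb : q.1 = f1 j q' := huu'
        exact (disjoint_left.mp hBU) ha1 (hbb ▸ hq1.1)
      · have hq : q ∈ (U'.filter fun v => j ∈ lb v) ×ˢ (univ : Finset (Fin 2)) := by
          simpa [U₂] using h1.1
        have hq1 := mem_filter.mp (mem_product.mp hq).1
        have hvv : q.1 = q'.1 := huu'
        by_contra hne
        have hc : q.2 ≠ q'.2 := fun h => hne (by rw [Prod.ext hvv h])
        have hd := ((hGU q.1 j) hq1.1 hq1.2).2 q.2 q'.2 hc
        have ht1 : t ∈ GU q.1 j q.2 := h1.2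
        have ht2 : t ∈ GU q.1 j q'.2 := by
          have : t ∈ GU q'.1 j q'.2 := h2.2
          rw [← hvv] at this
          exact this
        exact (disjoint_left.mp hd) ht1 ht2
  choose f2 hf2 hf2load using hall2
  let pendT : V → Fin P.M → V := fun w k => f2 (hm w) (Sum.inl (w, k))
  let attT : V → ℕ → Fin 2 → V := fun v j c => f2 j (Sum.inr (v, c))
  have hpendT_mem : ∀ w ∈ W', ∀ k, pendT w k ∈ GB (pendB w k) (hm w) (w, k) := by
    intro w hw k
    have := hf2 (hm w) (Sum.inl (w, k)) (by simpa [U₂] using hU₁mem w hw k)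
    exact this
  have hpendT_opt : ∀ w ∈ W', ∀ k, pendT w k ∈ Opt (pendB w k) (hm w) := by
    intro w hw k
    have hu : (Sum.inl (w, k) : (V × Fin P.M) ⊕ (V × Fin 2)) ∈ U₂ (hm w) := by
      simpa [U₂] using hU₁mem w hw k
    exact (hNbOpt (hm w) _ hu).1 (hf2 (hm w) _ hu)
  have hattT_opt : ∀ v ∈ U', ∀ j ∈ lb v, ∀ c, attT v j c ∈ GU v j c ∧ attT v j c ∈ Opt v j := by
    intro v hv j hj c
    have hu : (Sum.inr (v, c) : (V × Fin P.M) ⊕ (V × Fin 2)) ∈ U₂ j := by
      simpa [U₂] using And.intro hv hj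
    exact ⟨hf2 j _ hu, (hNbOpt j _ hu).1 (hf2 j _ hu)⟩
  refine ⟨pendB, pendT, attT, ?_, ?_, ?_, ?_, ?_, ?_, ?_⟩
  · intro w hw k
    have h1 := mem_filter.mp (hpendB_O w hw k)
    exact ⟨h1.1, h1.2.1, h1.2.2⟩
  · intro w hw k
    have h1 := mem_filter.mp (hpendT_opt w hw k)
    exact ⟨h1.1, h1.2⟩
  · intro w hw k k' hkk
    by_contra hne
    have hd := (hGr w hw).2 k k' hne
    have h2 : pendB w k ∈ Gr w k' := by rw [hkk]; exact hpendB_Gr w hw k'
    exact (disjoint_left.mp hd) (hpendB_Gr w hw k) h2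
  · intro w hw w' hw' k k' hbb htt
    have hc1 := (mem_filter.mp (hpendT_opt w hw k)).2
    have hc2 := (mem_filter.mp (hpendT_opt w' hw' k')).2
    have hjj : hm w' = hm w := by rw [← hc1, ← hc2, htt]
    by_contra hne
    have hq : (w, k) ≠ (w', k') := fun h => hne ⟨congrArg Prod.fst h, congrArg Prod.snd h⟩
    have hu1 := hU₁mem w hw k
    have hu2 : (w', k') ∈ U₁ (hm w) := by rw [← hjj]; exact hU₁mem w' hw' k'
    obtain ⟨ha1, ha2, ha3⟩ := hU₁fact (hm w) (w, k) hu1
    have hb3 : (w', k') ∈ Un (f1 (hm w) (w, k)) (hm w) := by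
      refine mem_filter.mpr ⟨hu2, ?_⟩
      have : pendB w' k' = f1 (hm w) (w', k') := by
        show f1 (hm w') (w', k') = _
        rw [hjj]
      rw [← this]
      exact hbb.symm
    have hd := (hGB _ _ ha1 ha2).2 (w, k) ha3 (w', k') hb3 hq
    have ht1 : pendT w k ∈ GB (f1 (hm w) (w, k)) (hm w) (w, k) := hpendT_mem w hw k
    have ht2 : pendT w k ∈ GB (f1 (hm w) (w, k)) (hm w) (w', k') := by
      have h5 := hpendT_mem w' hw' k'
      rw [← htt, ← hbb, hjj] at h5
      exact h5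
    exact (disjoint_left.mp hd) ht1 ht2
  · intro v hv j hj c
    have h1 := mem_filter.mp (hattT_opt v hv j hj c).2
    exact ⟨h1.1, h1.2⟩
  · intro v hv j hj c c' hcc
    by_contra hne
    have hd := ((hGU v j) hv hj).2 c c' hne
    have h2 : attT v j c ∈ GU v j c' := by rw [hcc]; exact (hattT_opt v hv j hj c').1
    exact (disjoint_left.mp hd) (hattT_opt v hv j hj c).1 h2
  · intro t ht
    set j := col t with hj
    have hload := hf2load j t
    have hcard : ((W' ×ˢ (univ : Finset (Fin P.M))).filter fun q => pendT q.1 q.2 = t).card +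
        ((attIdx U' lb P.r₀).filter fun q => attT q.1 q.2.1 q.2.2 = t).card ≤
        ((U₂ j).filter fun u => f2 j u = t).card := by
      rw [← card_disjSum]
      refine card_le_card_of_injOn
        (Sum.elim (fun q => Sum.inl q) (fun q => Sum.inr (q.1, q.2.2))) ?_ ?_
      · intro u hu
        have hu' := mem_coe.mp hu
        rcases u with q | q
        · have hq : q ∈ (W' ×ˢ (univ : Finset (Fin P.M))).filter fun q => pendT q.1 q.2 = t := by
            simpa using hu'
          have hq1 := mem_filter.mp hq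
          have hw := (mem_product.mp hq1.1).1
          have hc := (mem_filter.mp (hpendT_opt q.1 hw q.2)).2
          rw [hq1.2] at hc
          have hjw : hm q.1 = j := hc.symm
          refine mem_coe.mpr (mem_filter.mpr ⟨?_, ?_⟩)
          · have : q ∈ U₁ j := by
              refine mem_product.mpr ⟨mem_filter.mpr ⟨hw, hjw⟩, mem_univ _⟩
            simpa [U₂] using this
          · have : f2 (hm q.1) (Sum.inl (q.1, q.2)) = t := hq1.2
            rw [hjw] at this
            exact this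
        · have hq : q ∈ (attIdx U' lb P.r₀).filter fun q => attT q.1 q.2.1 q.2.2 = t := by
            simpa using hu'
          have hq1 := mem_filter.mp hq
          have hq2 := mem_filter.mp hq1.1
          have hv := (mem_product.mp hq2.1).1
          have hc := (mem_filter.mp (hattT_opt q.1 hv q.2.1 hq2.2 q.2.2).2).2
          rw [hq1.2] at hc
          have hjv : q.2.1 = j := hc.symm
          refine mem_coe.mpr (mem_filter.mpr ⟨?_, ?_⟩)
          · have hj2 := hq2.2
            rw [hjv] at hj2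
            have : (q.1, q.2.2) ∈ (U'.filter fun v => j ∈ lb v) ×ˢ (univ : Finset (Fin 2)) :=
              mem_product.mpr ⟨mem_filter.mpr ⟨hv, hj2⟩, mem_univ _⟩
            simpa [U₂] using this
          · have : f2 q.2.1 (Sum.inr (q.1, q.2.2)) = t := hq1.2
            rw [hjv] at this
            exact this
      · intro u hu u' hu' huu'
        have h1 := mem_coe.mp hu
        have h2 := mem_coe.mp hu'
        rcases u with q | q <;> rcases u' with q' | q'
        · simpa using huu'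
        · simp at huu'
        · simp at huu'
        · have hq : q ∈ (attIdx U' lb P.r₀).filter fun q => attT q.1 q.2.1 q.2.2 = t := by
            simpa using h1
          have hq' : q' ∈ (attIdx U' lb P.r₀).filter fun q => attT q.1 q.2.1 q.2.2 = t := by
            simpa using h2
          have hq1 := mem_filter.mp hq
          have hq2 := mem_filter.mp hq1.1
          have hc := (mem_filter.mp (hattT_opt q.1 (mem_product.mp hq2.1).1 q.2.1 hq2.2 q.2.2).2).2
          rw [hq1.2] at hc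
          have hq1' := mem_filter.mp hq'
          have hq2' := mem_filter.mp hq1'.1
          have hc' := (mem_filter.mp
            (hattT_opt q'.1 (mem_product.mp hq2'.1).1 q'.2.1 hq2'.2 q'.2.2).2).2
          rw [hq1'.2] at hc'
          have h3 : (q.1, q.2.2) = (q'.1, q'.2.2) := by simpa using huu'
          have h4 : q.1 = q'.1 := (Prod.mk.inj h3).1
          have h5 : q.2.2 = q'.2.2 := (Prod.mk.inj h3).2
          have h6 : q.2.1 = q'.2.1 := by rw [← hc, ← hc']
          have : q = q' := Prod.ext h4 (Prod.ext h6 h5)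
          rw [this]
    have h1 := hΓdeg t ht
    have h2 := hΓd₂ t ht
    set A := ((W' ×ˢ (univ : Finset (Fin P.M))).filter fun q => pendT q.1 q.2 = t).card +
        ((attIdx U' lb P.r₀).filter fun q => attT q.1 q.2.1 q.2.2 = t).card with hA
    have h3 : A ≤ ((nbr G t).card + Par.Kt - 1) / Par.Kt := hcard.trans hload
    have h4 : ((nbr G t).card + Par.Kt - 1) / Par.Kt * Par.Kt ≤ (nbr G t).card + Par.Kt - 1 :=
      Nat.div_mul_le_self _ _
    have h5 : A * Par.Kt ≤ ((nbr G t).card + Par.Kt - 1) / Par.Kt * Par.Kt := Nat.mul_le_mul_right _ h3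
    rw [hKteq] at h5 h4
    have h6 : A * (128 * 160) = 160 * (128 * A) := by ring
    have h7 : (128 * 160 : ℕ) = 20480 := by norm_num
    omega

end Crest.Agent.EG
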