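import Crest.Agent.EG.Items
import Crest.Agent.EG.Tables

/-!
# The link system of one network (S0064 blueprint Step D, E)

From the tables `pendB, pendT, attT`: the links are `(w, k)`, `w ∈ W'`, `k : Fin M`, with path
`w - pendB w k - pendT w k`, and `(v, j, c) ∈ attIdx U' lb r`, with path `v - attT v j c`.
-/

set_option autoImplicit false

namespace Crest.Agent.EG

open Finset
open scoped Classical

variable {V : Type} [Fintype V]

/-- The type of links of a network. -/
abbrev LkIdx (W' U' : Finset V) (lb : V → Finset ℕ) (r M : ℕ) : Type :=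
  {q : V × Fin M // q.1 ∈ W'} ⊕ {q : V × ℕ × Fin 2 // q ∈ attIdx U' lb r}

/-- Root of a link. -/
def lkRoot {W' U' : Finset V} {lb : V → Finset ℕ} {r M : ℕ} : LkIdx W' U' lb r M → V
  | Sum.inl q => q.1.1
  | Sum.inr q => q.1.1

/-- Tip of a link. -/
def lkTip {W' U' : Finset V} {lb : V → Finset ℕ} {r M : ℕ} (pendT : V → Fin M → V)
    (attT : V → ℕ → Fin 2 → V) : LkIdx W' U' lb r M → V
  | Sum.inl q => pendT q.1.1 q.1.2
  | Sum.inr q => attT q.1.1 q.1.2.1 q.1.2.2

/-- The tables for one network as a predicate: the conclusion of `exists_tables`. -/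
structure TabProps (P : Par) (G Γ : SimpleGraph V) (Cl W' B U' : Finset V) (col : V → ℕ)
    (hm hm' : V → ℕ) (lb lb' : V → Finset ℕ) (pendB pendT : V → Fin P.M → V)
    (attT : V → ℕ → Fin 2 → V) : Prop where
  pB : ∀ w ∈ W', ∀ k, pendB w k ∈ nbr G w ∩ B ∧ hm w ∈ lb (pendB w k) ∧ hm' w ∈ lb' (pendB w k)
  pT : ∀ w ∈ W', ∀ k, pendT w k ∈ nbr G (pendB w k) ∩ Cl ∧ col (pendT w k) = hm w
  pBinj : ∀ w ∈ W', ∀ k k', pendB w k = pendB w k' → k = k'
  pTinj : ∀ w ∈ W', ∀ w' ∈ W', ∀ k k', pendB w k = pendB w' k' → pendT w k = pendT w' k' →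
    w = w' ∧ k = k'
  aT : ∀ v ∈ U', ∀ j ∈ lb v, ∀ c, attT v j c ∈ nbr G v ∩ Cl ∧ col (attT v j c) = j
  aTinj : ∀ v ∈ U', ∀ j ∈ lb v, ∀ c c', attT v j c = attT v j c' → c = c'
  load : ∀ t ∈ Cl, 64 * (((W' ×ˢ (univ : Finset (Fin P.M))).filter fun q => pendT q.1 q.2 = t).card +
      ((attIdx U' lb P.r₀).filter fun q => attT q.1 q.2.1 q.2.2 = t).card) ≤ (nbr Γ t).card

/-- The walk of a link. -/
noncomputable def lkWalk {G : SimpleGraph V} {W' U' : Finset V} {lb : V → Finset ℕ} {r M : ℕ}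
    {pendB pendT : V → Fin M → V} {attT : V → ℕ → Fin 2 → V}
    (hp : ∀ q : {q : V × Fin M // q.1 ∈ W'}, G.Adj q.1.1 (pendB q.1.1 q.1.2) ∧
      G.Adj (pendB q.1.1 q.1.2) (pendT q.1.1 q.1.2))
    (ha : ∀ q : {q : V × ℕ × Fin 2 // q ∈ attIdx U' lb r},
      G.Adj q.1.1 (attT q.1.1 q.1.2.1 q.1.2.2)) :
    ∀ l : LkIdx W' U' lb r M, G.Walk (lkRoot l) (lkTip pendT attT l)
  | Sum.inl q => .cons (hp q).1 (.cons (hp q).2 .nil)
  | Sum.inr q => .cons (ha q) .nil

/-- The walks of the links, and all that `realize` needs. `Z` is the zone of the network: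
`W'`, `U'` outside `Z`; `B, T, A ⊆ Z` pairwise disjoint; `Cl ⊆ T`; the edges of `Γ` go between `T` and `A`. -/
theorem exists_linkSys (P : Par) (G Γ : SimpleGraph V) (Cl W' B U' T A Z : Finset V) (col : V → ℕ)
    (hm hm' : V → ℕ) (lb lb' : V → Finset ℕ) (pendB pendT : V → Fin P.M → V)
    (attT : V → ℕ → Fin 2 → V)
    (hTab : TabProps P G Γ Cl W' B U' col hm hm' lb lb' pendB pendT attT)
    (hW'Z : Disjoint W' Z) (hU'Z : Disjoint U' Z) (hBZ : B ⊆ Z) (hTZ : T ⊆ Z) (hAZ : A ⊆ Z)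
    (hBT : Disjoint B T) (hBA : Disjoint B A) (hClT : Cl ⊆ T)
    (hΓG : Γ ≤ G) (hΓb : ∀ x y, Γ.Adj x y → (x ∈ T ∧ y ∈ A) ∨ (x ∈ A ∧ y ∈ T))
    (hroute : ∀ (c : ℕ) (x y : Fin c → V), c ≤ P.k →
      (∀ i, x i ∈ Cl ∧ y i ∈ Cl ∧ col (x i) = col (y i)) →
      (∀ t ∈ Cl, 64 * ((univ.filter fun i => x i = t).card + (univ.filter fun i => y i = t).card)
        ≤ (nbr Γ t).card) →
      ∃ w : ∀ i, Γ.Walk (x i) (y i), (∀ i, (w i).IsPath) ∧
        (∀ i j, i ≠ j → List.Disjoint (w i).edges (w j).edges)) :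
    ∃ lw : ∀ l : LkIdx W' U' lb P.r₀ P.M, G.Walk (lkRoot l) (lkTip pendT attT l),
      IsLinkSys G (Z : Set V) lkRoot (lkTip pendT attT) lw ∧
      (∀ l, ∀ e ∈ (lw l).edges, e ∉ Γ.edgeSet) ∧
      (∀ (q : {q : V × Fin P.M // q.1 ∈ W'}), (lw (Sum.inl q)).edges =
        [s(q.1.1, pendB q.1.1 q.1.2), s(pendB q.1.1 q.1.2, pendT q.1.1 q.1.2)]) ∧
      (∀ (q : {q : V × ℕ × Fin 2 // q ∈ attIdx U' lb P.r₀}), (lw (Sum.inr q)).edges =
        [s(q.1.1, attT q.1.1 q.1.2.1 q.1.2.2)]) ∧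
      (∀ (c : ℕ) (x y : Fin c → LkIdx W' U' lb P.r₀ P.M), c ≤ P.k →
        Function.Injective (Sum.elim x y) →
        (∀ i, col (lkTip pendT attT (x i)) = col (lkTip pendT attT (y i))) →
        ∃ w : ∀ i, Γ.Walk (lkTip pendT attT (x i)) (lkTip pendT attT (y i)), (∀ i, (w i).IsPath) ∧
          (∀ i j, i ≠ j → List.Disjoint (w i).edges (w j).edges)) := by
  classical
  -- facts on units
  have hBmem : ∀ q : {q : V × Fin P.M // q.1 ∈ W'},
      pendB q.1.1 q.1.2 ∈ nbr G q.1.1 ∩ B ∧ pendT q.1.1 q.1.2 ∈ nbr G (pendB q.1.1 q.1.2) ∩ Cl := by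
    intro q
    exact ⟨(hTab.pB q.1.1 q.2 q.1.2).1, (hTab.pT q.1.1 q.2 q.1.2).1⟩
  have hAmem : ∀ q : {q : V × ℕ × Fin 2 // q ∈ attIdx U' lb P.r₀},
      q.1.1 ∈ U' ∧ q.1.2.1 ∈ lb q.1.1 := by
    intro q
    have h := q.2
    simp only [attIdx, mem_filter, mem_product] at h
    exact ⟨h.1.1, h.2⟩
  have hp : ∀ q : {q : V × Fin P.M // q.1 ∈ W'}, G.Adj q.1.1 (pendB q.1.1 q.1.2) ∧
      G.Adj (pendB q.1.1 q.1.2) (pendT q.1.1 q.1.2) := by
    intro q
    obtain ⟨h1, h2⟩ := hBmem q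
    exact ⟨mem_nbr.1 (mem_inter.1 h1).1, mem_nbr.1 (mem_inter.1 h2).1⟩
  have ha : ∀ q : {q : V × ℕ × Fin 2 // q ∈ attIdx U' lb P.r₀},
      G.Adj q.1.1 (attT q.1.1 q.1.2.1 q.1.2.2) := by
    intro q
    obtain ⟨h1, h2⟩ := hAmem q
    exact mem_nbr.1 (mem_inter.1 (hTab.aT q.1.1 h1 q.1.2.1 h2 q.1.2.2).1).1
  -- position facts
  have hwZ : ∀ q : {q : V × Fin P.M // q.1 ∈ W'}, q.1.1 ∉ Z := fun q =>
    disjoint_left.1 hW'Z q.2
  have hbB : ∀ q : {q : V × Fin P.M // q.1 ∈ W'}, pendB q.1.1 q.1.2 ∈ B := fun q =>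
    (mem_inter.1 (hBmem q).1).2
  have htT : ∀ q : {q : V × Fin P.M // q.1 ∈ W'}, pendT q.1.1 q.1.2 ∈ T := fun q =>
    hClT (mem_inter.1 (hBmem q).2).2
  have hvZ : ∀ q : {q : V × ℕ × Fin 2 // q ∈ attIdx U' lb P.r₀}, q.1.1 ∉ Z := fun q =>
    disjoint_left.1 hU'Z (hAmem q).1
  have hatCl : ∀ q : {q : V × ℕ × Fin 2 // q ∈ attIdx U' lb P.r₀},
      attT q.1.1 q.1.2.1 q.1.2.2 ∈ Cl := fun q =>
    (mem_inter.1 (hTab.aT q.1.1 (hAmem q).1 q.1.2.1 (hAmem q).2 q.1.2.2).1).2
  have hatT : ∀ q : {q : V × ℕ × Fin 2 // q ∈ attIdx U' lb P.r₀},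
      attT q.1.1 q.1.2.1 q.1.2.2 ∈ T := fun q => hClT (hatCl q)
  have hatcol : ∀ q : {q : V × ℕ × Fin 2 // q ∈ attIdx U' lb P.r₀},
      col (attT q.1.1 q.1.2.1 q.1.2.2) = q.1.2.1 := fun q =>
    (hTab.aT q.1.1 (hAmem q).1 q.1.2.1 (hAmem q).2 q.1.2.2).2
  have hBT' : ∀ x, x ∈ B → x ∉ T := fun x hx => disjoint_left.1 hBT hx
  have hBA' : ∀ x, x ∈ B → x ∉ A := fun x hx => disjoint_left.1 hBA hx
  have htipCl : ∀ l : LkIdx W' U' lb P.r₀ P.M, lkTip pendT attT l ∈ Cl := by
    rintro (q | q)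
    · exact (mem_inter.1 (hBmem q).2).2
    · exact hatCl q
  have path1 : ∀ {a b : V} (h : G.Adj a b), (SimpleGraph.Walk.cons h SimpleGraph.Walk.nil).IsPath := by
    intro a b h
    simp [SimpleGraph.Walk.cons_isPath_iff, h.ne]
  have path2 : ∀ {a b c : V} (h : G.Adj a b) (h' : G.Adj b c), a ≠ c →
      (SimpleGraph.Walk.cons h (SimpleGraph.Walk.cons h' SimpleGraph.Walk.nil)).IsPath := by
    intro a b c h h' hac
    simp [SimpleGraph.Walk.cons_isPath_iff, h.ne, h'.ne, hac]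
  have supI : ∀ q : {q : V × Fin P.M // q.1 ∈ W'}, (lkWalk hp ha (Sum.inl q)).support =
      [q.1.1, pendB q.1.1 q.1.2, pendT q.1.1 q.1.2] := fun _ => rfl
  have supA : ∀ q : {q : V × ℕ × Fin 2 // q ∈ attIdx U' lb P.r₀},
      (lkWalk hp ha (Sum.inr q)).support = [q.1.1, attT q.1.1 q.1.2.1 q.1.2.2] := fun _ => rfl
  have edI : ∀ q : {q : V × Fin P.M // q.1 ∈ W'}, (lkWalk hp ha (Sum.inl q)).edges =
      [s(q.1.1, pendB q.1.1 q.1.2), s(pendB q.1.1 q.1.2, pendT q.1.1 q.1.2)] := fun _ => rfl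
  have edA : ∀ q : {q : V × ℕ × Fin 2 // q ∈ attIdx U' lb P.r₀},
      (lkWalk hp ha (Sum.inr q)).edges = [s(q.1.1, attT q.1.1 q.1.2.1 q.1.2.2)] := fun _ => rfl
  refine ⟨lkWalk hp ha, ?_, ?_, ?_, ?_, ?_⟩
  · -- the link system
    refine ⟨?_, ?_, ?_, ?_, ?_⟩
    · rintro (q | q)
      · simpa [lkRoot] using hwZ q
      · simpa [lkRoot] using hvZ q
    · intro l
      simpa using hTZ (hClT (htipCl l))
    · rintro (q | q)
      · have h3 : q.1.1 ≠ pendT q.1.1 q.1.2 := fun h => hwZ q (by rw [h]; exact hTZ (htT q))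
        exact path2 _ _ h3
      · exact path1 _
    · rintro (q | q) v hv
      · rw [supI] at hv
        simp only [List.mem_cons, List.not_mem_nil, or_false] at hv
        rcases hv with rfl | rfl | rfl
        · exact Or.inl rfl
        · exact Or.inr (by simpa using hBZ (hbB q))
        · exact Or.inr (by simpa using hTZ (htT q))
      · rw [supA] at hv
        simp only [List.mem_cons, List.not_mem_nil, or_false] at hv
        rcases hv with rfl | rfl
        · exact Or.inl rfl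
        · exact Or.inr (by simpa using hTZ (hatT q))
    · rintro (q | q) (q' | q') hne e he he'
      · -- pending / pending
        rw [edI] at he
        rw [edI] at he'
        simp only [List.mem_cons, List.not_mem_nil, or_false] at he he'
        have hq : ¬ (q.1.1 = q'.1.1 ∧ q.1.2 = q'.1.2) := by
          rintro ⟨h1, h2⟩
          exact hne (congrArg Sum.inl (Subtype.ext (Prod.ext h1 h2)))
        rcases he with rfl | rfl <;> rcases he' with h | h
        · rw [Sym2.eq_iff] at h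
          rcases h with ⟨h1, h2⟩ | ⟨h1, h2⟩
          · exact hq ⟨h1, hTab.pBinj _ q.2 _ _ (h2.trans (by rw [h1]))⟩
          · exact hwZ q (by rw [h1]; exact hBZ (hbB q'))
        · rw [Sym2.eq_iff] at h
          rcases h with ⟨h1, h2⟩ | ⟨h1, h2⟩
          · exact hwZ q (by rw [h1]; exact hBZ (hbB q'))
          · exact hwZ q (by rw [h1]; exact hTZ (htT q'))
        · rw [Sym2.eq_iff] at h
          rcases h with ⟨h1, h2⟩ | ⟨h1, h2⟩
          · exact hwZ q' (by rw [← h1]; exact hBZ (hbB q))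
          · exact hwZ q' (by rw [← h2]; exact hTZ (htT q))
        · rw [Sym2.eq_iff] at h
          rcases h with ⟨h1, h2⟩ | ⟨h1, h2⟩
          · exact hq (hTab.pTinj _ q.2 _ q'.2 _ _ h1 h2)
          · exact hBT' _ (hbB q) (by rw [h1]; exact htT q')
      · -- pending / attach
        rw [edI] at he
        rw [edA] at he'
        simp only [List.mem_cons, List.not_mem_nil, or_false] at he he'
        subst he'
        rcases he with h | h
        · rw [Sym2.eq_iff] at h
          rcases h with ⟨h1, h2⟩ | ⟨h1, h2⟩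
          · exact hBT' _ (hbB q) (by rw [← h2]; exact hatT q')
          · exact hvZ q' (by rw [h1]; exact hBZ (hbB q))
        · rw [Sym2.eq_iff] at h
          rcases h with ⟨h1, h2⟩ | ⟨h1, h2⟩
          · exact hvZ q' (by rw [h1]; exact hBZ (hbB q))
          · exact hvZ q' (by rw [h1]; exact hTZ (htT q))
      · -- attach / pending
        rw [edA] at he
        rw [edI] at he'
        simp only [List.mem_cons, List.not_mem_nil, or_false] at he he'
        subst he
        rcases he' with h | h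
        · rw [Sym2.eq_iff] at h
          rcases h with ⟨h1, h2⟩ | ⟨h1, h2⟩
          · exact hBT' _ (hbB q') (by rw [← h2]; exact hatT q)
          · exact hvZ q (by rw [h1]; exact hBZ (hbB q'))
        · rw [Sym2.eq_iff] at h
          rcases h with ⟨h1, h2⟩ | ⟨h1, h2⟩
          · exact hvZ q (by rw [h1]; exact hBZ (hbB q'))
          · exact hvZ q (by rw [h1]; exact hTZ (htT q'))
      · -- attach / attach
        rw [edA] at he
        rw [edA] at he'
        simp only [List.mem_cons, List.not_mem_nil, or_false] at he he'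
        subst he
        rw [Sym2.eq_iff] at he'
        rcases he' with ⟨h1, h2⟩ | ⟨h1, h2⟩
        · have hj : q.1.2.1 = q'.1.2.1 :=
            (hatcol q).symm.trans ((congrArg col h2).trans (hatcol q'))
          have hc : q.1.2.2 = q'.1.2.2 :=
            hTab.aTinj _ (hAmem q).1 _ (hAmem q).2 _ _ (h2.trans (by rw [h1, hj]))
          exact hne (congrArg Sum.inr (Subtype.ext (Prod.ext h1 (Prod.ext hj hc))))
        · exact hvZ q (by rw [h1]; exact hTZ (hatT q'))
  · -- no link edge in Γ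
    have hnot : ∀ x y, x ∉ T → x ∉ A → s(x, y) ∉ Γ.edgeSet := by
      intro x y h1 h2 h
      rw [SimpleGraph.mem_edgeSet] at h
      rcases hΓb x y h with h | h
      · exact h1 h.1
      · exact h2 h.1
    rintro (q | q) e he
    · rw [edI] at he
      simp only [List.mem_cons, List.not_mem_nil, or_false] at he
      rcases he with rfl | rfl
      · exact hnot _ _ (fun h => hwZ q (hTZ h)) (fun h => hwZ q (hAZ h))
      · exact hnot _ _ (hBT' _ (hbB q)) (hBA' _ (hbB q))
    · rw [edA] at he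
      simp only [List.mem_cons, List.not_mem_nil, or_false] at he
      subst he
      exact hnot _ _ (fun h => hvZ q (hTZ h)) (fun h => hvZ q (hAZ h))
  · exact edI
  · exact edA
  · -- routing
    intro c x y hc hinj hcol
    refine hroute c (fun i => lkTip pendT attT (x i)) (fun i => lkTip pendT attT (y i)) hc ?_ ?_
    · intro i
      exact ⟨htipCl _, htipCl _, hcol i⟩
    · intro t ht
      refine le_trans (Nat.mul_le_mul_left 64 ?_) (hTab.load t ht)
      -- counting
      let S₁ : Finset (Fin c) := univ.filter fun i => lkTip pendT attT (x i) = t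
      let S₂ : Finset (Fin c) := univ.filter fun i => lkTip pendT attT (y i) = t
      let A' : Finset (V × Fin P.M) :=
        (W' ×ˢ (univ : Finset (Fin P.M))).filter fun q => pendT q.1 q.2 = t
      let B' : Finset (V × ℕ × Fin 2) :=
        (attIdx U' lb P.r₀).filter fun q => attT q.1 q.2.1 q.2.2 = t
      let g : LkIdx W' U' lb P.r₀ P.M → (V × Fin P.M) ⊕ (V × ℕ × Fin 2) :=
        Sum.map Subtype.val Subtype.val
      have hg : Function.Injective g :=
        Sum.map_injective.2 ⟨Subtype.val_injective, Subtype.val_injective⟩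
      have hgl : ∀ l : LkIdx W' U' lb P.r₀ P.M, lkTip pendT attT l = t → g l ∈ A'.disjSum B' := by
        rintro (q | q) h
        · simp only [g, Sum.map_inl, inl_mem_disjSum, A', mem_filter, mem_product, mem_univ,
            and_true]
          exact ⟨q.2, h⟩
        · simp only [g, Sum.map_inr, inr_mem_disjSum, B', mem_filter]
          exact ⟨q.2, h⟩
      have hcard : (S₁.disjSum S₂).card ≤ (A'.disjSum B').card := by
        refine card_le_card_of_injOn (fun i => g (Sum.elim x y i)) ?_ ?_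
        · rintro (i | i) hi
          · have hi' : i ∈ S₁ := by simpa using hi
            exact hgl _ (by simpa [S₁] using hi')
          · have hi' : i ∈ S₂ := by simpa using hi
            exact hgl _ (by simpa [S₂] using hi')
        · intro i _ j _ hij
          exact hinj (hg hij)
      simpa [card_disjSum, S₁, S₂, A', B'] using hcard

end Crest.Agent.EG
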