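import Crest.Agent.EG.Setup

set_option linter.unusedSectionVars false
set_option linter.unusedVariables false

/-!
# Auxiliary lemmas for the network (S0064 blueprint Step C)
-/

set_option autoImplicit false

namespace Crest.Agent.EG

open Finset
open scoped Classical

variable {V : Type} [Fintype V]

/-- The bipartite graph of the edges of `G` between `T` and `A`. -/
def bipG (G : SimpleGraph V) (T A : Finset V) : SimpleGraph V where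
  Adj x y := G.Adj x y ∧ ((x ∈ T ∧ y ∈ A) ∨ (x ∈ A ∧ y ∈ T))
  symm := ⟨by
    rintro x y ⟨h1, h2⟩
    exact ⟨h1.symm, h2.symm.imp (fun h => ⟨h.2, h.1⟩) (fun h => ⟨h.2, h.1⟩)⟩⟩
  loopless := ⟨fun x h => G.loopless.irrefl x h.1⟩

theorem bipG_le (G : SimpleGraph V) (T A : Finset V) : bipG G T A ≤ G := fun _ _ h => h.1

theorem nbr_bipG_inter (G : SimpleGraph V) (T A : Finset V) (hTA : Disjoint T A) {t : V}
    (ht : t ∈ T) : nbr (bipG G T A) t ∩ A = nbr G t ∩ A := by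
  ext x
  simp only [mem_inter, mem_nbr]
  constructor
  · rintro ⟨h, hx⟩
    exact ⟨h.1, hx⟩
  · rintro ⟨h, hx⟩
    exact ⟨⟨h, Or.inl ⟨ht, hx⟩⟩, hx⟩

/-- Majority: a label held by at least `u+1` of the `2u+1` mates is the home. -/
theorem homeOf_eq_of_majority {u : ℕ} {m : Fin (2 * u + 1) → V → V} {σ : V → ℕ} {y : V} {j : ℕ}
    (h : u + 1 ≤ (univ.filter fun l => σ (m l y) = j).card) : homeOf u m σ y = j := by
  have hex : ∃ j, u + 1 ≤ (univ.filter fun l => σ (m l y) = j).card := ⟨j, h⟩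
  unfold homeOf
  rw [dif_pos hex]
  have hc := Classical.choose_spec hex
  set j' := Classical.choose hex with hj'
  by_contra hne
  have hdis : Disjoint (univ.filter fun l => σ (m l y) = j') (univ.filter fun l => σ (m l y) = j) := by
    rw [Finset.disjoint_left]
    intro l hl hl'
    rw [mem_filter] at hl hl'
    exact hne (hl.2.symm.trans hl'.2)
  have hsum := card_union_of_disjoint hdis
  have hle : ((univ.filter fun l => σ (m l y) = j') ∪ (univ.filter fun l => σ (m l y) = j)).card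
      ≤ (univ : Finset (Fin (2 * u + 1))).card := card_le_card (subset_univ _)
  rw [card_univ, Fintype.card_fin] at hle
  omega

theorem extσ_lt {r : ℕ} (hr : 0 < r) (Ni : Finset V) (σ : {x // x ∈ Ni} → Fin r) (v : V) :
    extσ Ni σ v < r := by
  unfold extσ
  split_ifs with h
  · exact (σ ⟨v, h⟩).2
  · exact hr

theorem homeOf_lt {u r : ℕ} (hr : 0 < r) (m : Fin (2 * u + 1) → V → V) (Ni : Finset V)
    (σ : {x // x ∈ Ni} → Fin r) (y : V) : homeOf u m (extσ Ni σ) y < r := by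
  unfold homeOf
  split_ifs with h
  · have hc := Classical.choose_spec h
    have hne : (univ.filter fun l => extσ Ni σ (m l y) = Classical.choose h).Nonempty := by
      rw [← card_pos]
      omega
    obtain ⟨l, hl⟩ := hne
    rw [mem_filter] at hl
    rw [← hl.2]
    exact extσ_lt hr Ni σ _
  · exact hr

/-- If the mates of `t` lying in `Cl` all carry the label `c` and at most `u` elements of `T` are
outside `Cl`, the home of `t` is `c`. -/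
theorem homeOf_eq_of_clean {u : ℕ} (m : Fin (2 * u + 1) → V → V) (σ : V → ℕ) (T Cl : Finset V)
    (hdirty : (T \ Cl).card ≤ u) (t : V) (c : ℕ) (hinj : Function.Injective fun l => m l t)
    (hT : ∀ l, m l t ∈ T) (hcol : ∀ l, m l t ∈ Cl → σ (m l t) = c) :
    homeOf u m σ t = c := by
  apply homeOf_eq_of_majority
  have h1 : ((univ : Finset (Fin (2 * u + 1))).filter fun l => m l t ∉ Cl).card ≤ (T \ Cl).card := by
    refine card_le_card_of_injOn (fun l => m l t) ?_ ?_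
    · intro l hl
      have hl' := (mem_filter.1 (mem_coe.1 hl)).2
      exact mem_coe.2 (mem_sdiff.2 ⟨hT l, hl'⟩)
    · intro a _ b _ hab
      exact hinj hab
  have h2 := card_filter_add_card_filter_not (s := (univ : Finset (Fin (2 * u + 1))))
    (fun l => m l t ∈ Cl)
  rw [card_univ, Fintype.card_fin] at h2
  have h3 : ((univ : Finset (Fin (2 * u + 1))).filter fun l => m l t ∈ Cl).card
      ≤ (univ.filter fun l => σ (m l t) = c).card := by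
    refine card_le_card ?_
    intro l hl
    rw [mem_filter] at hl ⊢
    exact ⟨hl.1, hcol l hl.2⟩
  omega

/-- Number of dirty vertices. -/
theorem card_dirty_le (T Cl : Finset V) (lost : V → ℕ) (u s' B : ℕ) (hs : 0 < s')
    (hB : ∑ t ∈ T, lost t ≤ B) (hBu : B ≤ u * s') (hd : ∀ t ∈ T \ Cl, s' ≤ lost t) :
    (T \ Cl).card ≤ u := by
  have h1 : (T \ Cl).card * s' ≤ ∑ t ∈ T \ Cl, lost t := by
    calc (T \ Cl).card * s' = ∑ _t ∈ T \ Cl, s' := by simp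
      _ ≤ _ := sum_le_sum hd
  have h2 : ∑ t ∈ T \ Cl, lost t ≤ ∑ t ∈ T, lost t :=
    sum_le_sum_of_subset (sdiff_subset)
  exact Nat.le_of_mul_le_mul_right (h1.trans (h2.trans (hB.trans hBu))) hs

/-- Layer cake. -/
theorem sum_eq_sum_card_filter_le {α : Type} (S : Finset α) (e : α → ℕ) (R : ℕ)
    (he : ∀ a ∈ S, e a ≤ R) :
    ∑ a ∈ S, e a = ∑ l ∈ Icc 1 R, (S.filter fun a => l ≤ e a).card := by
  have h1 : ∀ a ∈ S, e a = ∑ l ∈ Icc 1 R, if l ≤ e a then 1 else 0 := by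
    intro a ha
    rw [← card_filter]
    have : (Icc 1 R).filter (fun l => l ≤ e a) = Icc 1 (e a) := by
      ext l
      simp only [mem_filter, mem_Icc]
      have := he a ha
      omega
    rw [this]
    simp
  calc ∑ a ∈ S, e a = ∑ a ∈ S, ∑ l ∈ Icc 1 R, (if l ≤ e a then 1 else 0) :=
        sum_congr rfl h1
    _ = ∑ l ∈ Icc 1 R, ∑ a ∈ S, (if l ≤ e a then 1 else 0) := sum_comm
    _ = _ := by
        refine sum_congr rfl fun l _ => ?_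
        rw [← card_filter]

/-- Each extra label costs `h/40` removed edges. -/
theorem label_loss (L : Finset ℕ) (c₀ : ℕ) (F : ℕ → Finset V) (LA : Finset V) (h : ℕ)
    (hF : ∀ j ∈ L, j ≠ c₀ → h ≤ 40 * (F j).card) (hsub : ∀ j ∈ L, j ≠ c₀ → F j ⊆ LA)
    (hdisj : ∀ j j', j ≠ j' → Disjoint (F j) (F j')) :
    h * (L.card - 1) ≤ 40 * LA.card := by
  have h1 : L.card - 1 ≤ (L.erase c₀).card := by
    rw [card_erase_eq_ite]
    split_ifs <;> omega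
  have h2 : (L.erase c₀).biUnion F ⊆ LA := by
    intro x hx
    obtain ⟨j, hj, hx⟩ := mem_biUnion.1 hx
    rw [mem_erase] at hj
    exact hsub j hj.2 hj.1 hx
  have h3 : ∑ j ∈ L.erase c₀, (F j).card = ((L.erase c₀).biUnion F).card := by
    rw [card_biUnion]
    intro j _ j' _ hjj'
    exact hdisj j j' hjj'
  have h4 : (L.erase c₀).card * h ≤ ∑ j ∈ L.erase c₀, 40 * (F j).card := by
    calc (L.erase c₀).card * h = ∑ _j ∈ L.erase c₀, h := by simp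
      _ ≤ _ := by
        refine sum_le_sum fun j hj => ?_
        rw [mem_erase] at hj
        exact hF j hj.2 hj.1
  rw [← mul_sum, h3] at h4
  have h5 := card_le_card h2
  calc h * (L.card - 1) ≤ h * (L.erase c₀).card := Nat.mul_le_mul_left _ h1
    _ = (L.erase c₀).card * h := mul_comm _ _
    _ ≤ 40 * ((L.erase c₀).biUnion F).card := h4
    _ ≤ _ := Nat.mul_le_mul_left _ h5

/-! ### Numerics -/

namespace Par

variable (P : Par)

theorem Λ_pos : 0 < P.Λ := by have := P.hΛ; omega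

theorem d₀_big : 10 ^ 73 * P.Λ ^ 23 ≤ P.d₀ := by
  have h1 := P.hn_big
  have h2 := P.hn_d
  have h3 : (10 ^ 73 * P.Λ ^ 23) * P.Λ ≤ P.d₀ * P.Λ := by
    calc (10 ^ 73 * P.Λ ^ 23) * P.Λ = 10 ^ 73 * P.Λ ^ 24 := by ring
      _ ≤ P.n := h1
      _ ≤ P.Λ * P.d₀ := h2
      _ = P.d₀ * P.Λ := mul_comm _ _
  exact Nat.le_of_mul_le_mul_right h3 P.Λ_pos

theorem Λ_pow_ge (k : ℕ) (hk : 1 ≤ k) : 1000 ≤ P.Λ ^ k := by
  calc 1000 ≤ P.Λ := P.hΛ
    _ = P.Λ ^ 1 := (pow_one _).symm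
    _ ≤ P.Λ ^ k := Nat.pow_le_pow_right P.Λ_pos hk

theorem d₀_ge : 10 ^ 73 ≤ P.d₀ := by
  have h := P.d₀_big
  have h2 := P.Λ_pow_ge 23 (by norm_num)
  have h3 : 10 ^ 73 * 1 ≤ 10 ^ 73 * P.Λ ^ 23 := Nat.mul_le_mul_left _ (by omega)
  omega

theorem d₁_mul : 40 * P.d₁ ≤ P.d₀ := by
  unfold d₁; omega

theorem d₀_lt : P.d₀ < 40 * P.d₁ + 40 := by
  unfold d₁; omega

theorem d₂_mul : 4 * P.d₂ ≤ P.d₁ := by
  unfold d₂; omega

theorem d₁_lt : P.d₁ < 4 * P.d₂ + 4 := by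
  unfold d₂; omega

theorem d₁_pos : 1 ≤ P.d₁ := by
  have h := P.d₀_ge
  have h2 := P.d₀_lt
  norm_num at h
  omega

theorem d₀_le_d₁ : P.d₀ ≤ 80 * P.d₁ := by
  have h := P.d₀_ge
  have h2 := P.d₀_lt
  norm_num at h
  omega

theorem d₂_big : 128 ≤ P.d₂ := by
  have h := P.d₀_ge
  have h1 := P.d₀_lt
  have h2 := P.d₁_lt
  norm_num at h
  omega

theorem d₀_le_d₂ : P.d₀ ≤ 320 * P.d₂ := by
  have h := P.d₀_ge
  have h1 := P.d₀_lt
  have h2 := P.d₁_lt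
  norm_num at h
  omega

theorem n_pos : 0 < P.n := by
  have h1 := P.hn_big
  have h2 := P.Λ_pow_ge 24 (by norm_num)
  have h3 : 10 ^ 73 * 1 ≤ 10 ^ 73 * P.Λ ^ 24 := Nat.mul_le_mul_left _ (by omega)
  norm_num at h3
  omega

theorem s_mul : 4 * P.Λ ^ 2 * P.s ≤ P.n := by
  unfold s
  exact Nat.mul_div_le _ _

theorem n_lt_s : P.n < 4 * P.Λ ^ 2 * (P.s + 1) := by
  unfold s
  have hpos : 0 < 4 * P.Λ ^ 2 := by have := P.Λ_pos; positivity
  exact Nat.lt_mul_div_succ _ hpos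

theorem s'_mul : 80 * P.s' ≤ P.s := by
  unfold s'; omega

theorem s_lt : P.s < 80 * P.s' + 80 := by
  unfold s'; omega

theorem n_big_Λ : 10 ^ 73 * P.Λ ^ 2 ≤ P.n := by
  calc 10 ^ 73 * P.Λ ^ 2 ≤ 10 ^ 73 * P.Λ ^ 24 :=
        Nat.mul_le_mul_left _ (Nat.pow_le_pow_right P.Λ_pos (by norm_num))
    _ ≤ P.n := P.hn_big

theorem s'_pos : 1 ≤ P.s' := by
  have h1 := P.n_lt_s
  have h2 := P.s_lt
  have h3 := P.n_big_Λ
  by_contra hcon
  have h4 : P.s' = 0 := by omega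
  rw [h4] at h2
  have h5 : P.s + 1 ≤ 80 := by omega
  have h6 : 4 * P.Λ ^ 2 * (P.s + 1) ≤ 4 * P.Λ ^ 2 * 80 := Nat.mul_le_mul_left _ h5
  have h7 : 0 < P.Λ ^ 2 := by have := P.Λ_pos; positivity
  norm_num at h3
  nlinarith

theorem n_le_s' : P.n ≤ 640 * P.Λ ^ 2 * P.s' := by
  have h1 := P.n_lt_s
  have h2 := P.s_lt
  have h3 := P.s'_pos
  have h5 : P.s + 1 ≤ 160 * P.s' := by omega
  have h6 : 4 * P.Λ ^ 2 * (P.s + 1) ≤ 4 * P.Λ ^ 2 * (160 * P.s') := Nat.mul_le_mul_left _ h5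
  calc P.n ≤ 4 * P.Λ ^ 2 * (P.s + 1) := h1.le
    _ ≤ 4 * P.Λ ^ 2 * (160 * P.s') := h6
    _ = 640 * P.Λ ^ 2 * P.s' := by ring

theorem lost_bound : 2 * P.τ * P.r₀ + 2 * P.g * P.n ≤ P.u * P.s' := by
  have h1 := P.n_le_s'
  have h2 : 2 * P.τ * P.r₀ + 2 * P.g * P.n = 12640000000 * P.Λ ^ 2 * P.n := by
    unfold τ r₀ g g₂
    ring
  rw [h2]
  unfold u
  calc 12640000000 * P.Λ ^ 2 * P.n ≤ 12640000000 * P.Λ ^ 2 * (640 * P.Λ ^ 2 * P.s') :=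
        Nat.mul_le_mul_left _ h1
    _ = 8089600000000 * P.Λ ^ 4 * P.s' := by ring
    _ ≤ 2 * 10 ^ 13 * P.Λ ^ 4 * P.s' := by
        refine Nat.mul_le_mul_right _ (Nat.mul_le_mul_right _ (by norm_num))

theorem s'_le_d₁ : P.s' ≤ P.d₁ := by
  have h1 := P.s'_mul
  have h2 := P.s_mul
  have h3 := P.hn_d
  have h4 := P.d₀_le_d₁
  have h5 := P.Λ_pos
  -- `320 Λ² s' ≤ 4 Λ² s ≤ n ≤ Λ d₀ ≤ 80 Λ d₁`
  have h6 : 320 * P.Λ ^ 2 * P.s' ≤ P.Λ * (80 * P.d₁) := by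
    calc 320 * P.Λ ^ 2 * P.s' = 4 * P.Λ ^ 2 * (80 * P.s') := by ring
      _ ≤ 4 * P.Λ ^ 2 * P.s := Nat.mul_le_mul_left _ h1
      _ ≤ P.n := h2
      _ ≤ P.Λ * P.d₀ := h3
      _ ≤ P.Λ * (80 * P.d₁) := Nat.mul_le_mul_left _ h4
  have h7 : P.s' * (80 * P.Λ) * (4 * P.Λ) ≤ P.d₁ * (80 * P.Λ) := by nlinarith
  have h8 : P.s' * (4 * P.Λ) ≤ P.d₁ := by
    have : P.s' * (4 * P.Λ) * (80 * P.Λ) ≤ P.d₁ * (80 * P.Λ) := by nlinarith
    exact Nat.le_of_mul_le_mul_right this (by omega)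
  nlinarith

theorem forty_u_le_h : 40 * P.u ≤ P.h := by
  unfold u h
  have h1 : P.Λ ^ 4 ≤ P.Λ ^ 6 := Nat.pow_le_pow_right P.Λ_pos (by norm_num)
  calc 40 * (2 * 10 ^ 13 * P.Λ ^ 4) = 8 * 10 ^ 14 * P.Λ ^ 4 := by ring
    _ ≤ 8 * 10 ^ 14 * P.Λ ^ 6 := Nat.mul_le_mul_left _ h1
    _ ≤ 2 * 10 ^ 16 * P.Λ ^ 6 := Nat.mul_le_mul_right _ (by norm_num)

theorem r₀_pos : 0 < P.r₀ := by
  unfold r₀
  have := P.Λ_pos
  positivity

theorem g_pos : 1 ≤ P.g := by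
  unfold g g₂
  have := P.Λ_pos
  have : 0 < P.Λ ^ 2 := by positivity
  omega

theorem r_le_r₀ (r a : ℕ) (hr : r * P.d₁ ≤ 4 * a) (ha : a ≤ P.n) : r ≤ P.r₀ := by
  have h1 := P.hn_d
  have h2 := P.d₀_le_d₁
  have h3 := P.d₁_pos
  have h4 : r * P.d₁ ≤ (320 * P.Λ) * P.d₁ := by
    calc r * P.d₁ ≤ 4 * a := hr
      _ ≤ 4 * (P.Λ * P.d₀) := Nat.mul_le_mul_left _ (ha.trans h1)
      _ ≤ 4 * (P.Λ * (80 * P.d₁)) := Nat.mul_le_mul_left _ (Nat.mul_le_mul_left _ h2)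
      _ = (320 * P.Λ) * P.d₁ := by ring
  exact Nat.le_of_mul_le_mul_right h4 (by omega)

theorem route_hL : 8 * P.n ≤ P.L * P.d₂ := by
  have h1 := P.hn_d
  have h2 := P.d₀_le_d₂
  unfold L
  calc 8 * P.n ≤ 8 * (P.Λ * P.d₀) := Nat.mul_le_mul_left _ h1
    _ ≤ 8 * (P.Λ * (320 * P.d₂)) := Nat.mul_le_mul_left _ (Nat.mul_le_mul_left _ h2)
    _ = 2560 * P.Λ * P.d₂ := by ring
    _ ≤ 5120 * P.Λ * P.d₂ := Nat.mul_le_mul_right _ (Nat.mul_le_mul_right _ (by norm_num))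

theorem route_hτ : 17 * (P.k * P.L) < P.τ := by
  unfold k L τ
  have h1 := P.Λ_pos
  have h2 := P.n_pos
  have h3 : 0 < P.n * P.Λ := Nat.mul_pos h2 h1
  have : 17 * (7 * P.n * (5120 * P.Λ)) = 609280 * (P.n * P.Λ) := by ring
  rw [this]
  have h4 : 10 ^ 6 * P.n * P.Λ = 10 ^ 6 * (P.n * P.Λ) := by ring
  rw [h4]
  norm_num
  omega

theorem route_hdg : 4 * P.τ ≤ P.d₂ * P.g₂ := by
  have h1 := P.hn_d
  have h2 := P.d₀_le_d₂
  have hpos := P.Λ_pos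
  unfold τ g₂
  -- `4 · 10⁶ n Λ ≤ 4 · 10⁶ Λ² d₀ ≤ 4 · 10⁶ · 320 Λ² d₂ ≤ 3 · 10⁹ Λ² d₂`
  calc 4 * (10 ^ 6 * P.n * P.Λ) = 4 * 10 ^ 6 * P.Λ * P.n := by ring
    _ ≤ 4 * 10 ^ 6 * P.Λ * (P.Λ * (320 * P.d₂)) :=
        Nat.mul_le_mul_left _ (h1.trans (Nat.mul_le_mul_left _ h2))
    _ = 1280000000 * P.Λ ^ 2 * P.d₂ := by ring
    _ ≤ 3000000000 * P.Λ ^ 2 * P.d₂ := Nat.mul_le_mul_right _ (Nat.mul_le_mul_right _ (by norm_num))
    _ = P.d₂ * (3 * 10 ^ 9 * P.Λ ^ 2) := by ring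

/-- The numerics of `sumLab`. -/
theorem sumLab_numeric (X : ℕ) (hX : P.h * X ≤ 40 * (2 * P.τ * P.r₀ + 2 * P.g * P.n)) :
    10 * (3 * P.p * P.r₀ + (P.r₀ * P.h + 20 * X)) ≤ P.n := by
  have hΛ := P.Λ_pos
  have hb := P.hn_big
  have h1 : 2 * P.τ * P.r₀ + 2 * P.g * P.n = 12640000000 * P.Λ ^ 2 * P.n := by
    unfold τ r₀ g g₂
    ring
  rw [h1] at hX
  -- `X` part
  have hX' : 2 * 10 ^ 16 * X * P.Λ ^ 2 ≤ 505600000000 * P.n := by
    -- from `2e16 Λ⁶ X ≤ 40 * 1.264e10 Λ² n`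
    have h2 : (2 * 10 ^ 16 * P.Λ ^ 4 * X) * P.Λ ^ 2 ≤ (505600000000 * P.n) * P.Λ ^ 2 := by
      calc (2 * 10 ^ 16 * P.Λ ^ 4 * X) * P.Λ ^ 2 = (2 * 10 ^ 16 * P.Λ ^ 6) * X := by ring
        _ ≤ 40 * (12640000000 * P.Λ ^ 2 * P.n) := hX
        _ = (505600000000 * P.n) * P.Λ ^ 2 := by ring
    have h3 := Nat.le_of_mul_le_mul_right h2 (by positivity)
    have h4 : P.Λ ^ 2 ≤ P.Λ ^ 4 := Nat.pow_le_pow_right hΛ (by norm_num)
    calc 2 * 10 ^ 16 * X * P.Λ ^ 2 = 2 * 10 ^ 16 * P.Λ ^ 2 * X := by ring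
      _ ≤ 2 * 10 ^ 16 * P.Λ ^ 4 * X :=
          Nat.mul_le_mul_right _ (Nat.mul_le_mul_left _ h4)
      _ ≤ _ := h3
  have hX'' : 600 * X ≤ P.n := by
    have h5 : 1 ≤ P.Λ ^ 2 := Nat.one_le_pow _ _ hΛ
    have h6 : 2 * 10 ^ 16 * X ≤ 2 * 10 ^ 16 * X * P.Λ ^ 2 := Nat.le_mul_of_pos_right _ (by omega)
    have h7 := h6.trans hX'
    norm_num at h7
    omega
  -- polynomial parts
  have hp : 10 * (3 * P.p * P.r₀ + P.r₀ * P.h) ≤ P.n / 2 * 1 := by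
    have hk : ∀ k, k ≤ 24 → P.Λ ^ k ≤ P.Λ ^ 24 := fun k hk => Nat.pow_le_pow_right hΛ hk
    have e : 10 * (3 * P.p * P.r₀ + P.r₀ * P.h) =
        10 * (3 * ((2 * (2 * 10 ^ 13 * P.Λ ^ 4) + 1) * (2 * P.Λ)) * (320 * P.Λ)
          + 320 * P.Λ * (2 * 10 ^ 16 * P.Λ ^ 6)) := rfl
    have e2 : 10 * (3 * ((2 * (2 * 10 ^ 13 * P.Λ ^ 4) + 1) * (2 * P.Λ)) * (320 * P.Λ)
          + 320 * P.Λ * (2 * 10 ^ 16 * P.Λ ^ 6)) =
        768000000000000000 * P.Λ ^ 6 + 19200 * P.Λ ^ 2 + 64000000000000000000 * P.Λ ^ 7 := by ring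
    rw [e, e2]
    have h6 := hk 6 (by norm_num)
    have h2 := hk 2 (by norm_num)
    have h7 := hk 7 (by norm_num)
    have hn2 : 10 ^ 73 * P.Λ ^ 24 / 2 ≤ P.n / 2 := Nat.div_le_div_right hb
    have h3 : 65000000000000000000 * P.Λ ^ 24 ≤ 10 ^ 73 * P.Λ ^ 24 / 2 := by
      rw [Nat.le_div_iff_mul_le (by norm_num)]
      calc 65000000000000000000 * P.Λ ^ 24 * 2 = 130000000000000000000 * P.Λ ^ 24 := by ring
        _ ≤ 10 ^ 73 * P.Λ ^ 24 := Nat.mul_le_mul_right _ (by norm_num)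
    omega
  have hn : P.n / 2 * 2 ≤ P.n := Nat.div_mul_le_self _ _
  nlinarith

end Par

end Crest.Agent.EG
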