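import Crest.Agent.EG.Basic

/-!
# Extremal partition lemma (blueprint Step C)
-/

set_option autoImplicit false
set_option linter.unusedSectionVars false

namespace Crest.Agent.EG

open Finset
open scoped Classical

variable {V : Type} [Fintype V]

/-- The bipartite graph of the edges of `Γ₀` between alive `T'` and alive `A'` with equal colours. -/
def restrictGraph (Γ₀ : SimpleGraph V) (T' A' : Finset V) (col : V → ℕ) : SimpleGraph V where
  Adj x y := Γ₀.Adj x y ∧ ((x ∈ T' ∧ y ∈ A') ∨ (x ∈ A' ∧ y ∈ T')) ∧ col x = col y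
  symm := ⟨by
    rintro x y ⟨h1, h2, h3⟩
    exact ⟨h1.symm, h2.symm.imp (fun h => ⟨h.2, h.1⟩) (fun h => ⟨h.2, h.1⟩), h3.symm⟩⟩
  loopless := ⟨fun x h => Γ₀.loopless.irrefl x h.1⟩

namespace PartitionAux

/-- The edge set of a configuration, as ordered pairs `(t, a)`. -/
noncomputable def Y (Γ₀ : SimpleGraph V) (T' A' : Finset V) (col : V → ℕ) : Finset (V × V) :=
  (T' ×ˢ A').filter fun p => Γ₀.Adj p.1 p.2 ∧ col p.1 = col p.2

theorem mem_Y {Γ₀ : SimpleGraph V} {T' A' : Finset V} {col : V → ℕ} {p : V × V} :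
    p ∈ Y Γ₀ T' A' col ↔ p.1 ∈ T' ∧ p.2 ∈ A' ∧ Γ₀.Adj p.1 p.2 ∧ col p.1 = col p.2 := by
  simp [Y, and_assoc]

/-- Number of pairs of `Z` of colour `c`. -/
noncomputable def ec (Z : Finset (V × V)) (col : V → ℕ) (c : ℕ) : ℕ :=
  (Z.filter fun p => col p.1 = c).card

/-- `∑_c min(τ, e_c)`. -/
noncomputable def mu (τ : ℕ) (Z : Finset (V × V)) (col : V → ℕ) : ℕ :=
  ∑ c ∈ Z.image (fun p => col p.1), min τ (ec Z col c)

theorem ec_eq_zero {Z : Finset (V × V)} {col : V → ℕ} {c : ℕ}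
    (h : c ∉ Z.image (fun p => col p.1)) : ec Z col c = 0 := by
  unfold ec
  rw [card_eq_zero, filter_eq_empty_iff]
  intro p hp hc
  exact h (mem_image.2 ⟨p, hp, hc⟩)

theorem mu_eq_sum {τ : ℕ} {Z : Finset (V × V)} {col : V → ℕ} {R : Finset ℕ}
    (hR : Z.image (fun p => col p.1) ⊆ R) : mu τ Z col = ∑ c ∈ R, min τ (ec Z col c) := by
  unfold mu
  apply sum_subset hR
  intro c _ hc
  rw [ec_eq_zero hc]
  simp

theorem card_eq_sum_ec {Z : Finset (V × V)} {col : V → ℕ} {R : Finset ℕ}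
    (hR : Z.image (fun p => col p.1) ⊆ R) : Z.card = ∑ c ∈ R, ec Z col c := by
  unfold ec
  apply card_eq_sum_card_fiberwise
  intro p hp
  exact hR (mem_image.2 ⟨p, hp, rfl⟩)

theorem mu_le_card (τ : ℕ) (Z : Finset (V × V)) (col : V → ℕ) : mu τ Z col ≤ Z.card := by
  rw [card_eq_sum_ec (subset_refl _)]
  unfold mu
  exact sum_le_sum fun c _ => min_le_right _ _

theorem mu_le_mul (τ : ℕ) (Z : Finset (V × V)) (col : V → ℕ) :
    mu τ Z col ≤ τ * (Z.image (fun p => col p.1)).card := by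
  unfold mu
  calc _ ≤ ∑ _c ∈ Z.image (fun p => col p.1), τ := sum_le_sum fun c _ => min_le_left _ _
    _ = _ := by simp [mul_comm]

theorem mu_lip (τ : ℕ) {Z Z' : Finset (V × V)} (col : V → ℕ) (h : Z' ⊆ Z) :
    mu τ Z col + Z'.card ≤ mu τ Z' col + Z.card := by
  have hR : Z'.image (fun p => col p.1) ⊆ Z.image (fun p => col p.1) := image_subset_image h
  rw [mu_eq_sum (subset_refl _), mu_eq_sum hR, card_eq_sum_ec hR,
    card_eq_sum_ec (subset_refl (Z.image (fun p => col p.1))), ← sum_add_distrib, ← sum_add_distrib]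
  apply sum_le_sum
  intro c _
  have : ec Z' col c ≤ ec Z col c := card_le_card (filter_subset_filter _ h)
  omega

/-- The potential `F`. -/
noncomputable def Fn (Γ₀ : SimpleGraph V) (A : Finset V) (τ g : ℕ) (T' A' : Finset V)
    (col : V → ℕ) : ℤ :=
  2 * ((Y Γ₀ T' A' col).card : ℤ) + 2 * (mu τ (Y Γ₀ T' A' col) col : ℤ) - 2 * (g : ℤ) * (A'.card : ℤ)
    - ∑ t ∈ T', ((nbr Γ₀ t ∩ A).card : ℤ)

theorem Y_card_le {Γ₀ : SimpleGraph V} {T A T' A' : Finset V} {col : V → ℕ}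
    (hT : T' ⊆ T) (hA : A' ⊆ A) : (Y Γ₀ T' A' col).card ≤ (T ×ˢ A).card :=
  card_le_card ((filter_subset _ _).trans (product_subset_product hT hA))

theorem exists_max (Γ₀ : SimpleGraph V) (T A : Finset V) (τ g : ℕ) :
    ∃ (T' A' : Finset V) (col : V → ℕ), T' ⊆ T ∧ A' ⊆ A ∧
      ∀ (T'' A'' : Finset V) (col' : V → ℕ), T'' ⊆ T → A'' ⊆ A →
        Fn Γ₀ A τ g T'' A'' col' ≤ Fn Γ₀ A τ g T' A' col := by
  obtain ⟨ub, ⟨T', A', col, hT, hA, rfl⟩, hub⟩ := Int.exists_greatest_of_bdd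
    (P := fun z => ∃ (T' A' : Finset V) (col : V → ℕ), T' ⊆ T ∧ A' ⊆ A ∧ Fn Γ₀ A τ g T' A' col = z)
    ⟨4 * ((T ×ˢ A).card : ℤ), by
      rintro z ⟨T', A', col, hT, hA, rfl⟩
      have h1 : ((Y Γ₀ T' A' col).card : ℤ) ≤ ((T ×ˢ A).card : ℤ) := by
        exact_mod_cast Y_card_le hT hA
      have h2 : (mu τ (Y Γ₀ T' A' col) col : ℤ) ≤ ((Y Γ₀ T' A' col).card : ℤ) := by
        exact_mod_cast mu_le_card τ _ col
      have h3 : 0 ≤ ∑ t ∈ T', ((nbr Γ₀ t ∩ A).card : ℤ) := sum_nonneg fun _ _ => by positivity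
      have h4 : 0 ≤ 2 * (g : ℤ) * (A'.card : ℤ) := by positivity
      unfold Fn
      linarith⟩
    ⟨_, T, A, fun _ => 0, subset_refl _, subset_refl _, rfl⟩
  exact ⟨T', A', col, hT, hA, fun T'' A'' col' h1 h2 => hub _ ⟨T'', A'', col', h1, h2, rfl⟩⟩

section Moves

variable {Γ₀ : SimpleGraph V} {A T' A' : Finset V} {col : V → ℕ}

/-- The neighbours of an alive `t`. -/
theorem nbr_restrict_of_T {t : V} (ht : t ∈ T') (hd : Disjoint T' A') :
    (nbr (restrictGraph Γ₀ T' A' col) t).card = ((Y Γ₀ T' A' col).filter fun p => p.1 = t).card := by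
  apply card_bij (fun x _ => (t, x))
  · intro x hx
    have hx' := mem_nbr.1 hx
    obtain ⟨h1, h2, h3⟩ := hx'
    have hxA : x ∈ A' := by
      rcases h2 with h | h
      · exact h.2
      · exact absurd ht (disjoint_right.1 hd h.1)
    exact mem_filter.2 ⟨mem_Y.2 ⟨ht, hxA, h1, h3⟩, rfl⟩
  · intro a _ b _ h
    exact (Prod.ext_iff.1 h).2
  · intro p hp
    obtain ⟨hp1, hp2⟩ := mem_filter.1 hp
    obtain ⟨h1, h2, h3, h4⟩ := mem_Y.1 hp1
    refine ⟨p.2, ?_, ?_⟩
    · rw [hp2] at h3 h4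
      exact mem_nbr.2 ⟨h3, Or.inl ⟨ht, h2⟩, h4⟩
    · exact Prod.ext hp2.symm rfl

/-- The neighbours of an alive `a`. -/
theorem nbr_restrict_of_A {a : V} (ha : a ∈ A') (hd : Disjoint T' A') :
    (nbr (restrictGraph Γ₀ T' A' col) a).card = ((Y Γ₀ T' A' col).filter fun p => p.2 = a).card := by
  apply card_bij (fun x _ => (x, a))
  · intro x hx
    obtain ⟨h1, h2, h3⟩ := mem_nbr.1 hx
    have hxT : x ∈ T' := by
      rcases h2 with h | h
      · exact absurd ha (disjoint_left.1 hd h.1)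
      · exact h.2
    exact mem_filter.2 ⟨mem_Y.2 ⟨hxT, ha, h1.symm, h3.symm⟩, rfl⟩
  · intro a _ b _ h
    exact (Prod.ext_iff.1 h).1
  · intro p hp
    obtain ⟨hp1, hp2⟩ := mem_filter.1 hp
    obtain ⟨h1, h2, h3, h4⟩ := mem_Y.1 hp1
    refine ⟨p.1, ?_, ?_⟩
    · rw [hp2] at h3 h4
      exact mem_nbr.2 ⟨h3.symm, Or.inr ⟨ha, h1⟩, h4.symm⟩
    · exact Prod.ext rfl hp2.symm

theorem Y_erase_T (t : V) :
    Y Γ₀ (T'.erase t) A' col = (Y Γ₀ T' A' col).filter fun p => ¬ p.1 = t := by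
  ext p
  simp only [mem_filter, mem_Y, mem_erase]
  tauto

theorem Y_erase_A (a : V) :
    Y Γ₀ T' (A'.erase a) col = (Y Γ₀ T' A' col).filter fun p => ¬ p.2 = a := by
  ext p
  simp only [mem_filter, mem_Y, mem_erase]
  tauto

/-- Deleting an alive `t`. -/
theorem Fn_erase_T (τ g : ℕ) {t : V} (ht : t ∈ T') (hd : Disjoint T' A') :
    Fn Γ₀ A τ g T' A' col + ((nbr Γ₀ t ∩ A).card : ℤ)
      - 4 * ((nbr (restrictGraph Γ₀ T' A' col) t).card : ℤ) ≤ Fn Γ₀ A τ g (T'.erase t) A' col := by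
  have h0 := nbr_restrict_of_T (Γ₀ := Γ₀) (col := col) ht hd
  have hY := Y_erase_T (Γ₀ := Γ₀) (T' := T') (A' := A') (col := col) t
  have hc := card_filter_add_card_filter_not (s := Y Γ₀ T' A' col) (fun p => p.1 = t)
  have hsub : (Y Γ₀ T' A' col).filter (fun p => ¬ p.1 = t) ⊆ Y Γ₀ T' A' col := filter_subset _ _
  have hl := mu_lip τ col hsub
  have hsum := add_sum_erase T' (fun t => ((nbr Γ₀ t ∩ A).card : ℤ)) ht
  unfold Fn
  rw [hY, h0, ← hsum]
  zify at hc hl
  linarith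

/-- Deleting an alive `a`. -/
theorem Fn_erase_A (τ g : ℕ) {a : V} (ha : a ∈ A') (hd : Disjoint T' A') :
    Fn Γ₀ A τ g T' A' col + 2 * (g : ℤ)
      - 4 * ((nbr (restrictGraph Γ₀ T' A' col) a).card : ℤ) ≤ Fn Γ₀ A τ g T' (A'.erase a) col := by
  have h0 := nbr_restrict_of_A (Γ₀ := Γ₀) (col := col) ha hd
  have hY := Y_erase_A (Γ₀ := Γ₀) (T' := T') (A' := A') (col := col) a
  have hc := card_filter_add_card_filter_not (s := Y Γ₀ T' A' col) (fun p => p.2 = a)
  have hsub : (Y Γ₀ T' A' col).filter (fun p => ¬ p.2 = a) ⊆ Y Γ₀ T' A' col := filter_subset _ _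
  have hl := mu_lip τ col hsub
  have hAc : ((A'.erase a).card : ℤ) = (A'.card : ℤ) - 1 := by
    rw [card_erase_of_mem ha]
    have : 1 ≤ A'.card := card_pos.2 ⟨a, ha⟩
    omega
  unfold Fn
  rw [hY, h0, hAc]
  zify at hc hl
  nlinarith

/-- Pairs of the configuration versus the counting functions of the statement. -/
theorem eIn_eq (hd : Disjoint T' A') (S : Finset V) :
    eIn (restrictGraph Γ₀ T' A' col) T' A' S =
      ((Y Γ₀ T' A' col).filter fun p => p.1 ∈ S ∧ p.2 ∈ S).card := by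
  unfold eIn
  congr 1
  ext p
  simp only [mem_filter, mem_product, mem_Y]
  constructor
  · rintro ⟨⟨h1, h2⟩, ⟨h3, -, h4⟩, h5⟩
    exact ⟨⟨h1, h2, h3, h4⟩, h5⟩
  · rintro ⟨⟨h1, h2, h3, h4⟩, h5⟩
    exact ⟨⟨h1, h2⟩, ⟨h3, Or.inl ⟨h1, h2⟩, h4⟩, h5⟩

theorem eBetween_eq (hd : Disjoint T' A') (S S' : Finset V) :
    eBetween (restrictGraph Γ₀ T' A' col) T' A' S S' =
      ((Y Γ₀ T' A' col).filter fun p => (p.1 ∈ S ∧ p.2 ∈ S') ∨ (p.1 ∈ S' ∧ p.2 ∈ S)).card := by
  unfold eBetween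
  congr 1
  ext p
  simp only [mem_filter, mem_product, mem_Y]
  constructor
  · rintro ⟨⟨h1, h2⟩, ⟨h3, -, h4⟩, h5⟩
    exact ⟨⟨h1, h2, h3, h4⟩, h5⟩
  · rintro ⟨⟨h1, h2, h3, h4⟩, h5⟩
    exact ⟨⟨h1, h2⟩, ⟨h3, Or.inl ⟨h1, h2⟩, h4⟩, h5⟩

/-- Splitting a class along `S`. -/
theorem Fn_split (τ g c c' : ℕ) (S : Finset V)
    (hS : S ⊆ (T' ∪ A').filter (fun x => col x = c))
    (hfresh : ∀ x ∈ T' ∪ A', col x < c') (hcc' : c < c')
    (h1 : τ ≤ ((Y Γ₀ T' A' col).filter fun p => p.1 ∈ S ∧ p.2 ∈ S).card)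
    (h2 : τ ≤ ((Y Γ₀ T' A' col).filter fun p =>
      p.1 ∈ ((T' ∪ A').filter (fun x => col x = c)) \ S ∧
      p.2 ∈ ((T' ∪ A').filter (fun x => col x = c)) \ S).card) :
    Fn Γ₀ A τ g T' A' col + 2 * (τ : ℤ) - 2 * (((Y Γ₀ T' A' col).filter fun p =>
        (p.1 ∈ S ∧ p.2 ∈ ((T' ∪ A').filter (fun x => col x = c)) \ S) ∨
        (p.1 ∈ ((T' ∪ A').filter (fun x => col x = c)) \ S ∧ p.2 ∈ S)).card : ℤ)
      ≤ Fn Γ₀ A τ g T' A' (fun v => if v ∈ S then c' else col v) := by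
  set cl := (T' ∪ A').filter (fun x => col x = c) with hcl
  set col' : V → ℕ := fun v => if v ∈ S then c' else col v with hcol'
  set Z := Y Γ₀ T' A' col with hZ
  set Z' := Y Γ₀ T' A' col' with hZ'
  have hcolS : ∀ x ∈ S, col x = c ∧ (x ∈ T' ∪ A') := fun x hx => by
    have := mem_filter.1 (hS hx)
    exact ⟨this.2, this.1⟩
  have hcol'S : ∀ x, x ∈ S → col' x = c' := fun x hx => by simp [hcol', hx]
  have hcol'N : ∀ x, x ∉ S → col' x = col x := fun x hx => by simp [hcol', hx]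
  have hT : ∀ x ∈ T', x ∈ T' ∪ A' := fun x hx => mem_union_left _ hx
  have hA : ∀ x ∈ A', x ∈ T' ∪ A' := fun x hx => mem_union_right _ hx
  -- every pair of `Z` is in `Z'` or crosses
  have hcard : (Z.card : ℤ) ≤ (Z'.card : ℤ) + ((Z.filter fun p =>
        (p.1 ∈ S ∧ p.2 ∈ cl \ S) ∨ (p.1 ∈ cl \ S ∧ p.2 ∈ S)).card : ℤ) := by
    have : Z ⊆ Z' ∪ (Z.filter fun p => (p.1 ∈ S ∧ p.2 ∈ cl \ S) ∨ (p.1 ∈ cl \ S ∧ p.2 ∈ S)) := by
      intro p hp
      by_cases hcross : (p.1 ∈ S ∧ p.2 ∈ cl \ S) ∨ (p.1 ∈ cl \ S ∧ p.2 ∈ S)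
      · exact mem_union_right _ (mem_filter.2 ⟨hp, hcross⟩)
      · apply mem_union_left
        obtain ⟨h1', h2', h3', h4'⟩ := mem_Y.1 hp
        refine mem_Y.2 ⟨h1', h2', h3', ?_⟩
        by_cases hp1 : p.1 ∈ S
        · have hc1 := (hcolS _ hp1).1
          have hp2 : p.2 ∈ S := by
            by_contra hp2
            apply hcross
            left
            refine ⟨hp1, mem_sdiff.2 ⟨mem_filter.2 ⟨hA _ h2', ?_⟩, hp2⟩⟩
            rw [← h4', hc1]
          rw [hcol'S _ hp1, hcol'S _ hp2]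
        · have hp2 : p.2 ∉ S := by
            intro hp2
            apply hcross
            right
            have hc2 := (hcolS _ hp2).1
            refine ⟨mem_sdiff.2 ⟨mem_filter.2 ⟨hT _ h1', ?_⟩, hp1⟩, hp2⟩
            rw [h4', hc2]
          rw [hcol'N _ hp1, hcol'N _ hp2, h4']
    have h := (card_le_card this).trans (card_union_le _ _)
    exact_mod_cast h
  -- the main inequality for `mu`
  have hmu : mu τ Z col + τ ≤ mu τ Z' col' := by
    set R : Finset ℕ := Z.image (fun p => col p.1) ∪ Z'.image (fun p => col' p.1) ∪ {c'} with hR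
    rw [mu_eq_sum (R := R) (by rw [hR]; exact subset_union_left.trans subset_union_left),
      mu_eq_sum (R := R) (by rw [hR]; exact subset_union_right.trans subset_union_left)]
    have hc'R : c' ∈ R := by simp [hR]
    have hsum : (∑ d ∈ R, if d = c' then τ else 0) = τ := by
      rw [sum_ite_eq' R c']
      simp [hc'R]
    have hsum2 : (∑ d ∈ R, min τ (ec Z col d)) + τ =
        ∑ d ∈ R, (min τ (ec Z col d) + if d = c' then τ else 0) := by
      rw [sum_add_distrib, hsum]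
    rw [hsum2]
    apply sum_le_sum
    intro d _
    by_cases hd' : d = c'
    · subst hd'
      have hzero : ec Z col d = 0 := by
        unfold ec
        rw [card_eq_zero, filter_eq_empty_iff]
        intro p hp hpc
        have := hfresh _ (hT _ (mem_Y.1 hp).1)
        omega
      have hge : τ ≤ ec Z' col' d := by
        refine h1.trans (card_le_card ?_)
        intro p hp
        obtain ⟨hp1, hp2, hp3⟩ := mem_filter.1 hp
        obtain ⟨h1', h2', h3', h4'⟩ := mem_Y.1 hp1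
        refine mem_filter.2 ⟨mem_Y.2 ⟨h1', h2', h3', ?_⟩, hcol'S _ hp2⟩
        rw [hcol'S _ hp2, hcol'S _ hp3]
      simp only [hzero, if_true]
      rw [min_eq_left hge]
      simp
    · by_cases hdc : d = c
      · subst hdc
        have hge : τ ≤ ec Z' col' d := by
          refine h2.trans (card_le_card ?_)
          intro p hp
          obtain ⟨hp1, hp2⟩ := mem_filter.1 hp
          obtain ⟨h1', h2', h3', h4'⟩ := mem_Y.1 hp1
          obtain ⟨hpa, hpb⟩ := hp2
          have ha1 := mem_sdiff.1 hpa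
          have hb1 := mem_sdiff.1 hpb
          have hca := (mem_filter.1 ha1.1).2
          have hcb := (mem_filter.1 hb1.1).2
          refine mem_filter.2 ⟨mem_Y.2 ⟨h1', h2', h3', ?_⟩, ?_⟩
          · rw [hcol'N _ ha1.2, hcol'N _ hb1.2, h4']
          · rw [hcol'N _ ha1.2, hca]
        simp only [hd', if_false, add_zero]
        rw [min_eq_left hge]
        exact min_le_left _ _
      · have hge : ec Z col d ≤ ec Z' col' d := by
          refine card_le_card ?_
          intro p hp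
          obtain ⟨hp1, hp2⟩ := mem_filter.1 hp
          obtain ⟨h1', h2', h3', h4'⟩ := mem_Y.1 hp1
          have hp1S : p.1 ∉ S := fun h => hdc (by rw [← hp2, (hcolS _ h).1])
          have hp2S : p.2 ∉ S := fun h => hdc (by rw [← hp2, h4', (hcolS _ h).1])
          refine mem_filter.2 ⟨mem_Y.2 ⟨h1', h2', h3', ?_⟩, ?_⟩
          · rw [hcol'N _ hp1S, hcol'N _ hp2S, h4']
          · rw [hcol'N _ hp1S, hp2]
        simp only [hd', if_false, add_zero]
        exact min_le_min_left _ hge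
  unfold Fn
  zify at hmu
  linarith

end Moves

/-- Colour renumbering: the rank of `d` in the finite set `C`. -/
noncomputable def idx (C : Finset ℕ) (d : ℕ) : ℕ := (C.filter (· < d)).card

theorem idx_lt {C : Finset ℕ} {d : ℕ} (hd : d ∈ C) : idx C d < C.card := by
  apply card_lt_card
  refine ⟨filter_subset _ _, fun h => ?_⟩
  have := h hd
  simp at this

theorem idx_strict {C : Finset ℕ} {a b : ℕ} (ha : a ∈ C) (hab : a < b) : idx C a < idx C b := by
  apply card_lt_card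
  refine ⟨fun x hx => ?_, fun h => ?_⟩
  · simp only [mem_filter] at hx ⊢
    exact ⟨hx.1, hx.2.trans hab⟩
  · have : a ∈ C.filter (· < a) := h (by simp [ha, hab])
    simp at this

theorem idx_inj {C : Finset ℕ} {a b : ℕ} (ha : a ∈ C) (hb : b ∈ C) (h : idx C a = idx C b) :
    a = b := by
  rcases lt_trichotomy a b with hab | hab | hab
  · have := idx_strict ha hab
    omega
  · exact hab
  · have := idx_strict hb hab
    omega

theorem restrict_congr {Γ₀ : SimpleGraph V} {T' A' : Finset V} {col col' : V → ℕ}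
    (h : ∀ x ∈ T' ∪ A', ∀ y ∈ T' ∪ A', col' x = col' y ↔ col x = col y) :
    restrictGraph Γ₀ T' A' col' = restrictGraph Γ₀ T' A' col := by
  ext x y
  show (Γ₀.Adj x y ∧ _ ∧ col' x = col' y) ↔ (Γ₀.Adj x y ∧ _ ∧ col x = col y)
  constructor
  · rintro ⟨h1, h2, h3⟩
    have hx : x ∈ T' ∪ A' := by
      rcases h2 with h2 | h2
      · exact mem_union_left _ h2.1
      · exact mem_union_right _ h2.1
    have hy : y ∈ T' ∪ A' := by
      rcases h2 with h2 | h2
      · exact mem_union_right _ h2.2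
      · exact mem_union_left _ h2.2
    exact ⟨h1, h2, (h x hx y hy).1 h3⟩
  · rintro ⟨h1, h2, h3⟩
    have hx : x ∈ T' ∪ A' := by
      rcases h2 with h2 | h2
      · exact mem_union_left _ h2.1
      · exact mem_union_right _ h2.1
    have hy : y ∈ T' ∪ A' := by
      rcases h2 with h2 | h2
      · exact mem_union_right _ h2.2
      · exact mem_union_left _ h2.2
    exact ⟨h1, h2, (h x hx y hy).2 h3⟩

theorem card_Y_triv (Γ₀ : SimpleGraph V) (T A : Finset V) :
    (Y Γ₀ T A (fun _ => 0)).card = ∑ t ∈ T, (nbr Γ₀ t ∩ A).card := by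
  rw [card_eq_sum_card_fiberwise (f := fun p => p.1) (t := T)
    (fun p hp => (mem_Y.1 hp).1)]
  apply sum_congr rfl
  intro t ht
  symm
  apply card_bij (fun x _ => (t, x))
  · intro x hx
    obtain ⟨h1, h2⟩ := mem_inter.1 hx
    exact mem_filter.2 ⟨mem_Y.2 ⟨ht, h2, mem_nbr.1 h1, rfl⟩, rfl⟩
  · intro a _ b _ h
    exact (Prod.ext_iff.1 h).2
  · intro p hp
    obtain ⟨hp1, hp2⟩ := mem_filter.1 hp
    obtain ⟨h1, h2, h3, -⟩ := mem_Y.1 hp1
    refine ⟨p.2, mem_inter.2 ⟨mem_nbr.2 ?_, h2⟩, Prod.ext hp2.symm rfl⟩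
    have hp2' : p.1 = t := hp2
    rwa [hp2'] at h3

end PartitionAux

open PartitionAux in
/-- Choose `(T', A', col)` maximising
`F = 2 e' + 2 ∑_c min(τ, e_c) - 2 g |A'| - ∑_{t ∈ T'} deg₀ t`
(`e_c` = number of edges of `Γ₀` between alive vertices of colour `c`, `e' = ∑ e_c`,
`deg₀ t = |N_{Γ₀}(t) ∩ A|`).  At a maximiser:
* delete `t` : `Δ F ≥ deg₀ t - 4 deg* t`, so `deg₀ t ≤ 4 deg* t`;
* delete a hub: `Δ F ≥ 2 g - 4 deg* a`, so `g ≤ 2 deg* a`;
* split a class along a cut with both sides `≥ τ` edges: `Δ F = 2 τ - 2 e(S, S')`;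
* compare with the trivial configuration for the bound on lost edges (dead `t`'s contribute
  `∑ deg₀ ≤ Lost`);
* no class consists only of hubs, and each class has `≥ d₁/4` hubs: the bound on `r`.
Colours may be renumbered to lie below `r`. -/
theorem partition_lemma (Γ₀ : SimpleGraph V) (T A : Finset V) (hTA : Disjoint T A)
    (τ g d₁ : ℕ) (hg : 1 ≤ g) (hd₁ : 1 ≤ d₁) (hdeg : ∀ t ∈ T, d₁ ≤ (nbr Γ₀ t ∩ A).card) :
    ∃ (T' A' : Finset V) (col : V → ℕ) (r : ℕ), T' ⊆ T ∧ A' ⊆ A ∧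
      (∀ x ∈ T' ∪ A', col x < r) ∧
      r * d₁ ≤ 4 * A.card ∧
      (∀ t ∈ T', (nbr Γ₀ t ∩ A).card ≤ 4 * (nbr (restrictGraph Γ₀ T' A' col) t).card) ∧
      (∀ a ∈ A', g ≤ 2 * (nbr (restrictGraph Γ₀ T' A' col) a).card) ∧
      (∀ (c : ℕ) (S : Finset V), S ⊆ (T' ∪ A').filter (fun x => col x = c) →
        τ ≤ eIn (restrictGraph Γ₀ T' A' col) T' A' S →
        τ ≤ eIn (restrictGraph Γ₀ T' A' col) T' A' (((T' ∪ A').filter (fun x => col x = c)) \ S) →
        τ ≤ eBetween (restrictGraph Γ₀ T' A' col) T' A' S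
              (((T' ∪ A').filter (fun x => col x = c)) \ S)) ∧
      (∑ t ∈ T, (nbr Γ₀ t ∩ A).card ≤
        ∑ t ∈ T, (nbr (restrictGraph Γ₀ T' A' col) t).card + 2 * τ * r + 2 * g * A.card) := by
  obtain ⟨T', A', col, hT, hA, hmax⟩ := exists_max Γ₀ T A τ g
  have hd : Disjoint T' A' := hTA.mono hT hA
  -- P1
  have P1 : ∀ t ∈ T', (nbr Γ₀ t ∩ A).card ≤ 4 * (nbr (restrictGraph Γ₀ T' A' col) t).card := by
    intro t ht
    have h1 := Fn_erase_T (Γ₀ := Γ₀) (A := A) (col := col) τ g ht hd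
    have h2 := hmax (T'.erase t) A' col ((erase_subset _ _).trans hT) hA
    have h3 : ((nbr Γ₀ t ∩ A).card : ℤ) ≤ 4 * ((nbr (restrictGraph Γ₀ T' A' col) t).card : ℤ) := by
      linarith
    exact_mod_cast h3
  -- P2
  have P2 : ∀ a ∈ A', g ≤ 2 * (nbr (restrictGraph Γ₀ T' A' col) a).card := by
    intro a ha
    have h1 := Fn_erase_A (Γ₀ := Γ₀) (A := A) (col := col) τ g ha hd
    have h2 := hmax T' (A'.erase a) col hT ((erase_subset _ _).trans hA)
    have h3 : (g : ℤ) ≤ 2 * ((nbr (restrictGraph Γ₀ T' A' col) a).card : ℤ) := by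
      linarith
    exact_mod_cast h3
  -- P3
  have P3 : ∀ (c : ℕ) (S : Finset V), S ⊆ (T' ∪ A').filter (fun x => col x = c) →
        τ ≤ eIn (restrictGraph Γ₀ T' A' col) T' A' S →
        τ ≤ eIn (restrictGraph Γ₀ T' A' col) T' A' (((T' ∪ A').filter (fun x => col x = c)) \ S) →
        τ ≤ eBetween (restrictGraph Γ₀ T' A' col) T' A' S
              (((T' ∪ A').filter (fun x => col x = c)) \ S) := by
    intro c S hS h1 h2
    by_contra hx
    push Not at hx
    rw [eIn_eq hd] at h1 h2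
    rw [eBetween_eq hd] at hx
    have hτ : 1 ≤ τ := by omega
    -- `S` is nonempty
    have hne : (((Y Γ₀ T' A' col).filter fun p => p.1 ∈ S ∧ p.2 ∈ S)).Nonempty :=
      card_pos.1 (by omega)
    obtain ⟨p, hp⟩ := hne
    have hpS : p.1 ∈ S := (mem_filter.1 hp).2.1
    set c' := (T' ∪ A').sup col + 1 with hc'
    have hfresh : ∀ x ∈ T' ∪ A', col x < c' := fun x hx =>
      Nat.lt_succ_of_le (le_sup (f := col) hx)
    have hpc := mem_filter.1 (hS hpS)
    have hcc' : c < c' := by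
      rw [← hpc.2]
      exact hfresh _ hpc.1
    have hsplit := Fn_split (Γ₀ := Γ₀) (A := A) τ g c c' S hS hfresh hcc' h1 h2
    have hm := hmax T' A' (fun v => if v ∈ S then c' else col v) hT hA
    have hx' : (((Y Γ₀ T' A' col).filter fun p =>
        (p.1 ∈ S ∧ p.2 ∈ ((T' ∪ A').filter (fun x => col x = c)) \ S) ∨
        (p.1 ∈ ((T' ∪ A').filter (fun x => col x = c)) \ S ∧ p.2 ∈ S)).card : ℤ) < τ := by
      exact_mod_cast hx
    linarith
  -- the set of colours
  set C : Finset ℕ := (T' ∪ A').image col with hC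
  have hcolC : ∀ x ∈ T' ∪ A', col x ∈ C := fun x hx => mem_image.2 ⟨x, hx, rfl⟩
  -- the number of classes
  have hr : C.card * d₁ ≤ 4 * A.card := by
    have hcl : ∀ c ∈ C, d₁ ≤ 4 * (A'.filter fun x => col x = c).card := by
      intro c hc
      obtain ⟨x, hx, rfl⟩ := mem_image.1 hc
      -- find an alive `t` of this colour
      have : ∃ t ∈ T', col t = col x := by
        rcases mem_union.1 hx with hx | hx
        · exact ⟨x, hx, rfl⟩
        · have h1 := P2 x hx
          have h2 : (nbr (restrictGraph Γ₀ T' A' col) x).Nonempty := card_pos.1 (by omega)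
          obtain ⟨t, ht⟩ := h2
          obtain ⟨-, h4, h5⟩ := mem_nbr.1 ht
          rcases h4 with h4 | h4
          · exact absurd hx (disjoint_left.1 hd h4.1)
          · exact ⟨t, h4.2, h5.symm⟩
      obtain ⟨t, ht, htc⟩ := this
      have h1 := hdeg t (hT ht)
      have h2 := P1 t ht
      have h3 : (nbr (restrictGraph Γ₀ T' A' col) t).card ≤
          (A'.filter fun y => col y = col x).card := by
        apply card_le_card
        intro y hy
        obtain ⟨-, h4, h5⟩ := mem_nbr.1 hy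
        rcases h4 with h4 | h4
        · exact mem_filter.2 ⟨h4.2, by rw [← h5, htc]⟩
        · exact absurd ht (disjoint_right.1 hd h4.1)
      omega
    have hsum : ∑ c ∈ C, (A'.filter fun x => col x = c).card = A'.card := by
      symm
      apply card_eq_sum_card_fiberwise
      intro x hx
      exact hcolC x (mem_union_right _ hx)
    have h1 : C.card * d₁ ≤ ∑ c ∈ C, 4 * (A'.filter fun x => col x = c).card := by
      calc C.card * d₁ = ∑ _c ∈ C, d₁ := by simp
        _ ≤ _ := sum_le_sum hcl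
    rw [← mul_sum, hsum] at h1
    have h2 := card_le_card hA
    omega
  -- the count of lost edges
  have hlost : ∑ t ∈ T, (nbr Γ₀ t ∩ A).card ≤
      ∑ t ∈ T, (nbr (restrictGraph Γ₀ T' A' col) t).card + 2 * τ * C.card + 2 * g * A.card := by
    have hsumT : ∑ t ∈ T, (nbr (restrictGraph Γ₀ T' A' col) t).card = (Y Γ₀ T' A' col).card := by
      have h0 : ∑ t ∈ T, (nbr (restrictGraph Γ₀ T' A' col) t).card =
          ∑ t ∈ T', (nbr (restrictGraph Γ₀ T' A' col) t).card := by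
        symm
        apply sum_subset hT
        intro t ht ht'
        rw [card_eq_zero, eq_empty_iff_forall_notMem]
        intro y hy
        obtain ⟨-, h4, -⟩ := mem_nbr.1 hy
        rcases h4 with h4 | h4
        · exact ht' h4.1
        · exact absurd (hA h4.1) (disjoint_left.1 hTA ht)
      rw [h0, card_eq_sum_card_fiberwise (f := fun p => p.1) (t := T')
        (fun p hp => (mem_Y.1 hp).1)]
      exact sum_congr rfl fun t ht => nbr_restrict_of_T ht hd
    have hP : (Y Γ₀ T' A' col).card ≤ ∑ t ∈ T', (nbr Γ₀ t ∩ A).card := by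
      rw [card_eq_sum_card_fiberwise (f := fun p => p.1) (t := T')
        (fun p hp => (mem_Y.1 hp).1)]
      apply sum_le_sum
      intro t ht
      rw [← nbr_restrict_of_T ht hd]
      apply card_le_card
      intro y hy
      obtain ⟨h1, h4, -⟩ := mem_nbr.1 hy
      rcases h4 with h4 | h4
      · exact mem_inter.2 ⟨mem_nbr.2 h1, hA h4.2⟩
      · exact absurd ht (disjoint_right.1 hd h4.1)
    have hmuC : mu τ (Y Γ₀ T' A' col) col ≤ τ * C.card := by
      refine (mu_le_mul τ _ col).trans (Nat.mul_le_mul_left _ (card_le_card ?_))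
      intro c hc
      obtain ⟨p, hp, rfl⟩ := mem_image.1 hc
      exact hcolC _ (mem_union_left _ (mem_Y.1 hp).1)
    have htriv := hmax T A (fun _ => 0) (subset_refl _) (subset_refl _)
    have hmu0 : (0 : ℤ) ≤ (mu τ (Y Γ₀ T A (fun _ => 0)) (fun _ => 0) : ℤ) := by positivity
    have hAA : (A'.card : ℤ) ≥ 0 := by positivity
    have hg0 : (0 : ℤ) ≤ (g : ℤ) * (A'.card : ℤ) := by positivity
    unfold Fn at htriv
    rw [card_Y_triv] at htriv
    rw [hsumT]
    zify at hmuC hP ⊢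
    push_cast at htriv
    nlinarith
  -- renumber
  refine ⟨T', A', fun v => idx C (col v), C.card, hT, hA, ?_, hr, ?_⟩
  · intro x hx
    exact idx_lt (hcolC x hx)
  have hiff : ∀ x ∈ T' ∪ A', ∀ y ∈ T' ∪ A', idx C (col x) = idx C (col y) ↔ col x = col y :=
    fun x hx y hy => ⟨fun h => idx_inj (hcolC x hx) (hcolC y hy) h, fun h => by rw [h]⟩
  have hgraph : restrictGraph Γ₀ T' A' (fun v => idx C (col v)) = restrictGraph Γ₀ T' A' col :=
    restrict_congr hiff
  rw [hgraph]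
  refine ⟨P1, P2, ?_, hlost⟩
  intro c S hS h1 h2
  by_cases hne : ((T' ∪ A').filter fun x => idx C (col x) = c).Nonempty
  · obtain ⟨x₀, hx₀⟩ := hne
    obtain ⟨hx₀1, hx₀2⟩ := mem_filter.1 hx₀
    have hcl : ((T' ∪ A').filter fun x => idx C (col x) = c) =
        (T' ∪ A').filter fun x => col x = col x₀ := by
      ext y
      simp only [mem_filter]
      constructor
      · rintro ⟨hy, hy2⟩
        exact ⟨hy, (hiff y hy x₀ hx₀1).1 (hy2.trans hx₀2.symm)⟩
      · rintro ⟨hy, hy2⟩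
        exact ⟨hy, by rw [hy2, hx₀2]⟩
    rw [hcl] at hS h2 ⊢
    exact P3 (col x₀) S hS h1 h2
  · rw [not_nonempty_iff_eq_empty] at hne
    rw [hne, subset_empty] at hS
    subst hS
    have h0 : eIn (restrictGraph Γ₀ T' A' col) T' A' ∅ = 0 := by
      simp [eIn]
    rw [h0] at h1
    omega

end Crest.Agent.EG
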