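import Crest.Agent.EG.Basic

/-!
# Greedy routing (blueprint Step F)
-/

set_option autoImplicit false

namespace Crest.Agent.EG

open Finset
open scoped Classical

variable {V : Type} [Fintype V]

namespace RoutingAux

/-- Ordered edges `(t, a) ∈ T × A` of a graph. -/
noncomputable def eOf (H : SimpleGraph V) (T A : Finset V) : ℕ :=
  ((T ×ˢ A).filter fun p => H.Adj p.1 p.2).card

theorem nbr_subset_right {H : SimpleGraph V} {T A : Finset V} (hTA : Disjoint T A)
    (hb : ∀ x y, H.Adj x y → (x ∈ T ∧ y ∈ A) ∨ (x ∈ A ∧ y ∈ T)) {t : V} (ht : t ∈ T) :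
    nbr H t ⊆ A := by
  intro y hy
  rcases hb _ _ (mem_nbr.1 hy) with h | h
  · exact h.2
  · exact absurd h.1 (Finset.disjoint_left.1 hTA ht)

theorem nbr_subset_left {H : SimpleGraph V} {T A : Finset V} (hTA : Disjoint T A)
    (hb : ∀ x y, H.Adj x y → (x ∈ T ∧ y ∈ A) ∨ (x ∈ A ∧ y ∈ T)) {a : V} (ha : a ∈ A) :
    nbr H a ⊆ T := by
  intro y hy
  rcases hb _ _ (mem_nbr.1 hy) with h | h
  · exact absurd ha (Finset.disjoint_left.1 hTA h.1)
  · exact h.2

theorem sum_left {H : SimpleGraph V} {T A : Finset V} (hTA : Disjoint T A)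
    (hb : ∀ x y, H.Adj x y → (x ∈ T ∧ y ∈ A) ∨ (x ∈ A ∧ y ∈ T)) :
    ∑ t ∈ T, (nbr H t).card = eOf H T A := by
  unfold eOf
  rw [Finset.card_filter, Finset.sum_product]
  refine Finset.sum_congr rfl fun t ht => ?_
  rw [← Finset.card_filter]
  congr 1
  ext y
  simp only [mem_filter]
  constructor
  · intro hy
    exact ⟨nbr_subset_right hTA hb ht hy, mem_nbr.1 hy⟩
  · rintro ⟨_, hy⟩
    exact mem_nbr.2 hy

theorem sum_right {H : SimpleGraph V} {T A : Finset V} (hTA : Disjoint T A)
    (hb : ∀ x y, H.Adj x y → (x ∈ T ∧ y ∈ A) ∨ (x ∈ A ∧ y ∈ T)) :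
    ∑ a ∈ A, (nbr H a).card = eOf H T A := by
  unfold eOf
  rw [Finset.card_filter, Finset.sum_product_right]
  refine Finset.sum_congr rfl fun a ha => ?_
  rw [← Finset.card_filter]
  congr 1
  ext y
  simp only [mem_filter]
  constructor
  · intro hy
    exact ⟨nbr_subset_left hTA hb ha hy, (mem_nbr.1 hy).symm⟩
  · rintro ⟨_, hy⟩
    exact mem_nbr.2 hy.symm

/-- The graph of the current routing step: `Γ` minus the used edges minus frozen vertices except
the two ends `x`, `y`. -/
def cutG (Γ H : SimpleGraph V) (x y : V) : SimpleGraph V where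
  Adj u v := Γ.Adj u v ∧ ¬ H.Adj u v ∧
    ((nbr Γ u).card ≤ 8 * (nbr H u).card → u = x ∨ u = y) ∧
    ((nbr Γ v).card ≤ 8 * (nbr H v).card → v = x ∨ v = y)
  symm := ⟨by
    rintro u v ⟨h1, h2, h3, h4⟩
    exact ⟨h1.symm, fun h => h2 h.symm, h4, h3⟩⟩
  loopless := ⟨fun u h => Γ.loopless.irrefl u h.1⟩

theorem cutG_le (Γ H : SimpleGraph V) (x y : V) : cutG Γ H x y ≤ Γ := fun _ _ h => h.1

/-- Frozen vertices in `F`. -/
noncomputable def frz (Γ H : SimpleGraph V) (F : Finset V) : Finset V :=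
  F.filter fun v => (nbr Γ v).card ≤ 8 * (nbr H v).card

theorem sum_frz_le {Γ H : SimpleGraph V} (F : Finset V) :
    ∑ v ∈ frz Γ H F, (nbr Γ v).card ≤ 8 * ∑ v ∈ F, (nbr H v).card := by
  calc ∑ v ∈ frz Γ H F, (nbr Γ v).card ≤ ∑ v ∈ frz Γ H F, 8 * (nbr H v).card :=
        Finset.sum_le_sum fun v hv => (mem_filter.1 hv).2
    _ = 8 * ∑ v ∈ frz Γ H F, (nbr H v).card := by rw [Finset.mul_sum]
    _ ≤ 8 * ∑ v ∈ F, (nbr H v).card :=
        Nat.mul_le_mul_left _ (Finset.sum_le_sum_of_subset (Finset.filter_subset _ _))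

theorem card_frz_mul_le {Γ H : SimpleGraph V} (F : Finset V) (q : ℕ)
    (hq : ∀ v ∈ F, q ≤ (nbr Γ v).card) :
    (frz Γ H F).card * q ≤ 8 * ∑ v ∈ F, (nbr H v).card := by
  refine le_trans ?_ (sum_frz_le (Γ := Γ) (H := H) F)
  rw [← smul_eq_mul, ← Finset.sum_const]
  exact Finset.sum_le_sum fun v hv => hq v (mem_filter.1 hv).1

/-- Degree in the cut graph, vertex of the left side. -/
theorem deg_left {Γ H : SimpleGraph V} {T A : Finset V} (hTA : Disjoint T A)
    (hb : ∀ x y, Γ.Adj x y → (x ∈ T ∧ y ∈ A) ∨ (x ∈ A ∧ y ∈ T)) {x y v : V} (hv : v ∈ T)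
    (hok : (nbr Γ v).card ≤ 8 * (nbr H v).card → v = x ∨ v = y) :
    (nbr Γ v).card ≤ (nbr (cutG Γ H x y) v).card + (nbr H v).card + (frz Γ H A).card := by
  have hsub : nbr Γ v ⊆ nbr (cutG Γ H x y) v ∪ nbr H v ∪ frz Γ H A := by
    intro u hu
    have hua := mem_nbr.1 hu
    have huA : u ∈ A := nbr_subset_right hTA hb hv hu
    simp only [mem_union]
    by_cases h1 : H.Adj v u
    · exact Or.inl (Or.inr (mem_nbr.2 h1))
    by_cases h2 : (nbr Γ u).card ≤ 8 * (nbr H u).card
    · exact Or.inr (mem_filter.2 ⟨huA, h2⟩)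
    · exact Or.inl (Or.inl (mem_nbr.2 ⟨hua, h1, hok, fun h => absurd h h2⟩))
  calc (nbr Γ v).card ≤ (nbr (cutG Γ H x y) v ∪ nbr H v ∪ frz Γ H A).card := card_le_card hsub
    _ ≤ (nbr (cutG Γ H x y) v ∪ nbr H v).card + (frz Γ H A).card := card_union_le _ _
    _ ≤ _ := Nat.add_le_add_right (card_union_le _ _) _

/-- Degree in the cut graph, vertex of the right side. -/
theorem deg_right {Γ H : SimpleGraph V} {T A : Finset V} (hTA : Disjoint T A)
    (hb : ∀ x y, Γ.Adj x y → (x ∈ T ∧ y ∈ A) ∨ (x ∈ A ∧ y ∈ T)) {x y v : V} (hv : v ∈ A)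
    (hok : (nbr Γ v).card ≤ 8 * (nbr H v).card → v = x ∨ v = y) :
    (nbr Γ v).card ≤ (nbr (cutG Γ H x y) v).card + (nbr H v).card + (frz Γ H T).card := by
  have hsub : nbr Γ v ⊆ nbr (cutG Γ H x y) v ∪ nbr H v ∪ frz Γ H T := by
    intro u hu
    have hua := mem_nbr.1 hu
    have huT : u ∈ T := nbr_subset_left hTA hb hv hu
    simp only [mem_union]
    by_cases h1 : H.Adj v u
    · exact Or.inl (Or.inr (mem_nbr.2 h1))
    by_cases h2 : (nbr Γ u).card ≤ 8 * (nbr H u).card
    · exact Or.inr (mem_filter.2 ⟨huT, h2⟩)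
    · exact Or.inl (Or.inl (mem_nbr.2 ⟨hua, h1, hok, fun h => absurd h h2⟩))
  calc (nbr Γ v).card ≤ (nbr (cutG Γ H x y) v ∪ nbr H v ∪ frz Γ H T).card := card_le_card hsub
    _ ≤ (nbr (cutG Γ H x y) v ∪ nbr H v).card + (frz Γ H T).card := card_union_le _ _
    _ ≤ _ := Nat.add_le_add_right (card_union_le _ _) _

/-- Inner edges around a vertex with many neighbours of large degree. -/
theorem eIn_ge {Γ G : SimpleGraph V} (hG : G ≤ Γ) {T A : Finset V} (hTA : Disjoint T A)
    (hb : ∀ x y, Γ.Adj x y → (x ∈ T ∧ y ∈ A) ∨ (x ∈ A ∧ y ∈ T)) {z : V} (hz : z ∈ T)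
    {S : Finset V} (hS : ∀ u, G.Reachable z u → u ∈ S) {d g : ℕ}
    (h1 : d ≤ 2 * (nbr G z).card) (h2 : ∀ a ∈ nbr G z, g ≤ 2 * (nbr G a).card) :
    d * g ≤ 4 * eIn Γ T A S := by
  have hbG : ∀ x y, G.Adj x y → (x ∈ T ∧ y ∈ A) ∨ (x ∈ A ∧ y ∈ T) :=
    fun x y h => hb x y (hG h)
  set P : Finset (V × V) :=
    (nbr G z).biUnion (fun a => (nbr G a).image (fun t => (t, a))) with hP
  have hPcard : P.card = ∑ a ∈ nbr G z, (nbr G a).card := by
    rw [hP, Finset.card_biUnion]
    · refine Finset.sum_congr rfl fun a _ => ?_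
      exact Finset.card_image_of_injective _ (fun t t' h => (Prod.ext_iff.1 h).1)
    · intro a _ b _ hab
      show Disjoint _ _
      rw [Finset.disjoint_left]
      intro p hp hp'
      obtain ⟨t, _, rfl⟩ := Finset.mem_image.1 hp
      obtain ⟨t', _, h⟩ := Finset.mem_image.1 hp'
      exact hab (Prod.ext_iff.1 h).2.symm
  have hsub : P ⊆ (T ×ˢ A).filter fun p => Γ.Adj p.1 p.2 ∧ p.1 ∈ S ∧ p.2 ∈ S := by
    intro p hp
    obtain ⟨a, ha, hp⟩ := Finset.mem_biUnion.1 hp
    obtain ⟨t, ht, rfl⟩ := Finset.mem_image.1 hp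
    have haA : a ∈ A := nbr_subset_right hTA hbG hz ha
    have htT : t ∈ T := nbr_subset_left hTA hbG haA ht
    have hza : G.Adj z a := mem_nbr.1 ha
    have hat : G.Adj a t := mem_nbr.1 ht
    refine mem_filter.2 ⟨mem_product.2 ⟨htT, haA⟩, (hG hat).symm, ?_, ?_⟩
    · exact hS t (hza.reachable.trans hat.reachable)
    · exact hS a hza.reachable
  have hle : P.card ≤ eIn Γ T A S := card_le_card hsub
  have h3 : (nbr G z).card * g ≤ 2 * P.card := by
    rw [hPcard, Finset.mul_sum, ← smul_eq_mul, ← Finset.sum_const]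
    exact Finset.sum_le_sum h2
  calc d * g ≤ (2 * (nbr G z).card) * g := Nat.mul_le_mul_right _ h1
    _ = 2 * ((nbr G z).card * g) := by ring
    _ ≤ 2 * (2 * P.card) := Nat.mul_le_mul_left _ h3
    _ ≤ 4 * eIn Γ T A S := by omega

/-- Bound on a cut by used edges plus volume of frozen vertices. -/
theorem eBetween_le {Γ H : SimpleGraph V} {T A S S' : Finset V}
    (hcross : ∀ t ∈ T, ∀ a ∈ A, Γ.Adj t a → ((t ∈ S ∧ a ∈ S') ∨ (t ∈ S' ∧ a ∈ S)) →
      H.Adj t a ∨ t ∈ frz Γ H T ∨ a ∈ frz Γ H A) :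
    eBetween Γ T A S S' ≤ eOf H T A + ∑ t ∈ frz Γ H T, (nbr Γ t).card
      + ∑ a ∈ frz Γ H A, (nbr Γ a).card := by
  have hsub : ((T ×ˢ A).filter fun p =>
      Γ.Adj p.1 p.2 ∧ ((p.1 ∈ S ∧ p.2 ∈ S') ∨ (p.1 ∈ S' ∧ p.2 ∈ S))) ⊆
      ((T ×ˢ A).filter fun p => H.Adj p.1 p.2) ∪
      (frz Γ H T).biUnion (fun t => (nbr Γ t).image (fun a => (t, a))) ∪
      (frz Γ H A).biUnion (fun a => (nbr Γ a).image (fun t => (t, a))) := by
    rintro ⟨t, a⟩ hp
    obtain ⟨hp1, hp2, hp3⟩ := mem_filter.1 hp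
    obtain ⟨ht, ha⟩ := mem_product.1 hp1
    simp only at ht ha hp2 hp3
    simp only [mem_union]
    rcases hcross t ht a ha hp2 hp3 with h | h | h
    · exact Or.inl (Or.inl (mem_filter.2 ⟨hp1, h⟩))
    · exact Or.inl (Or.inr (mem_biUnion.2 ⟨t, h, mem_image.2 ⟨a, mem_nbr.2 hp2, rfl⟩⟩))
    · exact Or.inr (mem_biUnion.2 ⟨a, h, mem_image.2 ⟨t, mem_nbr.2 hp2.symm, rfl⟩⟩)
  unfold eBetween
  refine le_trans (card_le_card hsub) ?_
  refine le_trans (card_union_le _ _) (Nat.add_le_add (le_trans (card_union_le _ _)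
    (Nat.add_le_add le_rfl ?_)) ?_)
  · exact le_trans card_biUnion_le (Finset.sum_le_sum fun _ _ => card_image_le)
  · exact le_trans card_biUnion_le (Finset.sum_le_sum fun _ _ => card_image_le)

/-- Reachability stays inside a colour class. -/
theorem reach_class {G : SimpleGraph V} {T A : Finset V} {col : V → ℕ}
    (hb : ∀ x y, G.Adj x y → (x ∈ T ∧ y ∈ A) ∨ (x ∈ A ∧ y ∈ T))
    (hc : ∀ x y, G.Adj x y → col x = col y) {z u : V} (hz : z ∈ T ∪ A)
    (h : G.Reachable z u) : u ∈ T ∪ A ∧ col u = col z := by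
  obtain ⟨w⟩ := h
  induction w with
  | nil => exact ⟨hz, rfl⟩
  | @cons a b c hadj _ ih =>
    have hv : b ∈ T ∪ A := by
      rcases hb _ _ hadj with h | h
      · exact mem_union_right _ h.2
      · exact mem_union_left _ h.2
    obtain ⟨h1, h2⟩ := ih hv
    exact ⟨h1, h2.trans (hc _ _ hadj).symm⟩

/-- Alternation along a walk. -/
theorem parity {G : SimpleGraph V} {T A : Finset V}
    (hb : ∀ x y, G.Adj x y → (x ∈ T ∧ y ∈ A) ∨ (x ∈ A ∧ y ∈ T)) (hTA : Disjoint T A)
    {x y : V} (w : G.Walk x y) (hx : x ∈ T) (i : ℕ) (hi : i ≤ w.length) :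
    (i % 2 = 0 → w.getVert i ∈ T) ∧ (i % 2 = 1 → w.getVert i ∈ A) := by
  induction i with
  | zero => simpa using hx
  | succ i ih =>
    obtain ⟨h0, h1⟩ := ih (by omega)
    have hadj := w.adj_getVert_succ (i := i) (by omega)
    constructor
    · intro h
      have : w.getVert i ∈ A := h1 (by omega)
      rcases hb _ _ hadj with h' | h'
      · exact absurd h'.1 (Finset.disjoint_right.1 hTA this)
      · exact h'.2
    · intro h
      have : w.getVert i ∈ T := h0 (by omega)
      rcases hb _ _ hadj with h' | h'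
      · exact h'.2
      · exact absurd h'.1 (Finset.disjoint_left.1 hTA this)

/-- Length bound for a shortest walk: neighbourhoods of vertices at distance `0 mod 4` are disjoint. -/
theorem length_bound {G : SimpleGraph V} {x y : V} (w : G.Walk x y)
    (hw : w.length = G.dist x y) {A : Finset V} {d n : ℕ} (hAn : A.card ≤ n)
    (hN : ∀ i, i ≤ w.length → i % 2 = 0 →
      nbr G (w.getVert i) ⊆ A ∧ d ≤ 2 * (nbr G (w.getVert i)).card) :
    w.length * d ≤ 8 * n := by
  set l := w.length with hl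
  have hdisj : ∀ i j, i < j → 4 * j ≤ l →
      Disjoint (nbr G (w.getVert (4 * i))) (nbr G (w.getVert (4 * j))) := by
    intro i j hij hj
    rw [Finset.disjoint_left]
    intro u hu hu'
    have h1 : G.Adj (w.getVert (4 * i)) u := mem_nbr.1 hu
    have h2 : G.Adj (w.getVert (4 * j)) u := mem_nbr.1 hu'
    have hlen := SimpleGraph.dist_le
      ((w.take (4 * i)).append (SimpleGraph.Walk.cons h1 (SimpleGraph.Walk.cons h2.symm
        (w.drop (4 * j)))))
    simp only [SimpleGraph.Walk.length_append, SimpleGraph.Walk.length_cons,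
      SimpleGraph.Walk.take_length, SimpleGraph.Walk.drop_length] at hlen
    rw [← hw, ← hl] at hlen
    omega
  set Q := l / 4 + 1 with hQ
  have hcard : ((Finset.range Q).biUnion fun i => nbr G (w.getVert (4 * i))).card
      = ∑ i ∈ Finset.range Q, (nbr G (w.getVert (4 * i))).card := by
    apply Finset.card_biUnion
    intro i hi j hj hij
    have hi' := Finset.mem_range.1 hi
    have hj' := Finset.mem_range.1 hj
    rcases lt_or_gt_of_ne hij with h | h
    · exact hdisj i j h (by omega)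
    · exact (hdisj j i h (by omega)).symm
  have hsub : ((Finset.range Q).biUnion fun i => nbr G (w.getVert (4 * i))) ⊆ A := by
    intro u hu
    obtain ⟨i, hi, hu⟩ := Finset.mem_biUnion.1 hu
    have hi' := Finset.mem_range.1 hi
    exact (hN (4 * i) (by omega) (by omega)).1 hu
  have h1 : Q * d ≤ 2 * n := by
    have h2 : Q * d ≤ ∑ i ∈ Finset.range Q, 2 * (nbr G (w.getVert (4 * i))).card := by
      have : Q = (Finset.range Q).card := (Finset.card_range Q).symm
      conv_lhs => rw [this]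
      rw [← smul_eq_mul, ← Finset.sum_const]
      refine Finset.sum_le_sum fun i hi => ?_
      have hi' := Finset.mem_range.1 hi
      exact (hN (4 * i) (by omega) (by omega)).2
    rw [← Finset.mul_sum, ← hcard] at h2
    have h3 := card_le_card hsub
    omega
  have h2 : l ≤ 4 * Q := by omega
  calc l * d ≤ (4 * Q) * d := Nat.mul_le_mul_right _ h2
    _ = 4 * (Q * d) := by ring
    _ ≤ 8 * n := by omega

/-- One routing step. -/
theorem route_one (Γ H : SimpleGraph V) (T A : Finset V) (col : V → ℕ) (hTA : Disjoint T A)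
    (hb : ∀ x y, Γ.Adj x y → (x ∈ T ∧ y ∈ A) ∨ (x ∈ A ∧ y ∈ T))
    (hc : ∀ x y, Γ.Adj x y → col x = col y)
    (n d g τ L U : ℕ) (hAn : A.card ≤ n)
    (hT : ∀ t ∈ T, d ≤ (nbr Γ t).card) (hA : ∀ a ∈ A, g ≤ (nbr Γ a).card)
    (hcut : ∀ (c : ℕ) (S : Finset V), S ⊆ (T ∪ A).filter (fun x => col x = c) →
        τ ≤ eIn Γ T A S → τ ≤ eIn Γ T A (((T ∪ A).filter (fun x => col x = c)) \ S) →
        τ ≤ eBetween Γ T A S (((T ∪ A).filter (fun x => col x = c)) \ S))
    (hd : 128 ≤ d) (hL : 8 * n ≤ L * d) (hτ : 17 * U < τ) (hdg : 4 * τ ≤ d * g)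
    (hH : H ≤ Γ) (hU : eOf H T A ≤ U) {x' y' : V} (hx' : x' ∈ T) (hy' : y' ∈ T)
    (hcol : col x' = col y')
    (hlx : 64 * (nbr H x').card ≤ 9 * (nbr Γ x').card + 128)
    (hly : 64 * (nbr H y').card ≤ 9 * (nbr Γ y').card + 128) :
    ∃ w : Γ.Walk x' y', w.IsPath ∧ w.length ≤ L ∧ (∀ e ∈ w.edges, e ∉ H.edgeSet) ∧
      ∀ v ∈ w.support, v ≠ x' → v ≠ y' → 8 * (nbr H v).card < (nbr Γ v).card := by
  have hbH : ∀ x y, H.Adj x y → (x ∈ T ∧ y ∈ A) ∨ (x ∈ A ∧ y ∈ T) := fun x y h => hb x y (hH h)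
  have hsumT := sum_left hTA hbH
  have hsumA := sum_right hTA hbH
  set e := eOf H T A with he
  have hFT : (frz Γ H T).card * d ≤ 8 * e := by
    rw [← hsumT]; exact card_frz_mul_le T d hT
  have hFA : (frz Γ H A).card * g ≤ 8 * e := by
    rw [← hsumA]; exact card_frz_mul_le A g hA
  have hlt : 32 * e < d * g := by omega
  have h4FA : 4 * (frz Γ H A).card ≤ d := by
    have h : (4 * (frz Γ H A).card) * g < d * g := by
      calc (4 * (frz Γ H A).card) * g = 4 * ((frz Γ H A).card * g) := by ring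
        _ ≤ 4 * (8 * e) := Nat.mul_le_mul_left _ hFA
        _ = 32 * e := by ring
        _ < d * g := hlt
    exact (Nat.lt_of_mul_lt_mul_right h).le
  have h4FT : 4 * (frz Γ H T).card ≤ g := by
    have h : (4 * (frz Γ H T).card) * d < g * d := by
      calc (4 * (frz Γ H T).card) * d = 4 * ((frz Γ H T).card * d) := by ring
        _ ≤ 4 * (8 * e) := Nat.mul_le_mul_left _ hFT
        _ = 32 * e := by ring
        _ < g * d := by rw [mul_comm g d]; exact hlt
    exact (Nat.lt_of_mul_lt_mul_right h).le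
  set G := cutG Γ H x' y' with hG
  have hGle : G ≤ Γ := cutG_le _ _ _ _
  have hbG : ∀ x y, G.Adj x y → (x ∈ T ∧ y ∈ A) ∨ (x ∈ A ∧ y ∈ T) :=
    fun x y h => hb x y (hGle h)
  have hcG : ∀ x y, G.Adj x y → col x = col y := fun x y h => hc x y (hGle h)
  have hdx : d ≤ 2 * (nbr G x').card := by
    have h1 : (nbr Γ x').card ≤ (nbr G x').card + (nbr H x').card + (frz Γ H A).card :=
      deg_left hTA hb hx' (fun _ => Or.inl rfl)
    have h2 := hT x' hx'
    omega
  have hdy : d ≤ 2 * (nbr G y').card := by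
    have h1 : (nbr Γ y').card ≤ (nbr G y').card + (nbr H y').card + (frz Γ H A).card :=
      deg_left hTA hb hy' (fun _ => Or.inr rfl)
    have h2 := hT y' hy'
    omega
  have hdT : ∀ t ∈ T, ¬ (nbr Γ t).card ≤ 8 * (nbr H t).card → d ≤ 2 * (nbr G t).card := by
    intro t ht hfr
    have h1 : (nbr Γ t).card ≤ (nbr G t).card + (nbr H t).card + (frz Γ H A).card :=
      deg_left hTA hb ht (fun h => absurd h hfr)
    have h2 := hT t ht
    omega
  have hgA : ∀ a ∈ A, ¬ (nbr Γ a).card ≤ 8 * (nbr H a).card → g ≤ 2 * (nbr G a).card := by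
    intro a ha hfr
    have h1 : (nbr Γ a).card ≤ (nbr G a).card + (nbr H a).card + (frz Γ H T).card :=
      deg_right hTA hb ha (fun h => absurd h hfr)
    have h2 := hA a ha
    omega
  -- hubs next to `x'`, `y'` are not frozen
  have hnb : ∀ z, (z = x' ∨ z = y') → ∀ a ∈ nbr G z, g ≤ 2 * (nbr G a).card := by
    intro z hz a ha
    have hzT : z ∈ T := by rcases hz with rfl | rfl <;> assumption
    have haA : a ∈ A := nbr_subset_right hTA hbG hzT ha
    refine hgA a haA fun hfr => ?_
    have hadj : G.Adj z a := mem_nbr.1 ha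
    rcases hadj.2.2.2 hfr with rfl | rfl
    · exact Finset.disjoint_left.1 hTA hx' haA
    · exact Finset.disjoint_left.1 hTA hy' haA
  have hreach : G.Reachable x' y' := by
    by_contra hnr
    set cls := (T ∪ A).filter (fun x => col x = col x') with hcls
    set S := univ.filter (fun u => G.Reachable x' u) with hS
    have hSmem : ∀ u, G.Reachable x' u → u ∈ S := fun u hu => mem_filter.2 ⟨mem_univ _, hu⟩
    have hSsub : S ⊆ cls := by
      intro u hu
      have := reach_class hbG hcG (mem_union_left A hx') (mem_filter.1 hu).2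
      exact mem_filter.2 this
    have hS'mem : ∀ u, G.Reachable y' u → u ∈ cls \ S := by
      intro u hu
      have := reach_class hbG hcG (mem_union_left A hy') hu
      refine mem_sdiff.2 ⟨mem_filter.2 ⟨this.1, this.2.trans hcol.symm⟩, fun huS => hnr ?_⟩
      exact (mem_filter.1 huS).2.trans hu.symm
    have hE1 : d * g ≤ 4 * eIn Γ T A S :=
      eIn_ge hGle hTA hb hx' hSmem hdx (hnb x' (Or.inl rfl))
    have hE2 : d * g ≤ 4 * eIn Γ T A (cls \ S) :=
      eIn_ge hGle hTA hb hy' hS'mem hdy (hnb y' (Or.inr rfl))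
    have hE1' : τ ≤ eIn Γ T A S := by omega
    have hE2' : τ ≤ eIn Γ T A (cls \ S) := by omega
    have hcutS : τ ≤ eBetween Γ T A S (cls \ S) := hcut (col x') S hSsub hE1' hE2'
    have hcross : ∀ t ∈ T, ∀ a ∈ A, Γ.Adj t a → ((t ∈ S ∧ a ∈ cls \ S) ∨ (t ∈ cls \ S ∧ a ∈ S)) →
        H.Adj t a ∨ t ∈ frz Γ H T ∨ a ∈ frz Γ H A := by
      intro t ht a ha hadj hside
      by_contra hcon
      push Not at hcon
      obtain ⟨h1, h2, h3⟩ := hcon
      have hft : ¬ (nbr Γ t).card ≤ 8 * (nbr H t).card := fun h => h2 (mem_filter.2 ⟨ht, h⟩)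
      have hfa : ¬ (nbr Γ a).card ≤ 8 * (nbr H a).card := fun h => h3 (mem_filter.2 ⟨ha, h⟩)
      have hGadj : G.Adj t a := ⟨hadj, h1, fun h => absurd h hft, fun h => absurd h hfa⟩
      rcases hside with ⟨h4, h5⟩ | ⟨h4, h5⟩
      · exact (mem_sdiff.1 h5).2 (hSmem _ ((mem_filter.1 h4).2.trans hGadj.reachable))
      · exact (mem_sdiff.1 h4).2 (hSmem _ ((mem_filter.1 h5).2.trans hGadj.symm.reachable))
    have hB : eBetween Γ T A S (cls \ S) ≤ e + ∑ t ∈ frz Γ H T, (nbr Γ t).card
        + ∑ a ∈ frz Γ H A, (nbr Γ a).card := eBetween_le hcross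
    have hv1 : ∑ t ∈ frz Γ H T, (nbr Γ t).card ≤ 8 * e := by
      rw [← hsumT]; exact sum_frz_le T
    have hv2 : ∑ a ∈ frz Γ H A, (nbr Γ a).card ≤ 8 * e := by
      rw [← hsumA]; exact sum_frz_le A
    omega
  obtain ⟨w, hw⟩ := hreach.exists_walk_length_eq_dist
  have hlen : w.length * d ≤ 8 * n := by
    refine length_bound w hw hAn ?_
    intro i hi hpar
    have hiT : w.getVert i ∈ T := (parity hbG hTA w hx' i hi).1 hpar
    refine ⟨nbr_subset_right hTA hbG hiT, ?_⟩
    rcases Nat.lt_or_eq_of_le hi with hlt' | heq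
    · have hadj := w.adj_getVert_succ hlt'
      by_cases hfr : (nbr Γ (w.getVert i)).card ≤ 8 * (nbr H (w.getVert i)).card
      · rcases hadj.2.2.1 hfr with h | h
        · rw [h]; exact hdx
        · rw [h]; exact hdy
      · exact hdT _ hiT hfr
    · rw [heq, SimpleGraph.Walk.getVert_length]; exact hdy
  refine ⟨w.mapLe hGle, (w.isPath_of_length_eq_dist hw).mapLe hGle, ?_, ?_, ?_⟩
  · rw [SimpleGraph.Walk.length_mapLe]
    have hdpos : 0 < d := by omega
    exact Nat.le_of_mul_le_mul_right (hlen.trans hL) hdpos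
  · intro e' he'
    rw [SimpleGraph.Walk.edges_mapLe_eq_edges] at he'
    have h1 := w.edges_subset_edgeSet he'
    induction e' using Sym2.ind with
    | _ u v =>
      rw [SimpleGraph.mem_edgeSet] at h1 ⊢
      exact h1.2.1
  · intro v hv hvx hvy
    rw [SimpleGraph.Walk.support_mapLe_eq_support] at hv
    obtain ⟨i, rfl, hi⟩ := SimpleGraph.Walk.mem_support_iff_exists_getVert.1 hv
    rcases Nat.lt_or_eq_of_le hi with hlt' | heq
    · have hadj := w.adj_getVert_succ hlt'
      by_contra hfr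
      rcases hadj.2.2.1 (not_lt.1 hfr) with h | h
      · exact hvx h
      · exact hvy h
    · exact absurd (by rw [heq, SimpleGraph.Walk.getVert_length]) hvy

/-- The graph formed by the edges of a walk. -/
def pG {G : SimpleGraph V} {u v : V} (p : G.Walk u v) : SimpleGraph V := p.toSubgraph.spanningCoe

omit [Fintype V] in
theorem pG_adj {G : SimpleGraph V} {u v : V} (p : G.Walk u v) {a b : V} :
    (pG p).Adj a b ↔ s(a, b) ∈ p.edges := by
  simp [pG, SimpleGraph.Walk.adj_toSubgraph_iff_mem_edges]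

omit [Fintype V] in
theorem pG_le {G : SimpleGraph V} {u v : V} (p : G.Walk u v) : pG p ≤ G := by
  intro a b h
  have := p.edges_subset_edgeSet ((pG_adj p).1 h)
  simpa using this

theorem nbr_pG_of_not_mem {G : SimpleGraph V} {u v : V} (p : G.Walk u v) {z : V}
    (hz : z ∉ p.support) : nbr (pG p) z = ∅ := by
  rw [Finset.eq_empty_iff_forall_notMem]
  intro a ha
  have h : p.toSubgraph.Adj z a := by simpa [pG] using mem_nbr.1 ha
  exact hz ((p.mem_verts_toSubgraph).1 (p.toSubgraph.edge_vert h))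

theorem nbr_pG_nil {G : SimpleGraph V} {u v : V} (p : G.Walk u v) (hp : p.Nil) (z : V) :
    nbr (pG p) z = ∅ := by
  rw [Finset.eq_empty_iff_forall_notMem]
  intro a ha
  have h := (pG_adj p).1 (mem_nbr.1 ha)
  have h0 : p.length = 0 := SimpleGraph.Walk.length_eq_zero_iff.2 hp
  have h1 : p.edges.length = 0 := by rw [SimpleGraph.Walk.length_edges, h0]
  rw [List.length_eq_zero_iff] at h1
  rw [h1] at h
  simp at h

theorem card_nbr_pG_start {G : SimpleGraph V} {u v : V} (p : G.Walk u v) (hp : p.IsPath) :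
    (nbr (pG p) u).card ≤ 1 := by
  by_cases hn : p.Nil
  · rw [nbr_pG_nil p hn]; simp
  have hset := hp.neighborSet_toSubgraph_startpoint hn
  have hsub : nbr (pG p) u ⊆ {p.snd} := by
    intro a ha
    have h : p.toSubgraph.Adj u a := by simpa [pG] using mem_nbr.1 ha
    have h' : a ∈ p.toSubgraph.neighborSet u := h
    rw [hset] at h'
    simpa using h'
  simpa using card_le_card hsub

theorem card_nbr_pG_end {G : SimpleGraph V} {u v : V} (p : G.Walk u v) (hp : p.IsPath) :
    (nbr (pG p) v).card ≤ 1 := by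
  by_cases hn : p.Nil
  · rw [nbr_pG_nil p hn]; simp
  have hset := hp.neighborSet_toSubgraph_endpoint hn
  have hsub : nbr (pG p) v ⊆ {p.penultimate} := by
    intro a ha
    have h : p.toSubgraph.Adj v a := by simpa [pG] using mem_nbr.1 ha
    have h' : a ∈ p.toSubgraph.neighborSet v := h
    rw [hset] at h'
    simpa using h'
  simpa using card_le_card hsub

theorem card_nbr_pG_le_two {G : SimpleGraph V} {u v : V} (p : G.Walk u v) (hp : p.IsPath) (z : V) :
    (nbr (pG p) z).card ≤ 2 := by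
  by_cases hz : z ∈ p.support
  · obtain ⟨i, rfl, hi⟩ := SimpleGraph.Walk.mem_support_iff_exists_getVert.1 hz
    by_cases h0 : i = 0
    · subst h0
      rw [SimpleGraph.Walk.getVert_zero]
      exact (card_nbr_pG_start p hp).trans (by norm_num)
    rcases Nat.lt_or_eq_of_le hi with hlt | heq
    · have hset := hp.neighborSet_toSubgraph_internal h0 hlt
      have hsub : nbr (pG p) (p.getVert i) ⊆ {p.getVert (i - 1), p.getVert (i + 1)} := by
        intro a ha
        have h : p.toSubgraph.Adj (p.getVert i) a := by simpa [pG] using mem_nbr.1 ha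
        have h' : a ∈ p.toSubgraph.neighborSet (p.getVert i) := h
        rw [hset] at h'
        simpa using h'
      exact (card_le_card hsub).trans Finset.card_le_two
    · rw [heq, SimpleGraph.Walk.getVert_length]
      exact (card_nbr_pG_end p hp).trans (by norm_num)
  · rw [nbr_pG_of_not_mem p hz]; simp

theorem nbr_sup_card_le (H W : SimpleGraph V) (v : V) :
    (nbr (H ⊔ W) v).card ≤ (nbr H v).card + (nbr W v).card := by
  refine le_trans (card_le_card ?_) (card_union_le _ _)
  intro a ha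
  rcases mem_nbr.1 ha with h | h
  · exact mem_union_left _ (mem_nbr.2 h)
  · exact mem_union_right _ (mem_nbr.2 h)

theorem eOf_sup_le (H W : SimpleGraph V) (T A : Finset V) :
    eOf (H ⊔ W) T A ≤ eOf H T A + eOf W T A := by
  refine le_trans (card_le_card ?_) (card_union_le _ _)
  intro p hp
  have mem_filter' : ∀ {α : Type} {s : Finset α} {q : α → Prop} (inst : DecidablePred q) {a : α},
      a ∈ @Finset.filter α q inst s → a ∈ s ∧ q a := fun _ _ h => Finset.mem_filter.1 h
  obtain ⟨h1, h2⟩ := mem_filter' _ hp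
  rcases h2 with h | h
  · exact mem_union_left _ (mem_filter.2 ⟨h1, h⟩)
  · exact mem_union_right _ (mem_filter.2 ⟨h1, h⟩)

theorem eOf_pG_le {G : SimpleGraph V} {u v : V} (p : G.Walk u v) {T A : Finset V}
    (hTA : Disjoint T A) : eOf (pG p) T A ≤ p.length := by
  have h1 : eOf (pG p) T A ≤ p.edges.toFinset.card := by
    refine Finset.card_le_card_of_injOn (fun q => s(q.1, q.2)) ?_ ?_
    · intro q hq
      have hq' := (mem_filter.1 hq).2
      simpa using (pG_adj p).1 hq'
    · rintro ⟨a, b⟩ hq ⟨a', b'⟩ hq' heq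
      have hab := mem_product.1 (mem_filter.1 hq).1
      have hab' := mem_product.1 (mem_filter.1 hq').1
      simp only at hab hab' heq
      rcases Sym2.eq_iff.1 heq with ⟨h, h'⟩ | ⟨h, _⟩
      · rw [h, h']
      · exact absurd hab'.2 (Finset.disjoint_left.1 hTA (h ▸ hab.1))
  refine h1.trans ((List.toFinset_card_le _).trans ?_)
  rw [SimpleGraph.Walk.length_edges]

/-- Sequential routing of all pairs, with the invariants. -/
theorem route_all (Γ : SimpleGraph V) (T A : Finset V) (col : V → ℕ) (hTA : Disjoint T A)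
    (hb : ∀ x y, Γ.Adj x y → (x ∈ T ∧ y ∈ A) ∨ (x ∈ A ∧ y ∈ T))
    (hc : ∀ x y, Γ.Adj x y → col x = col y)
    (n d g τ L U : ℕ) (hAn : A.card ≤ n)
    (hT : ∀ t ∈ T, d ≤ (nbr Γ t).card) (hA : ∀ a ∈ A, g ≤ (nbr Γ a).card)
    (hcut : ∀ (c : ℕ) (S : Finset V), S ⊆ (T ∪ A).filter (fun x => col x = c) →
        τ ≤ eIn Γ T A S → τ ≤ eIn Γ T A (((T ∪ A).filter (fun x => col x = c)) \ S) →
        τ ≤ eBetween Γ T A S (((T ∪ A).filter (fun x => col x = c)) \ S))
    (hd : 128 ≤ d) (hL : 8 * n ≤ L * d) (hτ : 17 * U < τ) (hdg : 4 * τ ≤ d * g) :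
    ∀ (m : ℕ), m * L ≤ U → ∀ (x y : Fin m → V),
      (∀ i, x i ∈ T ∧ y i ∈ T ∧ col (x i) = col (y i)) →
      (∀ t ∈ T, 64 * ((univ.filter fun i => x i = t).card + (univ.filter fun i => y i = t).card)
        ≤ (nbr Γ t).card) →
      ∃ (w : ∀ i, Γ.Walk (x i) (y i)) (H : SimpleGraph V), (∀ i, (w i).IsPath) ∧
        (∀ i j, i ≠ j → List.Disjoint (w i).edges (w j).edges) ∧ H ≤ Γ ∧
        (∀ i, ∀ e ∈ (w i).edges, e ∈ H.edgeSet) ∧ eOf H T A ≤ m * L ∧
        ∀ v, 8 * (nbr H v).card ≤ (nbr Γ v).card + 16 +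
          8 * ((univ.filter fun i => x i = v).card + (univ.filter fun i => y i = v).card) := by
  intro m
  induction m with
  | zero =>
    intro _ x y _ _
    refine ⟨fun i => i.elim0, ⊥, fun i => i.elim0, fun i => i.elim0, bot_le, fun i => i.elim0,
      ?_, ?_⟩
    · simp [eOf]
    · intro v
      simp [nbr]
  | succ m ih =>
    intro hmL x y hxy hload
    have hcount : ∀ (f : Fin (m + 1) → V) (v : V), (univ.filter fun i => f i = v).card =
        (univ.filter fun i : Fin m => f i.castSucc = v).card +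
          (if f (Fin.last m) = v then 1 else 0) := by
      intro f v
      rw [Finset.card_filter, Fin.sum_univ_castSucc, ← Finset.card_filter]
    have hmL' : m * L ≤ U := le_trans (Nat.mul_le_mul_right _ (Nat.le_succ m)) hmL
    have hLU : m * L + L ≤ U := by
      have : (m + 1) * L = m * L + L := by ring
      omega
    obtain ⟨w0, H, hpath, hdisj, hHle, hmem, heH, hinv⟩ := ih hmL'
      (fun i => x i.castSucc) (fun i => y i.castSucc) (fun i => hxy _) (by
        intro t ht
        refine le_trans ?_ (hload t ht)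
        rw [hcount x t, hcount y t]
        omega)
    have hends : ∀ t, (univ.filter fun i : Fin m => x i.castSucc = t).card +
        (univ.filter fun i : Fin m => y i.castSucc = t).card ≤
        (univ.filter fun i => x i = t).card + (univ.filter fun i => y i = t).card := by
      intro t
      rw [hcount x t, hcount y t]
      omega
    obtain ⟨hxT, hyT, hcol⟩ := hxy (Fin.last m)
    have hlost : ∀ t ∈ T, 64 * (nbr H t).card ≤ 9 * (nbr Γ t).card + 128 := by
      intro t ht
      have h1 := hinv t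
      have h2 := hload t ht
      have h3 := hends t
      omega
    obtain ⟨wn, hwp, hwl, hwe, hwi⟩ := route_one Γ H T A col hTA hb hc n d g τ L U hAn hT hA hcut
      hd hL hτ hdg hHle (by omega) hxT hyT hcol (hlost _ hxT) (hlost _ hyT)
    let w : ∀ i, Γ.Walk (x i) (y i) := fun i =>
      Fin.lastCases (motive := fun i => Γ.Walk (x i) (y i)) wn (fun i => w0 i) i
    have hwl' : w (Fin.last m) = wn := by simp [w]
    have hwc : ∀ i : Fin m, w i.castSucc = w0 i := by intro i; simp [w]
    have hdj0 : ∀ i : Fin m, List.Disjoint (w0 i).edges wn.edges := by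
      intro i e he he'
      exact hwe e he' (hmem i e he)
    refine ⟨w, H ⊔ pG wn, ?_, ?_, sup_le hHle (pG_le wn), ?_, ?_, ?_⟩
    · intro i
      induction i using Fin.lastCases with
      | last => rw [hwl']; exact hwp
      | cast i => rw [hwc]; exact hpath i
    · intro i j hij
      induction i using Fin.lastCases with
      | last =>
        induction j using Fin.lastCases with
        | last => exact absurd rfl hij
        | cast j =>
          rw [hwl', hwc]
          exact (hdj0 j).symm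
      | cast i =>
        induction j using Fin.lastCases with
        | last =>
          rw [hwl', hwc]
          exact hdj0 i
        | cast j =>
          rw [hwc, hwc]
          exact hdisj i j (fun h => hij (by rw [h]))
    · intro i e he
      induction i using Fin.lastCases with
      | last =>
        rw [hwl'] at he
        induction e using Sym2.ind with
        | _ a b =>
          rw [SimpleGraph.mem_edgeSet]
          exact Or.inr ((pG_adj wn).2 he)
      | cast i =>
        rw [hwc] at he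
        have := hmem i e he
        induction e using Sym2.ind with
        | _ a b =>
          rw [SimpleGraph.mem_edgeSet] at this ⊢
          exact Or.inl this
    · have h1 := eOf_sup_le H (pG wn) T A
      have h2 := eOf_pG_le wn hTA
      have h3 : (m + 1) * L = m * L + L := by ring
      omega
    · intro v
      have h1 := nbr_sup_card_le H (pG wn) v
      have h2 := hinv v
      have hc1 := hcount x v
      have hc2 := hcount y v
      by_cases hv : v ∈ wn.support
      · by_cases hvx : v = x (Fin.last m)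
        · have h3 : (nbr (pG wn) v).card ≤ 1 := by rw [hvx]; exact card_nbr_pG_start wn hwp
          have h4 : x (Fin.last m) = v := hvx.symm
          simp only [h4, if_true] at hc1
          omega
        by_cases hvy : v = y (Fin.last m)
        · have h3 : (nbr (pG wn) v).card ≤ 1 := by rw [hvy]; exact card_nbr_pG_end wn hwp
          have h4 : y (Fin.last m) = v := hvy.symm
          simp only [h4, if_true] at hc2
          omega
        · have h3 := card_nbr_pG_le_two wn hwp v
          have h4 := hwi v hv hvx hvy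
          omega
      · rw [nbr_pG_of_not_mem wn hv] at h1
        simp only [card_empty] at h1
        omega

end RoutingAux

/-- Bipartite network `Γ` between `T` and `A`, colours constant on edges, no thin cut in any colour
class.  Demand pairs in `T` with equal colours, at most `k` of them, every `t` an end of at most
`deg t / 64` of them.  Then edge-disjoint paths of `Γ` join all pairs.

Greedy, pair by pair.  `E` = used edges, `|E| ≤ U := k L`, `lost v` = number of used edges at `v`,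
`F = {v : 8 lost v ≥ deg v}` frozen; `Γ'` = `Γ - E - (F \ {x, y})`.  `|F ∩ A| ≤ 8U/g ≤ d/4`,
`|F ∩ T| ≤ 8U/d ≤ g/4`, `vol F ≤ 16 U`.  Each of `x, y` and each unfrozen `t` has at least `d/2`
neighbours in `Γ'`; each unfrozen hub at least `g/2`.  If `y` is not in the component `S` of `x`:
the cut of `S` within the class is `≤ |E| + vol F ≤ 17 U < τ`, while both sides have `≥ d g / 4 ≥ τ`
inner edges: contradiction.  Length: on a shortest path the `Γ'`-neighbourhoods of the vertices at
distance `0 mod 4` from `x` are disjoint, so its length is at most `L` because `8 n ≤ L d`. -/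
theorem routing (Γ : SimpleGraph V) (T A : Finset V) (col : V → ℕ) (hTA : Disjoint T A)
    (hb : ∀ x y, Γ.Adj x y → (x ∈ T ∧ y ∈ A) ∨ (x ∈ A ∧ y ∈ T))
    (hc : ∀ x y, Γ.Adj x y → col x = col y)
    (n d g τ L k : ℕ) (hAn : A.card ≤ n)
    (hT : ∀ t ∈ T, d ≤ (nbr Γ t).card) (hA : ∀ a ∈ A, g ≤ (nbr Γ a).card)
    (hcut : ∀ (c : ℕ) (S : Finset V), S ⊆ (T ∪ A).filter (fun x => col x = c) →
        τ ≤ eIn Γ T A S → τ ≤ eIn Γ T A (((T ∪ A).filter (fun x => col x = c)) \ S) →
        τ ≤ eBetween Γ T A S (((T ∪ A).filter (fun x => col x = c)) \ S))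
    (hd : 128 ≤ d) (hL : 8 * n ≤ L * d) (hτ : 17 * (k * L) < τ) (hdg : 4 * τ ≤ d * g)
    (m : ℕ) (hm : m ≤ k) (x y : Fin m → V)
    (hxy : ∀ i, x i ∈ T ∧ y i ∈ T ∧ col (x i) = col (y i))
    (hload : ∀ t ∈ T,
      64 * ((univ.filter fun i => x i = t).card + (univ.filter fun i => y i = t).card)
        ≤ (nbr Γ t).card) :
    ∃ w : ∀ i, Γ.Walk (x i) (y i), (∀ i, (w i).IsPath) ∧
      (∀ i j, i ≠ j → List.Disjoint (w i).edges (w j).edges) := by
  obtain ⟨w, _, h1, h2, _⟩ := RoutingAux.route_all Γ T A col hTA hb hc n d g τ L (k * L) hAn hT hA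
    hcut hd hL hτ hdg m (Nat.mul_le_mul_right _ hm) x y hxy hload
  exact ⟨w, h1, h2⟩

end Crest.Agent.EG
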