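import Crest.Agent.EG.Setup
import Crest.Agent.EG.Partition
import Crest.Agent.EG.Routing
import Crest.Agent.EG.NetworkAux

/-!
# One network (S0064 blueprint Step C): partition lemma + clean vertices + labels + routing
-/

set_option autoImplicit false

namespace Crest.Agent.EG

open Finset
open scoped Classical

variable {V : Type} [Fintype V]

/-- What a network provides to the stages. -/
structure NetOut (P : Par) (G : SimpleGraph V) (Q Y₀ Ni T A : Finset V)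
    (m : Fin (2 * P.u + 1) → V → V) (Γ : SimpleGraph V) (col : V → ℕ) (Cl : Finset V)
    (σ : {x // x ∈ Ni} → Fin P.r₀) : Prop where
  hΓ : Γ ≤ G
  hb : ∀ x y, Γ.Adj x y → (x ∈ T ∧ y ∈ A) ∨ (x ∈ A ∧ y ∈ T)
  hCl : Cl ⊆ T
  hCl_deg : ∀ t ∈ Cl, (nbr G t).card ≤ 160 * (nbr Γ t).card
  hCl_d₂ : ∀ t ∈ Cl, P.d₂ ≤ (nbr Γ t).card
  access : ∀ v ∈ Q, ∀ j, j ∈ Lab G Y₀ P.u m (extσ Ni σ) P.h P.r₀ v →
    (Xset G Y₀ P.u m (extσ Ni σ) v j).card ≤ 40 * ((nbr G v ∩ Cl).filter fun t => col t = j).card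
  sumLab : 10 * ∑ v ∈ Q, (Lab G Y₀ P.u m (extσ Ni σ) P.h P.r₀ v).card ≤ 11 * P.n
  rbound : ∀ v ∈ Q, ((nbr G v ∩ Y₀).filter fun y =>
      homeOf P.u m (extσ Ni σ) y ∉ Lab G Y₀ P.u m (extσ Ni σ) P.h P.r₀ v).card ≤ P.r₀ * P.h
  route : ∀ (c : ℕ) (x y : Fin c → V), c ≤ P.k →
    (∀ i, x i ∈ Cl ∧ y i ∈ Cl ∧ col (x i) = col (y i)) →
    (∀ t ∈ Cl, 64 * ((univ.filter fun i => x i = t).card + (univ.filter fun i => y i = t).card)
      ≤ (nbr Γ t).card) →
    ∃ w : ∀ i, Γ.Walk (x i) (y i), (∀ i, (w i).IsPath) ∧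
      (∀ i j, i ≠ j → List.Disjoint (w i).edges (w j).edges)

/-- Blueprint Step C.

`Γ₀` = bipartite graph of `G` between `T` and `A`.  `pr1A`: `deg₀ t ≥ deg t / 40 ≥ d₁`.
`partition_lemma` with `τ = P.τ`, `g = P.g`, `d₁ = P.d₁`: `T', A', col, r`, `Γ = restrictGraph`.
`r ≤ r₀` because `r d₁ ≤ 4 n ≤ 320 Λ d₁`.  `Lost ≤ 2 τ r₀ + 2 g n ≤ u s'`.
Clean: `t ∈ T'`, `deg₀ t - deg_Γ t < s'`; at most `u` vertices of `T` are not clean (call them dirty).
`σ t = col t` on `Ni ∩ T'` (default `0`).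
Claim: `t ∈ T ∩ Y₀` clean has `homeOf t = col t`: of its `2u+1` distinct mates in `Ni` at least `u+1`
are clean; `t` and a clean mate `m'` have `≥ s/40 > 2 s'` common neighbours in `A` (`pr2`), hence a hub with
both edges surviving in `Γ`, so `col t = col m'`.
`access`: `pr3`, `|X| ≥ h ≥ 40 u`: `|X ∩ T| ≥ |X|/20`, minus at most `u` dirty; clean ones have colour `j`.
`sumLab`: for `a ∈ A`, every label `j ≠ col a` of `a` gives `≥ h/40` edges of `Γ₀` at `a` that are not in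
`Γ`; so `∑_{a ∈ A} (|Lab a| - 1) ≤ 40 Lost / h`.  `pr4`: `∑_{a ∈ Q₀} (|Lab a| - 1) = ∑_{l ≥ 1} |Sl l| ≤
r₀ h + 20 ∑_{a ∈ A ∩ Q₀} (|Lab a| - 1)`.  Plus `|Q \ Q₀| r₀` for the nets.  All at most `n/10`.
`rbound`: `Lab ⊆ range r₀`, home values are `< r₀`, each non-label class has `< h` members.
`route`: `routing` with `T' , A'`, `d = d₂`, `g = g₂`, `τ`, `L`, `k`, `n`. -/
theorem exists_network (P : Par) (G : SimpleGraph V) (Q Y Y₀ Q₀ Ni T A B : Finset V)
    (m : Fin (2 * P.u + 1) → V → V) (hPR : NetPR P G Q Y Y₀ Q₀ Ni T A B m)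
    (hcard : Q.card = P.n) (hN : ∀ y ∈ Y, nbr G y ⊆ Q) (hdeg : ∀ y ∈ Y, P.d₀ ≤ (nbr G y).card)
    (hQ₀ : (Q \ Q₀).card ≤ 3 * P.p) :
    ∃ (Γ : SimpleGraph V) (col : V → ℕ) (Cl : Finset V) (σ : {x // x ∈ Ni} → Fin P.r₀),
      NetOut P G Q Y₀ Ni T A m Γ col Cl σ := by
  classical
  have hΛ := P.Λ_pos
  -- the bipartite graph
  obtain ⟨Γ₀, hΓ₀⟩ : ∃ Γ₀, Γ₀ = bipG G T A := ⟨_, rfl⟩
  have hN0 : ∀ t ∈ T, nbr Γ₀ t ∩ A = nbr G t ∩ A := fun t ht => by
    rw [hΓ₀]; exact nbr_bipG_inter G T A hPR.hTA ht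
  have hdegT : ∀ t ∈ T, P.d₁ ≤ (nbr G t ∩ A).card := by
    intro t ht
    have h1 := hPR.pr1A t (hPR.hT ht)
    have h2 := hdeg t (hPR.hT ht)
    have h3 := P.d₁_mul
    omega
  have hdeg₀ : ∀ t ∈ T, P.d₁ ≤ (nbr Γ₀ t ∩ A).card := fun t ht => by
    rw [hN0 t ht]; exact hdegT t ht
  obtain ⟨T', A', col, r, hT', hA', hcol, hr, hP1, hP2, hP3, hP4⟩ :=
    partition_lemma Γ₀ T A hPR.hTA P.τ P.g P.d₁ P.g_pos P.d₁_pos hdeg₀
  have hAn : A.card ≤ P.n := by
    rw [← hcard]; exact card_le_card hPR.hA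
  have hr₀ : r ≤ P.r₀ := P.r_le_r₀ r A.card hr hAn
  obtain ⟨Γ, hΓ⟩ : ∃ Γ, Γ = restrictGraph Γ₀ T' A' col := ⟨_, rfl⟩
  rw [← hΓ] at hP1 hP2 hP3 hP4
  have hΓadj : ∀ x y, Γ.Adj x y ↔ (G.Adj x y ∧ ((x ∈ T ∧ y ∈ A) ∨ (x ∈ A ∧ y ∈ T))) ∧
      ((x ∈ T' ∧ y ∈ A') ∨ (x ∈ A' ∧ y ∈ T')) ∧ col x = col y := by
    intro x y
    subst hΓ hΓ₀
    exact Iff.rfl
  have hΓG : Γ ≤ G := fun x y h => ((hΓadj x y).1 h).1.1
  have hΓcol : ∀ x y, Γ.Adj x y → col x = col y := fun x y h => ((hΓadj x y).1 h).2.2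
  have hΓb' : ∀ x y, Γ.Adj x y → (x ∈ T' ∧ y ∈ A') ∨ (x ∈ A' ∧ y ∈ T') :=
    fun x y h => ((hΓadj x y).1 h).2.1
  have hTdisjA : ∀ x, x ∈ T → x ∉ A := fun x hx hx' =>
    (Finset.disjoint_left.1 hPR.hTA) hx hx'
  have hTA' : Disjoint T' A' := disjoint_of_subset_left hT' (disjoint_of_subset_right hA' hPR.hTA)
  -- lost edges
  obtain ⟨lost, hlostdef⟩ : ∃ lost : V → ℕ,
      lost = fun t => (A.filter fun a => G.Adj t a ∧ ¬ Γ.Adj t a).card := ⟨_, rfl⟩
  have hNΓ : ∀ t ∈ T, nbr Γ t ⊆ nbr G t ∩ A := by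
    intro t ht x hx
    rw [mem_nbr] at hx
    refine mem_inter.2 ⟨mem_nbr.2 (hΓG hx), ?_⟩
    rcases hΓb' t x hx with h | h
    · exact hA' h.2
    · exact absurd (hA' h.1) (hTdisjA t ht)
  have hsplit : ∀ t ∈ T, (nbr G t ∩ A).card = (nbr Γ t).card + lost t := by
    intro t ht
    rw [hlostdef]
    have hU : nbr G t ∩ A = nbr Γ t ∪ A.filter fun a => G.Adj t a ∧ ¬ Γ.Adj t a := by
      ext x
      simp only [mem_inter, mem_union, mem_filter, mem_nbr]
      constructor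
      · rintro ⟨h1, h2⟩
        by_cases h3 : Γ.Adj t x
        · exact Or.inl h3
        · exact Or.inr ⟨h2, h1, h3⟩
      · rintro (h | ⟨h1, h2, _⟩)
        · have := hNΓ t ht (mem_nbr.2 h)
          simpa [mem_nbr] using this
        · exact ⟨h2, h1⟩
    have hD : Disjoint (nbr Γ t) (A.filter fun a => G.Adj t a ∧ ¬ Γ.Adj t a) := by
      rw [Finset.disjoint_left]
      intro x hx hx'
      rw [mem_nbr] at hx
      exact (mem_filter.1 hx').2.2 hx
    rw [hU, card_union_of_disjoint hD]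
  have hB0 : ∑ t ∈ T, lost t ≤ 2 * P.τ * r + 2 * P.g * A.card := by
    have h1 : ∑ t ∈ T, (nbr Γ₀ t ∩ A).card = ∑ t ∈ T, (nbr Γ t).card + ∑ t ∈ T, lost t := by
      rw [← sum_add_distrib]
      refine sum_congr rfl fun t ht => ?_
      rw [hN0 t ht, hsplit t ht]
    omega
  obtain ⟨B, hBdef⟩ : ∃ B, B = 2 * P.τ * P.r₀ + 2 * P.g * P.n := ⟨_, rfl⟩
  have hB1 : ∑ t ∈ T, lost t ≤ B := by
    refine hB0.trans ?_
    rw [hBdef]
    exact Nat.add_le_add (Nat.mul_le_mul_left _ hr₀) (Nat.mul_le_mul_left _ hAn)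
  have hBu : B ≤ P.u * P.s' := by rw [hBdef]; exact P.lost_bound
  -- clean vertices
  obtain ⟨Cl, hCldef⟩ : ∃ Cl : Finset V, Cl = T'.filter fun t => lost t < P.s' := ⟨_, rfl⟩
  have hClT' : Cl ⊆ T' := by rw [hCldef]; exact filter_subset _ _
  have hClT : Cl ⊆ T := hClT'.trans hT'
  have hCllost : ∀ t ∈ Cl, lost t < P.s' := fun t ht => by
    rw [hCldef] at ht; exact (mem_filter.1 ht).2
  have hdirtyLost : ∀ t ∈ T \ Cl, P.s' ≤ lost t := by
    intro t ht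
    obtain ⟨htT, htCl⟩ := mem_sdiff.1 ht
    by_cases htT' : t ∈ T'
    · by_contra hcon
      apply htCl
      rw [hCldef]
      exact mem_filter.2 ⟨htT', by omega⟩
    · have h0 : nbr Γ t = ∅ := by
        rw [Finset.eq_empty_iff_forall_notMem]
        intro x hx
        rw [mem_nbr] at hx
        rcases hΓb' t x hx with h | h
        · exact htT' h.1
        · exact hTdisjA t htT (hA' h.1)
      have h1 := hsplit t htT
      rw [h0, card_empty, zero_add] at h1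
      rw [← h1]
      exact P.s'_le_d₁.trans (hdegT t htT)
  have hdirty : (T \ Cl).card ≤ P.u :=
    card_dirty_le T Cl lost P.u P.s' B P.s'_pos hB1 hBu hdirtyLost
  -- the labelling of the nets
  have hcolr : ∀ x ∈ T', col x < P.r₀ := fun x hx =>
    lt_of_lt_of_le (hcol x (mem_union_left _ hx)) hr₀
  obtain ⟨σ, hσdef⟩ : ∃ σ : {x // x ∈ Ni} → Fin P.r₀, σ = fun x =>
      if hx : x.1 ∈ T' then ⟨col x.1, hcolr _ hx⟩ else ⟨0, P.r₀_pos⟩ := ⟨_, rfl⟩
  have hσ : ∀ x, x ∈ Ni → x ∈ T' → extσ Ni σ x = col x := by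
    intro x h1 h2
    subst hσdef
    simp [extσ, h1, h2]
  -- a common hub
  have hhub : ∀ t ∈ Cl, ∀ t' ∈ Cl, P.s ≤ 40 * (nbr G t ∩ nbr G t' ∩ A).card → col t = col t' := by
    intro t ht t' ht' hC
    have h1 := P.s'_mul
    have h2 := hCllost t ht
    have h3 := hCllost t' ht'
    rw [hlostdef] at h2 h3
    simp only at h2 h3
    have hex : ∃ a ∈ nbr G t ∩ nbr G t' ∩ A,
        a ∉ (A.filter fun a => G.Adj t a ∧ ¬ Γ.Adj t a) ∧
        a ∉ (A.filter fun a => G.Adj t' a ∧ ¬ Γ.Adj t' a) := by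
      by_contra hcon
      push Not at hcon
      have hsub : nbr G t ∩ nbr G t' ∩ A ⊆ (A.filter fun a => G.Adj t a ∧ ¬ Γ.Adj t a) ∪
          (A.filter fun a => G.Adj t' a ∧ ¬ Γ.Adj t' a) := by
        intro a ha
        by_cases h : a ∈ (A.filter fun a => G.Adj t a ∧ ¬ Γ.Adj t a)
        · exact mem_union_left _ h
        · exact mem_union_right _ (hcon a ha h)
      have h4 := card_le_card hsub
      have h5 := card_union_le (A.filter fun a => G.Adj t a ∧ ¬ Γ.Adj t a)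
        (A.filter fun a => G.Adj t' a ∧ ¬ Γ.Adj t' a)
      omega
    obtain ⟨a, ha, hn1, hn2⟩ := hex
    simp only [mem_inter, mem_nbr] at ha
    have h6 : Γ.Adj t a := by
      by_contra hcon
      exact hn1 (mem_filter.2 ⟨ha.2, ha.1.1, hcon⟩)
    have h7 : Γ.Adj t' a := by
      by_contra hcon
      exact hn2 (mem_filter.2 ⟨ha.2, ha.1.2, hcon⟩)
    exact (hΓcol _ _ h6).trans (hΓcol _ _ h7).symm
  -- clean vertices have home = colour
  have hhome : ∀ t ∈ Cl, t ∈ Y₀ → homeOf P.u m (extσ Ni σ) t = col t := by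
    intro t ht hty
    refine homeOf_eq_of_clean m (extσ Ni σ) T Cl hdirty t (col t) (hPR.hmate_inj t hty)
      (fun l => hPR.hNi (hPR.hmate t hty l)) ?_
    intro l hl
    rw [hσ _ (hPR.hmate t hty l) (hClT' hl)]
    exact (hhub t ht _ hl (hPR.pr2 t hty l)).symm
  -- access
  have haccess : ∀ v ∈ Q, ∀ j, j ∈ Lab G Y₀ P.u m (extσ Ni σ) P.h P.r₀ v →
      (Xset G Y₀ P.u m (extσ Ni σ) v j).card ≤
        40 * ((nbr G v ∩ Cl).filter fun t => col t = j).card := by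
    intro v hv j hj
    have hj' := (mem_filter.1 hj).2
    have h1 := hPR.pr3 σ v j hv hj'
    have hsub : Xset G Y₀ P.u m (extσ Ni σ) v j ∩ T ⊆
        (T \ Cl) ∪ ((nbr G v ∩ Cl).filter fun t => col t = j) := by
      intro y hy
      obtain ⟨hy1, hyT⟩ := mem_inter.1 hy
      unfold Xset at hy1
      obtain ⟨hy2, hy3⟩ := mem_filter.1 hy1
      obtain ⟨hy4, hy5⟩ := mem_inter.1 hy2
      by_cases hyCl : y ∈ Cl
      · refine mem_union_right _ (mem_filter.2 ⟨mem_inter.2 ⟨hy4, hyCl⟩, ?_⟩)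
        rw [← hhome y hyCl hy5, hy3]
      · exact mem_union_left _ (mem_sdiff.2 ⟨hyT, hyCl⟩)
    have h2 := card_le_card hsub
    have h3 := card_union_le (T \ Cl) ((nbr G v ∩ Cl).filter fun t => col t = j)
    have h4 := P.forty_u_le_h
    omega
  -- rbound
  have hrbound : ∀ v ∈ Q, ((nbr G v ∩ Y₀).filter fun y =>
      homeOf P.u m (extσ Ni σ) y ∉ Lab G Y₀ P.u m (extσ Ni σ) P.h P.r₀ v).card ≤ P.r₀ * P.h := by
    intro v hv
    have hsub : ((nbr G v ∩ Y₀).filter fun y =>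
        homeOf P.u m (extσ Ni σ) y ∉ Lab G Y₀ P.u m (extσ Ni σ) P.h P.r₀ v) ⊆
        ((range P.r₀).filter fun j => j ∉ Lab G Y₀ P.u m (extσ Ni σ) P.h P.r₀ v).biUnion
          (fun j => Xset G Y₀ P.u m (extσ Ni σ) v j) := by
      intro y hy
      obtain ⟨hy1, hy2⟩ := mem_filter.1 hy
      refine mem_biUnion.2 ⟨homeOf P.u m (extσ Ni σ) y, mem_filter.2 ⟨?_, hy2⟩, ?_⟩
      · exact mem_range.2 (homeOf_lt P.r₀_pos m Ni σ y)
      · unfold Xset
        exact mem_filter.2 ⟨hy1, rfl⟩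
    refine (card_le_card hsub).trans (card_biUnion_le.trans ?_)
    calc ∑ j ∈ (range P.r₀).filter (fun j => j ∉ Lab G Y₀ P.u m (extσ Ni σ) P.h P.r₀ v),
          (Xset G Y₀ P.u m (extσ Ni σ) v j).card
        ≤ ∑ _j ∈ (range P.r₀).filter (fun j => j ∉ Lab G Y₀ P.u m (extσ Ni σ) P.h P.r₀ v), P.h := by
          refine sum_le_sum fun j hj => ?_
          obtain ⟨hj1, hj2⟩ := mem_filter.1 hj
          by_contra hcon
          exact hj2 (mem_filter.2 ⟨hj1, by omega⟩)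
      _ = ((range P.r₀).filter fun j => j ∉ Lab G Y₀ P.u m (extσ Ni σ) P.h P.r₀ v).card * P.h := by
          simp
      _ ≤ P.r₀ * P.h := by
          refine Nat.mul_le_mul_right _ ?_
          calc _ ≤ (range P.r₀).card := card_le_card (filter_subset _ _)
            _ = P.r₀ := card_range _
  -- sumLab
  have hLabcard : ∀ v, (Lab G Y₀ P.u m (extσ Ni σ) P.h P.r₀ v).card ≤ P.r₀ := by
    intro v
    unfold Lab
    calc _ ≤ (range P.r₀).card := card_le_card (filter_subset _ _)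
      _ = P.r₀ := card_range _
  obtain ⟨ex, hexdef⟩ : ∃ ex : V → ℕ,
      ex = fun v => (Lab G Y₀ P.u m (extσ Ni σ) P.h P.r₀ v).card - 1 := ⟨_, rfl⟩
  have hexle : ∀ v, ex v ≤ P.r₀ := by
    intro v
    rw [hexdef]
    have := hLabcard v
    simp only
    omega
  have hSl : ∀ l, Sl G Y₀ Q₀ P.u m (extσ Ni σ) P.h P.r₀ l = Q₀.filter fun a => l ≤ ex a := by
    intro l
    rw [hexdef]
    rfl
  -- lost edges at `A`
  obtain ⟨LA, hLAdef⟩ : ∃ LA : V → Finset V,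
      LA = fun a => T.filter fun t => G.Adj t a ∧ ¬ Γ.Adj t a := ⟨_, rfl⟩
  have hLAsum : ∑ a ∈ A, (LA a).card = ∑ t ∈ T, lost t := by
    rw [hLAdef, hlostdef]
    simp only [card_filter]
    exact sum_comm
  have hexA : ∀ a ∈ A, P.h * ex a ≤ 40 * (LA a).card := by
    intro a ha
    rw [hexdef]
    refine label_loss (Lab G Y₀ P.u m (extσ Ni σ) P.h P.r₀ a) (col a)
      (fun j => (nbr G a ∩ Cl).filter fun t => col t = j) (LA a) P.h ?_ ?_ ?_
    · intro j hj _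
      have h1 := haccess a (hPR.hA ha) j hj
      have h2 := (mem_filter.1 hj).2
      exact h2.trans h1
    · intro j _ hne t ht
      obtain ⟨ht1, ht2⟩ := mem_filter.1 ht
      obtain ⟨ht3, ht4⟩ := mem_inter.1 ht1
      rw [mem_nbr] at ht3
      rw [hLAdef]
      refine mem_filter.2 ⟨hClT ht4, ht3.symm, ?_⟩
      intro hadj
      exact hne (ht2.symm.trans (hΓcol _ _ hadj))
    · intro j j' hjj'
      rw [Finset.disjoint_left]
      intro t ht ht'
      exact hjj' ((mem_filter.1 ht).2.symm.trans (mem_filter.1 ht').2)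
  have hX : P.h * ∑ a ∈ A, ex a ≤ 40 * (2 * P.τ * P.r₀ + 2 * P.g * P.n) := by
    rw [← hBdef, mul_sum]
    calc ∑ a ∈ A, P.h * ex a ≤ ∑ a ∈ A, 40 * (LA a).card := sum_le_sum hexA
      _ = 40 * ∑ a ∈ A, (LA a).card := (mul_sum _ _ _).symm
      _ ≤ 40 * B := Nat.mul_le_mul_left _ (by rw [hLAsum]; exact hB1)
  have hQ₀sum : ∑ v ∈ Q₀, ex v ≤ P.r₀ * P.h + 20 * ∑ a ∈ A, ex a := by
    rw [sum_eq_sum_card_filter_le Q₀ ex P.r₀ (fun a _ => hexle a)]
    have h1 : ∀ l ∈ Icc 1 P.r₀, (Q₀.filter fun a => l ≤ ex a).card ≤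
        P.h + 20 * ((Q₀ ∩ A).filter fun a => l ≤ ex a).card := by
      intro l _
      have h2 : Q₀.filter (fun a => l ≤ ex a) ∩ A = (Q₀ ∩ A).filter fun a => l ≤ ex a := by
        ext a
        simp only [mem_inter, mem_filter]
        tauto
      by_cases hc : P.h ≤ (Q₀.filter fun a => l ≤ ex a).card
      · have h3 := hPR.pr4 σ l (by rw [hSl l]; exact hc)
        rw [hSl l, h2] at h3
        omega
      · omega
    calc ∑ l ∈ Icc 1 P.r₀, (Q₀.filter fun a => l ≤ ex a).card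
        ≤ ∑ l ∈ Icc 1 P.r₀, (P.h + 20 * ((Q₀ ∩ A).filter fun a => l ≤ ex a).card) :=
          sum_le_sum h1
      _ = P.r₀ * P.h + 20 * ∑ a ∈ Q₀ ∩ A, ex a := by
          rw [sum_add_distrib, ← mul_sum,
            ← sum_eq_sum_card_filter_le (Q₀ ∩ A) ex P.r₀ (fun a _ => hexle a)]
          simp
      _ ≤ P.r₀ * P.h + 20 * ∑ a ∈ A, ex a := by
          refine Nat.add_le_add_left (Nat.mul_le_mul_left _ ?_) _
          exact sum_le_sum_of_subset inter_subset_right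
  have hsumLab : 10 * ∑ v ∈ Q, (Lab G Y₀ P.u m (extσ Ni σ) P.h P.r₀ v).card ≤ 11 * P.n := by
    have h1 : ∑ v ∈ Q, (Lab G Y₀ P.u m (extσ Ni σ) P.h P.r₀ v).card ≤ P.n + ∑ v ∈ Q, ex v := by
      calc _ ≤ ∑ v ∈ Q, (1 + ex v) := by
            refine sum_le_sum fun v _ => ?_
            rw [hexdef]
            simp only
            omega
        _ = P.n + ∑ v ∈ Q, ex v := by
            rw [sum_add_distrib]
            simp [hcard]
    have h2 : ∑ v ∈ Q, ex v = ∑ v ∈ Q \ Q₀, ex v + ∑ v ∈ Q₀, ex v :=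
      (sum_sdiff hPR.hQ₀).symm
    have h3 : ∑ v ∈ Q \ Q₀, ex v ≤ 3 * P.p * P.r₀ := by
      calc ∑ v ∈ Q \ Q₀, ex v ≤ ∑ _v ∈ Q \ Q₀, P.r₀ := sum_le_sum fun v _ => hexle v
        _ = (Q \ Q₀).card * P.r₀ := by simp
        _ ≤ _ := Nat.mul_le_mul_right _ hQ₀
    have h4 := P.sumLab_numeric (∑ a ∈ A, ex a) hX
    omega
  -- routing
  have hroute : ∀ (c : ℕ) (x y : Fin c → V), c ≤ P.k →
      (∀ i, x i ∈ Cl ∧ y i ∈ Cl ∧ col (x i) = col (y i)) →
      (∀ t ∈ Cl, 64 * ((univ.filter fun i => x i = t).card + (univ.filter fun i => y i = t).card)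
        ≤ (nbr Γ t).card) →
      ∃ w : ∀ i, Γ.Walk (x i) (y i), (∀ i, (w i).IsPath) ∧
        (∀ i j, i ≠ j → List.Disjoint (w i).edges (w j).edges) := by
    intro c x y hc hxy hload
    refine routing Γ T' A' col hTA' hΓb' hΓcol P.n P.d₂ P.g₂ P.τ P.L P.k
      ((card_le_card hA').trans hAn) ?_ ?_ hP3 P.d₂_big P.route_hL P.route_hτ P.route_hdg
      c hc x y (fun i => ⟨hClT' (hxy i).1, hClT' (hxy i).2.1, (hxy i).2.2⟩) ?_
    · intro t ht
      have h1 := hP1 t ht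
      have h2 := hdeg₀ t (hT' ht)
      have h3 := P.d₂_mul
      omega
    · intro a ha
      have h1 := hP2 a ha
      have h2 : P.g = 2 * P.g₂ := rfl
      omega
    · intro t _
      by_cases htCl : t ∈ Cl
      · exact hload t htCl
      · have h1 : (univ.filter fun i => x i = t) = ∅ := by
          rw [filter_eq_empty_iff]
          intro i _ hi
          exact htCl (hi ▸ (hxy i).1)
        have h2 : (univ.filter fun i => y i = t) = ∅ := by
          rw [filter_eq_empty_iff]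
          intro i _ hi
          exact htCl (hi ▸ (hxy i).2.1)
        rw [h1, h2]
        simp
  refine ⟨Γ, col, Cl, σ, ?_⟩
  exact
    { hΓ := hΓG
      hb := by
        intro x y h
        rcases hΓb' x y h with h1 | h1
        · exact Or.inl ⟨hT' h1.1, hA' h1.2⟩
        · exact Or.inr ⟨hA' h1.1, hT' h1.2⟩
      hCl := hClT
      hCl_deg := by
        intro t ht
        have h1 := hPR.pr1A t (hPR.hT (hClT ht))
        have h2 := hP1 t (hClT' ht)
        rw [hN0 t (hClT ht)] at h2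
        omega
      hCl_d₂ := by
        intro t ht
        have h1 := hP1 t (hClT' ht)
        have h2 := hdeg₀ t (hClT ht)
        have h3 := P.d₂_mul
        omega
      access := haccess
      sumLab := hsumLab
      rbound := hrbound
      route := hroute }

end Crest.Agent.EG
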