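import Crest.Agent.EG.Lovasz

/-!
# Cutting the light graph `R` into pieces and pairing them (blueprint Step E, R-PHASE)
-/

set_option autoImplicit false

namespace Crest.Agent.EG

open Finset
open scoped Classical

section Aux

variable {V : Type}

/-- A walk with explicit ends. -/
structure Pc (R : SimpleGraph V) where
  a : V
  b : V
  w : R.Walk a b

/-- The list of edges of a piece. -/
def Pc.E {R : SimpleGraph V} (p : Pc R) : List (Sym2 V) := p.w.edges

/-- Trimming the first edge if the first vertex is not in `W`. -/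
theorem trim_front {R : SimpleGraph V} {W : Finset V}
    (hW : ∀ x y, R.Adj x y → x ∈ W ∨ y ∈ W) {a b : V} (w : R.Walk a b) (hw : w.IsPath) :
    ∃ (a' : V) (w' : R.Walk a' b) (S : List (Sym2 V)), w'.IsPath ∧ (0 < w'.length → a' ∈ W) ∧
      S.length ≤ 1 ∧ w.edges = S ++ w'.edges ∧ w'.length ≤ w.length := by
  cases w with
  | nil => exact ⟨a, .nil, [], hw, by simp, by simp, by simp, le_rfl⟩
  | @cons _ v _ h p =>
    by_cases ha : a ∈ W
    · exact ⟨a, .cons h p, [], hw, fun _ => ha, by simp, by simp, le_rfl⟩
    · refine ⟨v, p, [s(a, v)], hw.of_cons, fun _ => (hW a v h).resolve_left ha, by simp, ?_, ?_⟩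
      · simp
      · simp

/-- Trimming both ends. -/
theorem trim_both {R : SimpleGraph V} {W : Finset V}
    (hW : ∀ x y, R.Adj x y → x ∈ W ∨ y ∈ W) {a b : V} (w : R.Walk a b) (hw : w.IsPath) :
    ∃ (a' b' : V) (w' : R.Walk a' b') (S : List (Sym2 V)), w'.IsPath ∧
      (0 < w'.length → a' ∈ W ∧ b' ∈ W) ∧
      S.length ≤ 2 ∧ w.edges.Perm (S ++ w'.edges) ∧ w'.length ≤ w.length := by
  obtain ⟨a₁, w₁, S₁, h1, h1W, h1S, h1e, h1l⟩ := trim_front hW w hw
  obtain ⟨b₂, w₂, S₂, h2, h2W, h2S, h2e, h2l⟩ :=
    trim_front hW w₁.reverse (SimpleGraph.Walk.IsPath.reverse h1)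
  refine ⟨a₁, b₂, w₂.reverse, S₁ ++ S₂.reverse, SimpleGraph.Walk.IsPath.reverse h2, ?_, ?_, ?_, ?_⟩
  · intro hl
    have hl2 : 0 < w₂.length := by simpa using hl
    refine ⟨h1W ?_, h2W hl2⟩
    have : w₁.reverse.length = w₁.length := by simp
    omega
  · simp only [List.length_append, List.length_reverse]
    omega
  · have h3 : w₁.edges = (S₂ ++ w₂.edges).reverse := by
      rw [← h2e]; simp
    rw [h1e, h3]
    simp only [List.reverse_append, SimpleGraph.Walk.edges_reverse]
    refine List.perm_iff_count.2 fun e => ?_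
    simp only [List.count_append, List.count_reverse]
    omega
  · have : w₁.reverse.length = w₁.length := by simp
    have h4 : w₂.reverse.length = w₂.length := by simp
    omega

/-- Cutting a path with ends in `W` into pieces of length in `[t₁, t₁ + 1]`, except the last. -/
theorem cut_path {R : SimpleGraph V} {W : Finset V}
    (hW : ∀ x y, R.Adj x y → x ∈ W ∨ y ∈ W) (t₁ : ℕ) (ht₁ : 1 ≤ t₁) (N : ℕ) :
    ∀ {a b : V} (w : R.Walk a b), w.length ≤ N → w.IsPath → 0 < w.length → a ∈ W → b ∈ W →
    ∃ l : List (Pc R), (∀ p ∈ l, p.w.IsPath ∧ 0 < p.w.length ∧ p.a ∈ W ∧ p.b ∈ W ∧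
        p.w.length ≤ t₁ + 1) ∧
      w.edges = l.flatMap Pc.E ∧ l.length * t₁ ≤ w.length + t₁ := by
  induction N with
  | zero => intro a b w h1 _ h2; omega
  | succ N ih =>
    intro a b w hN hw hpos ha hb
    by_cases hL : w.length ≤ t₁ + 1
    · refine ⟨[⟨a, b, w⟩], ?_, ?_, ?_⟩
      · intro p hp
        simp only [List.mem_singleton] at hp
        subst hp
        exact ⟨hw, hpos, ha, hb, hL⟩
      · simp [Pc.E]
      · simp
    · push Not at hL
      obtain ⟨j, hj1, hj2, hjW⟩ : ∃ j, t₁ ≤ j ∧ j ≤ t₁ + 1 ∧ w.getVert j ∈ W := by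
        have hadj := w.adj_getVert_succ (i := t₁) (by omega)
        rcases hW _ _ hadj with h | h
        · exact ⟨t₁, le_rfl, by omega, h⟩
        · exact ⟨t₁ + 1, by omega, le_rfl, h⟩
      have hd : (w.drop j).length = w.length - j := by simp
      obtain ⟨l, hl1, hl2, hl3⟩ := ih (w.drop j) (by omega) (hw.drop j) (by omega) hjW hb
      refine ⟨⟨a, _, w.take j⟩ :: l, ?_, ?_, ?_⟩
      · intro p hp
        rcases List.mem_cons.1 hp with rfl | hp
        · have ht : (w.take j).length = j ⊓ w.length := by simp
          refine ⟨hw.take j, ?_, ha, hjW, ?_⟩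
          · show 0 < (w.take j).length
            rw [ht]; omega
          · show (w.take j).length ≤ t₁ + 1
            rw [ht]; omega
        · exact hl1 p hp
      · have : w.edges = (w.take j).edges ++ (w.drop j).edges := by
          rw [SimpleGraph.Walk.edges_drop, SimpleGraph.Walk.edges_take, List.take_append_drop]
        rw [this, hl2]
        simp [Pc.E]
      · simp only [List.length_cons]
        rw [hd] at hl3
        have : (l.length + 1) * t₁ = l.length * t₁ + t₁ := by ring
        omega

/-- Everything for one path of the Lovász decomposition. -/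
theorem path_pieces {R : SimpleGraph V} {W : Finset V}
    (hW : ∀ x y, R.Adj x y → x ∈ W ∨ y ∈ W) (t₁ : ℕ) (ht₁ : 1 ≤ t₁)
    {a b : V} (w : R.Walk a b) (hw : w.IsPath) :
    ∃ (l : List (Pc R)) (S : List (Sym2 V)),
      (∀ p ∈ l, p.w.IsPath ∧ 0 < p.w.length ∧ p.a ∈ W ∧ p.b ∈ W ∧ p.w.length ≤ t₁ + 1) ∧
      S.length ≤ 2 ∧ w.edges.Perm (S ++ l.flatMap Pc.E) ∧ l.length * t₁ ≤ w.length + t₁ := by
  obtain ⟨a', b', w', S, h1, h2, h3, h4, h5⟩ := trim_both hW w hw
  by_cases h0 : 0 < w'.length
  · obtain ⟨l, hl1, hl2, hl3⟩ := cut_path hW t₁ ht₁ _ w' le_rfl h1 h0 (h2 h0).1 (h2 h0).2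
    refine ⟨l, S, hl1, h3, ?_, by omega⟩
    rw [← hl2]
    exact h4
  · refine ⟨[], S, by simp, h3, ?_, by simp⟩
    have : w'.edges = [] := by
      apply List.eq_nil_of_length_eq_zero
      rw [SimpleGraph.Walk.length_edges]
      omega
    simpa [this] using h4

/-- Greedy maximal matching in a list. -/
theorem exists_matching {β : Type} (D : β → β → Prop) (N : ℕ) :
    ∀ A : List β, A.length ≤ N → ∃ (Pairs : List (β × β)) (U : List β),
      (∀ q ∈ Pairs, D q.1 q.2) ∧ A.Perm (Pairs.map Prod.fst ++ Pairs.map Prod.snd ++ U) ∧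
      U.Pairwise (fun x y => ¬ D x y) := by
  induction N with
  | zero =>
    intro A hA
    have : A = [] := List.eq_nil_of_length_eq_zero (by omega)
    subst this
    exact ⟨[], [], by simp, by simp, by simp⟩
  | succ N ih =>
    intro A hA
    cases A with
    | nil => exact ⟨[], [], by simp, by simp, by simp⟩
    | cons x A' =>
      by_cases hx : ∃ y ∈ A', D x y
      · obtain ⟨y, hy, hD⟩ := hx
        obtain ⟨A'', hA''⟩ : ∃ A'', A'.Perm (y :: A'') := by
          classical
          exact ⟨A'.erase y, List.perm_cons_erase hy⟩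
        have hlen : A''.length ≤ N := by
          have := hA''.length_eq
          simp only [List.length_cons] at this hA
          omega
        obtain ⟨Pairs, U, h1, h2, h3⟩ := ih A'' hlen
        refine ⟨(x, y) :: Pairs, U, ?_, ?_, h3⟩
        · intro q hq
          rcases List.mem_cons.1 hq with rfl | hq
          · exact hD
          · exact h1 q hq
        · refine List.perm_iff_count.2 fun e => ?_
          have c1 := hA''.count_eq e
          have c2 := h2.count_eq e
          simp only [List.count_cons, List.count_append, List.map_cons] at c1 c2 ⊢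
          omega
      · push Not at hx
        obtain ⟨Pairs, U, h1, h2, h3⟩ := ih A' (by simpa using hA)
        refine ⟨Pairs, x :: U, h1, ?_, ?_⟩
        · refine List.perm_iff_count.2 fun e => ?_
          have c2 := h2.count_eq e
          simp only [List.count_cons, List.count_append] at c2 ⊢
          omega
        · refine List.pairwise_cons.2 ⟨fun z hz => hx z ?_, h3⟩
          exact h2.symm.subset (List.mem_append_right _ hz)

theorem flatMap_perm_of_each {ι α β : Type} (idx : List ι) (f S : ι → List α) (l : ι → List β)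
    (E : β → List α) (h : ∀ i ∈ idx, (f i).Perm (S i ++ (l i).flatMap E)) :
    (idx.flatMap f).Perm (idx.flatMap S ++ (idx.flatMap l).flatMap E) := by
  induction idx with
  | nil => simp
  | cons i idx ih =>
    have h1 := h i (by simp)
    have h2 := ih (fun j hj => h j (by simp [hj]))
    refine List.perm_iff_count.2 fun e => ?_
    have c1 := h1.count_eq e
    have c2 := h2.count_eq e
    simp only [List.flatMap_cons, List.flatMap_append, List.count_append] at c1 c2 ⊢
    omega

theorem ofFn_get_map {α β : Type} (L : List α) (g : α → β) :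
    List.ofFn (fun i : Fin L.length => g (L.get i)) = L.map g := by
  apply List.ext_get
  · simp
  · intro n h1 h2
    simp

/-- A vertex of a walk of positive length is on an edge of the walk. -/
theorem exists_edge_at {R : SimpleGraph V} {a b : V} (w : R.Walk a b) (h0 : 0 < w.length) {v : V}
    (hv : v ∈ w.support) : ∃ x, R.Adj v x ∧ s(v, x) ∈ w.edges := by
  induction w with
  | nil => simp at h0
  | @cons u u' _ h p ih =>
    rcases List.mem_cons.1 (by simpa using hv) with rfl | hv'
    · exact ⟨u', h, by simp⟩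
    · by_cases hp : 0 < p.length
      · obtain ⟨x, hx, hx2⟩ := ih hp hv'
        exact ⟨x, hx, by simp [hx2]⟩
      · have hnil : p.length = 0 := by omega
        have hvu : v = u' := by
          cases p with
          | nil => simpa using hv'
          | cons _ _ => simp at hnil
        subst hvu
        exact ⟨u, h.symm, by simp [Sym2.eq_swap]⟩


/-- Symmetric pairwise relations on `get`. -/
theorem pairwise_get_of_symm {α : Type} {r : α → α → Prop} (hs : ∀ x y, r x y → r y x) {L : List α}
    (h : L.Pairwise r) {i j : Fin L.length} (hij : i ≠ j) : r (L.get i) (L.get j) := by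
  rcases lt_or_gt_of_ne hij with h' | h'
  · exact List.pairwise_iff_get.1 h i j h'
  · exact hs _ _ (List.pairwise_iff_get.1 h j i h')

theorem card_filter_get {α : Type} (L : List α) (g : α → Prop) :
    (univ.filter fun i : Fin L.length => g (L.get i)).card = L.countP (fun x => decide (g x)) := by
  rw [Finset.card_filter]
  have h1 : (∑ i : Fin L.length, if g (L.get i) then 1 else 0) =
      (List.ofFn (fun i : Fin L.length => (fun x => if g x then 1 else 0) (L.get i))).sum := by
    rw [List.sum_ofFn]
  rw [h1, ofFn_get_map L (fun x => if g x then 1 else 0)]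
  clear h1
  induction L with
  | nil => simp
  | cons x L ih =>
    simp only [List.map_cons, List.sum_cons, List.countP_cons, ih]
    by_cases hx : g x <;> simp [hx]
    omega

theorem length_flatMap_le {α β : Type} (L : List α) (f : α → List β) (c : ℕ)
    (h : ∀ x ∈ L, (f x).length ≤ c) : (L.flatMap f).length ≤ L.length * c := by
  induction L with
  | nil => simp
  | cons x L ih =>
    have h1 := h x (by simp)
    have h2 := ih (fun y hy => h y (by simp [hy]))
    simp only [List.flatMap_cons, List.length_append, List.length_cons]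
    nlinarith

theorem length_flatMap_mul_le {α β γ : Type} (idx : List α) (f : α → List β) (l : α → List γ)
    (t : ℕ) (h : ∀ i ∈ idx, (l i).length * t ≤ (f i).length + t) :
    (idx.flatMap l).length * t ≤ (idx.flatMap f).length + idx.length * t := by
  induction idx with
  | nil => simp
  | cons x idx ih =>
    have h1 := h x (by simp)
    have h2 := ih (fun y hy => h y (by simp [hy]))
    simp only [List.flatMap_cons, List.length_append, List.length_cons]
    nlinarith

variable [Fintype V]

/-- Pieces through a fixed vertex use distinct edges at it. -/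
theorem card_thru {ι : Type} {R : SimpleGraph V} (F : Finset ι) (p : ι → Pc R)
    (h0 : ∀ i ∈ F, 0 < (p i).w.length)
    (hd : ∀ i ∈ F, ∀ j ∈ F, i ≠ j → List.Disjoint (p i).E (p j).E) (v : V)
    (hv : ∀ i ∈ F, v ∈ (p i).w.support) : F.card ≤ (nbr R v).card := by
  have key : ∀ i ∈ F, ∃ x, R.Adj v x ∧ s(v, x) ∈ (p i).w.edges :=
    fun i hi => exists_edge_at _ (h0 i hi) (hv i hi)
  have : Nonempty V := ⟨v⟩
  choose! x hx1 hx2 using key
  refine Finset.card_le_card_of_injOn x (fun i hi => ?_) ?_
  · exact mem_nbr.2 (hx1 i hi)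
  · intro i hi j hj hij
    by_contra hne
    refine hd i hi j hj hne (hx2 i hi) ?_
    rw [hij]
    exact hx2 j hj

omit [Fintype V] in
theorem Pc.ne_of_path {R : SimpleGraph V} (p : Pc R) (h1 : p.w.IsPath) (h2 : 0 < p.w.length) :
    p.a ≠ p.b := by
  obtain ⟨a, b, w⟩ := p
  simp only at h1 h2 ⊢
  rintro rfl
  have := SimpleGraph.Walk.isPath_iff_nil.1 h1
  rw [← SimpleGraph.Walk.length_eq_zero_iff] at this
  omega

/-- The load bound for a pairwise edge-disjoint list of paths. -/
theorem load_list {R : SimpleGraph V} (L : List (Pc R))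
    (hL : ∀ p ∈ L, p.w.IsPath ∧ 0 < p.w.length)
    (hd : L.Pairwise (fun p q => List.Disjoint p.E q.E)) (v : V) :
    L.countP (fun p => decide (p.a = v)) + L.countP (fun p => decide (p.b = v)) ≤
      (nbr R v).card := by
  rw [← card_filter_get L (fun p => p.a = v), ← card_filter_get L (fun p => p.b = v)]
  have hget : ∀ i : Fin L.length, L.get i ∈ L := fun i => List.get_mem _ _
  rw [← Finset.card_union_of_disjoint]
  · refine card_thru _ L.get (fun i _ => (hL _ (hget i)).2) ?_ v ?_
    · intro i _ j _ hij
      exact pairwise_get_of_symm (fun x y h => h.symm) hd hij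
    · intro i hi
      rcases Finset.mem_union.1 hi with h | h
      · have h' := (Finset.mem_filter.1 h).2
        rw [← h']
        exact SimpleGraph.Walk.start_mem_support _
      · have h' := (Finset.mem_filter.1 h).2
        rw [← h']
        exact SimpleGraph.Walk.end_mem_support _
  · refine Finset.disjoint_left.2 fun i hi hi' => ?_
    have h1 := (Finset.mem_filter.1 hi).2
    have h2 := (Finset.mem_filter.1 hi').2
    exact Pc.ne_of_path _ (hL _ (hget i)).1 (hL _ (hget i)).2 (h1.trans h2.symm)

/-- Unmatched pieces: at most `r² ((2 t₁ + 1) t₁ + 1)`. -/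
theorem unmatched_bound {R : SimpleGraph V} (home : V → ℕ) (r t₁ : ℕ) (ht₁ : 1 ≤ t₁)
    (hdeg : ∀ v, (nbr R v).card ≤ t₁) (U : List (Pc R))
    (hU : ∀ p ∈ U, 0 < p.w.length ∧ home p.a < r ∧ home p.b < r ∧ p.w.length ≤ t₁ + 1)
    (hdisj : U.Pairwise (fun p q => List.Disjoint p.E q.E))
    (hnm : U.Pairwise (fun p q => ¬ (home p.a = home q.a ∧ home p.b = home q.b ∧
      List.Disjoint p.w.support q.w.support))) :
    U.length ≤ r ^ 2 * ((2 * t₁ + 1) * t₁ + 1) := by
  have hget : ∀ i : Fin U.length, U.get i ∈ U := fun i => List.get_mem _ _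
  let f : Fin U.length → ℕ × ℕ := fun i => (home (U.get i).a, home (U.get i).b)
  have hmaps : ∀ i ∈ (univ : Finset (Fin U.length)), f i ∈ range r ×ˢ range r := by
    intro i _
    have := hU _ (hget i)
    simp only [f, Finset.mem_product, Finset.mem_range]
    exact ⟨this.2.1, this.2.2.1⟩
  have hfib : ∀ c ∈ range r ×ˢ range r,
      (univ.filter fun i => f i = c).card ≤ (2 * t₁ + 1) * t₁ + 1 := by
    intro c _
    by_cases hne : (univ.filter fun i => f i = c).Nonempty
    · obtain ⟨i₀, hi₀⟩ := hne
      have hi₀c := (Finset.mem_filter.1 hi₀).2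
      let T : Finset (Fin U.length) := (U.get i₀).w.support.toFinset.biUnion
        (fun v => univ.filter fun j => v ∈ (U.get j).w.support)
      have hsub : (univ.filter fun i => f i = c) ⊆ insert i₀ T := by
        intro j hj
        have hjc := (Finset.mem_filter.1 hj).2
        by_cases hji : j = i₀
        · simp [hji]
        · refine Finset.mem_insert_of_mem ?_
          have hnot := pairwise_get_of_symm (r := fun p q => ¬ (home p.a = home q.a ∧
              home p.b = home q.b ∧ List.Disjoint p.w.support q.w.support))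
            (fun x y h h' => h ⟨h'.1.symm, h'.2.1.symm, h'.2.2.symm⟩) hnm (Ne.symm hji)
          have hEq : f i₀ = f j := hi₀c.trans hjc.symm
          simp only [f, Prod.mk.injEq] at hEq
          have hnd : ¬ List.Disjoint (U.get i₀).w.support (U.get j).w.support :=
            fun hh => hnot ⟨hEq.1, hEq.2, hh⟩
          rw [List.disjoint_left] at hnd
          push Not at hnd
          obtain ⟨v, hv1, hv2⟩ := hnd
          simp only [T, Finset.mem_biUnion, List.mem_toFinset, Finset.mem_filter, Finset.mem_univ,
            true_and]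
          exact ⟨v, hv1, hv2⟩
      have hT : T.card ≤ (2 * t₁ + 1) * t₁ := by
        have h1 : T.card ≤ (U.get i₀).w.support.toFinset.card * t₁ := by
          refine Finset.card_biUnion_le_card_mul _ _ _ fun v _ => ?_
          refine le_trans (card_thru _ U.get (fun i _ => (hU _ (hget i)).1) ?_ v ?_) (hdeg v)
          · intro i _ j _ hij
            exact pairwise_get_of_symm (fun x y h => h.symm) hdisj hij
          · intro i hi
            exact (Finset.mem_filter.1 hi).2
        have h2 : (U.get i₀).w.support.toFinset.card ≤ 2 * t₁ + 1 := by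
          refine le_trans (List.toFinset_card_le _) ?_
          rw [SimpleGraph.Walk.length_support]
          have := (hU _ (hget i₀)).2.2.2
          omega
        exact le_trans h1 (Nat.mul_le_mul_right _ h2)
      calc (univ.filter fun i => f i = c).card ≤ (insert i₀ T).card := Finset.card_le_card hsub
        _ ≤ T.card + 1 := Finset.card_insert_le _ _
        _ ≤ _ := by omega
    · rw [Finset.not_nonempty_iff_eq_empty] at hne
      rw [hne]
      simp
  have := Finset.card_le_mul_card_image_of_maps_to hmaps _ hfib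
  simp only [Finset.card_univ, Fintype.card_fin, Finset.card_product, Finset.card_range] at this
  calc U.length ≤ _ := this
    _ = _ := by ring

omit [Fintype V] in
/-- Splitting the pieces into mono, pairs, and unmatched. -/
theorem exists_split {R : SimpleGraph V} (home : V → ℕ) (P : List (Pc R)) :
    ∃ (Lm : List (Pc R)) (Pairs : List (Pc R × Pc R)) (U : List (Pc R)),
      P.Perm (Lm ++ Pairs.map Prod.fst ++ Pairs.map Prod.snd ++ U) ∧
      (∀ p ∈ Lm, home p.a = home p.b) ∧
      (∀ q ∈ Pairs, home q.1.a = home q.2.a ∧ home q.1.b = home q.2.b ∧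
        List.Disjoint q.1.w.support q.2.w.support) ∧
      U.Pairwise (fun p q => ¬ (home p.a = home q.a ∧ home p.b = home q.b ∧
        List.Disjoint p.w.support q.w.support)) := by
  classical
  have hsplit := List.filter_append_perm (fun p : Pc R => decide (home p.a = home p.b)) P
  obtain ⟨Pairs, U, hD, hLn, hU⟩ := exists_matching
    (fun p q : Pc R => home p.a = home q.a ∧ home p.b = home q.b ∧
      List.Disjoint p.w.support q.w.support)
    _ (P.filter (fun p : Pc R => !decide (home p.a = home p.b))) le_rfl
  refine ⟨P.filter (fun p : Pc R => decide (home p.a = home p.b)), Pairs, U, ?_, ?_, hD, hU⟩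
  · refine hsplit.symm.trans ?_
    rw [List.append_assoc (List.filter _ _), List.append_assoc (List.filter _ _)]
    refine List.Perm.append_left _ ?_
    simpa [List.append_assoc] using hLn
  · intro p hp
    simpa using (List.mem_filter.1 hp).2

/-- The lists: singles and pieces obtained from the Lovász decomposition. -/
theorem exists_lists {R : SimpleGraph V} {W : Finset V} (t₁ : ℕ) (ht₁ : 1 ≤ t₁)
    (hW : ∀ x y, R.Adj x y → x ∈ W ∨ y ∈ W) :
    ∃ (S₀ : List (Sym2 V)) (P : List (Pc R)),
      (S₀ ++ P.flatMap Pc.E).Nodup ∧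
      (∀ p ∈ P, p.w.IsPath ∧ 0 < p.w.length ∧ p.a ∈ W ∧ p.b ∈ W ∧ p.w.length ≤ t₁ + 1) ∧
      (∀ e ∈ R.edgeSet, e ∈ S₀ ∨ e ∈ P.flatMap Pc.E) ∧
      (∀ e ∈ S₀ ++ P.flatMap Pc.E, e ∈ R.edgeSet) ∧
      S₀.length ≤ 2 * (univ.filter fun v => ∃ x, R.Adj v x).card ∧
      P.length * t₁ ≤ R.edgeFinset.card + t₁ * (univ.filter fun v => ∃ x, R.Adj v x).card := by
  obtain ⟨m, s, t, w, hw, hdisj, hcov, -, hm⟩ := exists_path_decomposition' R
  have key := fun i => path_pieces hW t₁ ht₁ (w i) (hw i).1
  choose l S₁ hl hS₁ hperm hlen using key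
  have hMperm := flatMap_perm_of_each (List.finRange m) (fun i => (w i).edges) S₁ l Pc.E
    (fun i _ => hperm i)
  have hMnodup : ((List.finRange m).flatMap (fun i => (w i).edges)).Nodup := by
    rw [List.nodup_flatMap]
    refine ⟨fun i _ => (hw i).1.isTrail.edges_nodup, ?_⟩
    refine (List.nodup_finRange m).pairwise_of_forall_ne fun i _ j _ hij => ?_
    exact hdisj i j hij
  have hMedge : ∀ e ∈ (List.finRange m).flatMap (fun i => (w i).edges), e ∈ R.edgeSet := by
    intro e he
    obtain ⟨i, -, hi⟩ := List.mem_flatMap.1 he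
    exact SimpleGraph.Walk.edges_subset_edgeSet _ hi
  refine ⟨(List.finRange m).flatMap S₁, (List.finRange m).flatMap l, hMperm.nodup_iff.1 hMnodup,
    ?_, ?_, ?_, ?_, ?_⟩
  · intro p hp
    obtain ⟨i, -, hi⟩ := List.mem_flatMap.1 hp
    exact hl i p hi
  · intro e he
    obtain ⟨i, hi⟩ := hcov e he
    have : e ∈ (List.finRange m).flatMap (fun i => (w i).edges) :=
      List.mem_flatMap.2 ⟨i, List.mem_finRange i, hi⟩
    exact List.mem_append.1 (hMperm.subset this)
  · intro e he
    exact hMedge e (hMperm.symm.subset he)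
  · have := length_flatMap_le (List.finRange m) S₁ 2 (fun i _ => hS₁ i)
    rw [List.length_finRange] at this
    omega
  · have h1 := length_flatMap_mul_le (List.finRange m) (fun i => (w i).edges) l t₁
      (fun i _ => by simpa [SimpleGraph.Walk.length_edges] using hlen i)
    rw [List.length_finRange] at h1
    have h2 : ((List.finRange m).flatMap (fun i => (w i).edges)).length ≤ R.edgeFinset.card := by
      rw [← List.toFinset_card_of_nodup hMnodup]
      refine Finset.card_le_card fun e he => ?_
      rw [SimpleGraph.mem_edgeFinset]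
      exact hMedge e (List.mem_toFinset.1 he)
    have h3 : m * t₁ ≤ t₁ * (univ.filter fun v => ∃ x, R.Adj v x).card := by
      rw [mul_comm]
      exact Nat.mul_le_mul_left _ hm
    omega

end Aux

variable {V : Type} [Fintype V]

/-- `R`: every edge has an end in `W`, maximal degree at most `t₁`, `home : V → ℕ` with values `< r`
on `W`.  Output: `pm` "mono" pieces (paths with both ends in `W`, equal homes), `pp` pairs of
vertex-disjoint pieces with `home (as i) = home (bs i)`, `home (at i) = home (bt i)`, and a set of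
single edges `S`; all of these are pairwise edge-disjoint and cover `E(R)`.

Proof: Lovász on `R`; end edges at ends not in `W` become singles (at most `2 |V(R)|`); cut at
vertices of `W` into pieces of length at most `2 t₁` (hence `pm + 2 pp ≤ |E(R)|/t₁ + |V(R)|`);
pieces with equal home ends are mono; other pieces are grouped by the unordered pair of homes of the
ends; in each group take a maximal matching of vertex-disjoint pieces; unmatched pieces pairwise
meet, a vertex lies on at most `t₁` pieces, so there are at most `(2 t₁ + 1) t₁ + 1` of them; they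
become singles.  An end at `v` uses an edge of `R` at `v`, whence the load bound. -/
theorem exists_pieces (R : SimpleGraph V) (W : Finset V) (home : V → ℕ) (r t₁ : ℕ)
    (ht₁ : 1 ≤ t₁)
    (hW : ∀ x y, R.Adj x y → x ∈ W ∨ y ∈ W)
    (hdeg : ∀ v, (nbr R v).card ≤ t₁)
    (hhome : ∀ w ∈ W, home w < r) :
    ∃ (pm : ℕ) (ms mt : Fin pm → V) (mw : ∀ i, R.Walk (ms i) (mt i))
      (pp : ℕ) (as at' bs bt : Fin pp → V)
      (aw : ∀ i, R.Walk (as i) (at' i)) (bw : ∀ i, R.Walk (bs i) (bt i))
      (S : Finset (Sym2 V)),
      -- mono pieces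
      (∀ i, (mw i).IsPath ∧ 0 < (mw i).length ∧ ms i ∈ W ∧ mt i ∈ W ∧ home (ms i) = home (mt i)) ∧
      -- pairs
      (∀ i, (aw i).IsPath ∧ 0 < (aw i).length ∧ (bw i).IsPath ∧ 0 < (bw i).length ∧
        as i ∈ W ∧ at' i ∈ W ∧ bs i ∈ W ∧ bt i ∈ W ∧
        home (as i) = home (bs i) ∧ home (at' i) = home (bt i) ∧
        List.Disjoint (aw i).support (bw i).support) ∧
      -- edge-disjointness: the list of all the pieces is pairwise edge-disjoint
      ((List.ofFn (fun i => (mw i).edges) ++ List.ofFn (fun i => (aw i).edges) ++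
          List.ofFn (fun i => (bw i).edges)).Pairwise List.Disjoint) ∧
      (∀ e ∈ S, (∀ i, e ∉ (mw i).edges) ∧ (∀ i, e ∉ (aw i).edges) ∧ (∀ i, e ∉ (bw i).edges)) ∧
      -- covering
      (∀ e ∈ R.edgeSet, e ∈ S ∨ (∃ i, e ∈ (mw i).edges) ∨ (∃ i, e ∈ (aw i).edges) ∨
        (∃ i, e ∈ (bw i).edges)) ∧
      (∀ e ∈ S, e ∈ R.edgeSet) ∧
      -- counts
      (pm + 2 * pp) * t₁ ≤ R.edgeFinset.card + t₁ * (univ.filter fun v => ∃ x, R.Adj v x).card ∧
      S.card ≤ 2 * (univ.filter fun v => ∃ x, R.Adj v x).card +
        r ^ 2 * (((2 * t₁ + 1) * t₁ + 1) * (2 * t₁)) ∧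
      -- load of ends
      (∀ v, (univ.filter fun i => ms i = v).card + (univ.filter fun i => mt i = v).card +
        (univ.filter fun i => as i = v).card + (univ.filter fun i => at' i = v).card +
        (univ.filter fun i => bs i = v).card + (univ.filter fun i => bt i = v).card
          ≤ (nbr R v).card) := by
  classical
  obtain ⟨S₀, P, hnod, hprop, hcov, hedge, hS₀, hPlen⟩ := exists_lists (R := R) (W := W) t₁ ht₁ hW
  obtain ⟨Lm, Pairs, U, hperm, hLm, hPairs, hU⟩ := exists_split home P
  have hnod' := ((hperm.flatMap_right Pc.E).append_left S₀).nodup_iff.1 hnod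
  rw [List.nodup_append'] at hnod'
  obtain ⟨h1, h2, h3⟩ := hnod'
  rw [List.flatMap_append, List.nodup_append'] at h2
  obtain ⟨h4, h5, h6⟩ := h2
  have h7 := (List.nodup_flatMap.1 h4).2
  have h8 := (List.nodup_flatMap.1 h5).2
  -- membership
  have hinP : ∀ p ∈ Lm ++ Pairs.map Prod.fst ++ Pairs.map Prod.snd ++ U, p ∈ P :=
    fun p hp => hperm.symm.subset hp
  have hmP : ∀ p ∈ Lm, p ∈ P := fun p hp => hinP p (by simp [hp])
  have haP : ∀ q ∈ Pairs, q.1 ∈ P := fun q hq => hinP q.1 (by
    refine List.mem_append_left _ (List.mem_append_left _ (List.mem_append_right _ ?_))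
    exact List.mem_map_of_mem hq)
  have hbP : ∀ q ∈ Pairs, q.2 ∈ P := fun q hq => hinP q.2 (by
    refine List.mem_append_left _ (List.mem_append_right _ ?_)
    exact List.mem_map_of_mem hq)
  have huP : ∀ p ∈ U, p ∈ P := fun p hp => hinP p (by simp [hp])
  have hmg : ∀ i : Fin Lm.length, Lm.get i ∈ Lm := fun i => List.get_mem _ _
  have hpg : ∀ i : Fin Pairs.length, Pairs.get i ∈ Pairs := fun i => List.get_mem _ _
  -- edges in `All`
  have hEm : ∀ (i : Fin Lm.length) (e : Sym2 V), e ∈ (Lm.get i).w.edges →
      e ∈ (Lm ++ Pairs.map Prod.fst ++ Pairs.map Prod.snd).flatMap Pc.E := fun i e he =>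
    List.mem_flatMap.2 ⟨_, List.mem_append_left _ (List.mem_append_left _ (hmg i)), he⟩
  have hEa : ∀ (i : Fin Pairs.length) (e : Sym2 V), e ∈ (Pairs.get i).1.w.edges →
      e ∈ (Lm ++ Pairs.map Prod.fst ++ Pairs.map Prod.snd).flatMap Pc.E := fun i e he =>
    List.mem_flatMap.2 ⟨_, List.mem_append_left _ (List.mem_append_right _
      (List.mem_map_of_mem (hpg i))), he⟩
  have hEb : ∀ (i : Fin Pairs.length) (e : Sym2 V), e ∈ (Pairs.get i).2.w.edges →
      e ∈ (Lm ++ Pairs.map Prod.fst ++ Pairs.map Prod.snd).flatMap Pc.E := fun i e he =>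
    List.mem_flatMap.2 ⟨_, List.mem_append_right _ (List.mem_map_of_mem (hpg i)), he⟩
  -- the singles avoid `All`
  have hSavoid : ∀ e ∈ S₀.toFinset ∪ (U.flatMap Pc.E).toFinset,
      e ∉ (Lm ++ Pairs.map Prod.fst ++ Pairs.map Prod.snd).flatMap Pc.E := by
    intro e he he'
    rcases Finset.mem_union.1 he with h | h
    · refine h3 (List.mem_toFinset.1 h) ?_
      rw [List.flatMap_append]
      exact List.mem_append_left _ he'
    · exact h6 he' (List.mem_toFinset.1 h)
  refine ⟨Lm.length, fun i => (Lm.get i).a, fun i => (Lm.get i).b, fun i => (Lm.get i).w,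
    Pairs.length, fun i => (Pairs.get i).1.a, fun i => (Pairs.get i).1.b,
    fun i => (Pairs.get i).2.a, fun i => (Pairs.get i).2.b,
    fun i => (Pairs.get i).1.w, fun i => (Pairs.get i).2.w,
    S₀.toFinset ∪ (U.flatMap Pc.E).toFinset, ?_, ?_, ?_, ?_, ?_, ?_, ?_, ?_, ?_⟩
  · intro i
    obtain ⟨a1, a2, a3, a4, -⟩ := hprop _ (hmP _ (hmg i))
    exact ⟨a1, a2, a3, a4, hLm _ (hmg i)⟩
  · intro i
    obtain ⟨a1, a2, a3, a4, -⟩ := hprop _ (haP _ (hpg i))
    obtain ⟨b1, b2, b3, b4, -⟩ := hprop _ (hbP _ (hpg i))
    obtain ⟨c1, c2, c3⟩ := hPairs _ (hpg i)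
    exact ⟨a1, a2, b1, b2, a3, a4, b3, b4, c1, c2, c3⟩
  · have e1 : List.ofFn (fun i : Fin Lm.length => (Lm.get i).w.edges) = Lm.map Pc.E :=
      ofFn_get_map Lm Pc.E
    have e2 : List.ofFn (fun i : Fin Pairs.length => (Pairs.get i).1.w.edges) =
        (Pairs.map Prod.fst).map Pc.E := by
      rw [List.map_map]
      exact ofFn_get_map Pairs (Pc.E ∘ Prod.fst)
    have e3 : List.ofFn (fun i : Fin Pairs.length => (Pairs.get i).2.w.edges) =
        (Pairs.map Prod.snd).map Pc.E := by
      rw [List.map_map]
      exact ofFn_get_map Pairs (Pc.E ∘ Prod.snd)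
    rw [e1, e2, e3, ← List.map_append, ← List.map_append, List.pairwise_map]
    exact h7
  · intro e he
    have := hSavoid e he
    exact ⟨fun i hi => this (hEm i e hi), fun i hi => this (hEa i e hi),
      fun i hi => this (hEb i e hi)⟩
  · intro e he
    rcases hcov e he with h | h
    · exact Or.inl (Finset.mem_union_left _ (List.mem_toFinset.2 h))
    · have h' := (hperm.flatMap_right Pc.E).subset h
      rw [List.flatMap_append] at h'
      rcases List.mem_append.1 h' with h' | h'
      · obtain ⟨p, hp, hpe⟩ := List.mem_flatMap.1 h'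
        rcases List.mem_append.1 hp with hp | hp
        · rcases List.mem_append.1 hp with hp | hp
          · obtain ⟨i, rfl⟩ := List.get_of_mem hp
            exact Or.inr (Or.inl ⟨i, hpe⟩)
          · obtain ⟨q, hq, rfl⟩ := List.mem_map.1 hp
            obtain ⟨i, rfl⟩ := List.get_of_mem hq
            exact Or.inr (Or.inr (Or.inl ⟨i, hpe⟩))
        · obtain ⟨q, hq, rfl⟩ := List.mem_map.1 hp
          obtain ⟨i, rfl⟩ := List.get_of_mem hq
          exact Or.inr (Or.inr (Or.inr ⟨i, hpe⟩))
      · exact Or.inl (Finset.mem_union_right _ (List.mem_toFinset.2 h'))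
  · intro e he
    rcases Finset.mem_union.1 he with h | h
    · exact hedge e (List.mem_append_left _ (List.mem_toFinset.1 h))
    · refine hedge e (List.mem_append_right _ ?_)
      have := List.mem_toFinset.1 h
      refine (hperm.flatMap_right Pc.E).symm.subset ?_
      rw [List.flatMap_append]
      exact List.mem_append_right _ this
  · have hl := hperm.length_eq
    simp only [List.length_append, List.length_map] at hl
    have : (Lm.length + 2 * Pairs.length) * t₁ ≤ P.length * t₁ :=
      Nat.mul_le_mul_right _ (by omega)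
    exact le_trans this hPlen
  · have hUb := unmatched_bound home r t₁ ht₁ hdeg U (fun p hp => by
      obtain ⟨_, a2, a3, a4, a5⟩ := hprop _ (huP p hp)
      exact ⟨a2, hhome _ a3, hhome _ a4, a5⟩) h8 hU
    have hlen : (U.flatMap Pc.E).length ≤ U.length * (2 * t₁) := by
      refine length_flatMap_le U Pc.E _ fun p hp => ?_
      have := (hprop _ (huP p hp)).2.2.2.2
      show p.w.edges.length ≤ _
      rw [SimpleGraph.Walk.length_edges]
      omega
    have c1 : (S₀.toFinset ∪ (U.flatMap Pc.E).toFinset).card ≤ S₀.length + (U.flatMap Pc.E).length :=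
      le_trans (Finset.card_union_le _ _)
        (Nat.add_le_add (List.toFinset_card_le _) (List.toFinset_card_le _))
    have c2 : U.length * (2 * t₁) ≤ r ^ 2 * (((2 * t₁ + 1) * t₁ + 1) * (2 * t₁)) := by
      calc U.length * (2 * t₁) ≤ (r ^ 2 * ((2 * t₁ + 1) * t₁ + 1)) * (2 * t₁) :=
            Nat.mul_le_mul_right _ hUb
        _ = _ := by ring
    omega
  · intro v
    have hL := load_list (Lm ++ Pairs.map Prod.fst ++ Pairs.map Prod.snd)
      (fun p hp => by
        have := hprop _ (hinP p (List.mem_append_left _ hp))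
        exact ⟨this.1, this.2.1⟩) h7 v
    simp only [List.countP_append, List.countP_map] at hL
    have q1 := card_filter_get Lm (fun p => p.a = v)
    have q2 := card_filter_get Lm (fun p => p.b = v)
    have q3 := card_filter_get Pairs (fun p => p.1.a = v)
    have q4 := card_filter_get Pairs (fun p => p.1.b = v)
    have q5 := card_filter_get Pairs (fun p => p.2.a = v)
    have q6 := card_filter_get Pairs (fun p => p.2.b = v)
    have r3 : List.countP ((fun p : Pc R => decide (p.a = v)) ∘ Prod.fst) Pairs =
        List.countP (fun x : Pc R × Pc R => decide (x.1.a = v)) Pairs := rfl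
    have r4 : List.countP ((fun p : Pc R => decide (p.b = v)) ∘ Prod.fst) Pairs =
        List.countP (fun x : Pc R × Pc R => decide (x.1.b = v)) Pairs := rfl
    have r5 : List.countP ((fun p : Pc R => decide (p.a = v)) ∘ Prod.snd) Pairs =
        List.countP (fun x : Pc R × Pc R => decide (x.2.a = v)) Pairs := rfl
    have r6 : List.countP ((fun p : Pc R => decide (p.b = v)) ∘ Prod.snd) Pairs =
        List.countP (fun x : Pc R × Pc R => decide (x.2.b = v)) Pairs := rfl
    rw [r3, r4, r5, r6] at hL
    simp only [] at q1 q2 q3 q4 q5 q6 ⊢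
    omega

end Crest.Agent.EG
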