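import Crest.Agent.EG.Items
import Crest.Agent.EG.Pieces

/-!
# From the light graph to items (S0064 blueprint Step E, R-phase)

`r_plan`: the light graph `R`, pieces from `exists_pieces`, ends get distinct pending links.
-/

set_option autoImplicit false

namespace Crest.Agent.EG

open Finset
open scoped Classical

variable {V L : Type} [Fintype V] [Fintype L]

omit [Fintype V] in
/-- Numbering lemma: for a finite set of ends with fibres of size `≤ t` there is a map to `Fin t`
injective on fibres. -/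
private theorem exists_numberingR {E : Type} [Fintype E] (pos : E → V) (t : ℕ)
    (h : ∀ v, (univ.filter fun e => pos e = v).card ≤ t) :
    ∃ num : E → Fin t, ∀ e e', pos e = pos e' → num e = num e' → e = e' := by
  have hemb : ∀ v, Nonempty ({e // pos e = v} ↪ Fin t) := fun v => by
    apply Function.Embedding.nonempty_of_card_le
    simp only [Fintype.card_fin, Fintype.card_subtype]
    exact h v
  let f : ∀ v, {e // pos e = v} ↪ Fin t := fun v => (hemb v).some
  refine ⟨fun e => f (pos e) ⟨e, rfl⟩, ?_⟩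
  intro e e' hpos hnum
  have key : ∀ v (hv : pos e' = v), f v ⟨e', hv⟩ = f (pos e') ⟨e', rfl⟩ := by
    rintro _ rfl; rfl
  have h2 : f (pos e) ⟨e, rfl⟩ = f (pos e) ⟨e', hpos.symm⟩ := by
    rw [key (pos e) hpos.symm]; exact hnum
  have := (f (pos e)).injective h2
  exact congrArg Subtype.val this

private theorem card_filter_elim {α β X : Type} [Fintype α] [Fintype β] (f : α → X) (g : β → X)
    (v : X) :
    (univ.filter fun e : α ⊕ β => Sum.elim f g e = v).card =
      (univ.filter fun a => f a = v).card + (univ.filter fun b => g b = v).card := by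
  rw [Finset.card_filter, Fintype.sum_sum_type, Finset.card_filter, Finset.card_filter]
  rfl

/-- The walk `w` in `R`, seen in `G`, with its ends renamed. -/
private def mkWalk {G R : SimpleGraph V} (hR : R ≤ G) {a b a' b' : V} (w : R.Walk a b)
    (ha : a' = a) (hb : b' = b) : G.Walk a' b' :=
  (w.mapLe hR).copy ha.symm hb.symm

omit [Fintype V] in
private theorem mkWalk_isPath {G R : SimpleGraph V} (hR : R ≤ G) {a b a' b' : V} (w : R.Walk a b)
    (ha : a' = a) (hb : b' = b) : (mkWalk hR w ha hb).IsPath ↔ w.IsPath := by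
  subst ha hb
  simp [mkWalk, SimpleGraph.Walk.isPath_mapLe]

omit [Fintype V] in
private theorem mkWalk_edges {G R : SimpleGraph V} (hR : R ≤ G) {a b a' b' : V} (w : R.Walk a b)
    (ha : a' = a) (hb : b' = b) : (mkWalk hR w ha hb).edges = w.edges := by
  subst ha hb
  simp [mkWalk]

omit [Fintype V] in
private theorem mkWalk_support {G R : SimpleGraph V} (hR : R ≤ G) {a b a' b' : V} (w : R.Walk a b)
    (ha : a' = a) (hb : b' = b) : (mkWalk hR w ha hb).support = w.support := by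
  subst ha hb
  simp [mkWalk]

omit [Fintype V] in
private theorem mkWalk_length {G R : SimpleGraph V} (hR : R ≤ G) {a b a' b' : V} (w : R.Walk a b)
    (ha : a' = a) (hb : b' = b) : (mkWalk hR w ha hb).length = w.length := by
  subst ha hb
  simp [mkWalk]

private abbrev EndT (pm pp : ℕ) := Fin pm ⊕ Fin pm ⊕ Fin pp ⊕ Fin pp ⊕ Fin pp ⊕ Fin pp

/-- `R`-phase items.  Apply `exists_pieces`; an end at `w` consumes an edge of `R` at `w`, at most
`t₁` of them, so the ends at `w` can be numbered injectively by `Fin t₁`; the link of the end number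
`k` at `w` is `pl w k`.  Walks: `(mw i).mapLe hR` copied along `root (pl w k) = w`. -/
theorem r_plan (G R : SimpleGraph V) (hR : R ≤ G) (W' : Finset V) (hm : V → ℕ) (r t₁ : ℕ)
    (ht₁ : 1 ≤ t₁) (hW : ∀ x y, R.Adj x y → x ∈ W' ∨ y ∈ W')
    (hdeg : ∀ v, (nbr R v).card ≤ t₁) (hhome : ∀ w ∈ W', hm w < r)
    (root tip : L → V) (col : V → ℕ) (pl : V → Fin t₁ → L)
    (hroot : ∀ w ∈ W', ∀ k, root (pl w k) = w)
    (hcol : ∀ w ∈ W', ∀ k, col (tip (pl w k)) = hm w)
    (hinj : ∀ w ∈ W', ∀ w' ∈ W', ∀ k k', pl w k = pl w' k' → w = w' ∧ k = k') :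
    ∃ (mono : List (MonoItem G root)) (pair : List (PairItem G root)) (S : Finset (Sym2 V)),
      (∀ it ∈ mono, it.w.IsPath ∧ 0 < it.w.length ∧ ∀ e ∈ it.w.edges, e ∈ R.edgeSet) ∧
      (∀ it ∈ pair, it.aw.IsPath ∧ 0 < it.aw.length ∧ (∀ e ∈ it.aw.edges, e ∈ R.edgeSet) ∧
        it.bw.IsPath ∧ 0 < it.bw.length ∧ (∀ e ∈ it.bw.edges, e ∈ R.edgeSet) ∧
        List.Disjoint it.aw.support it.bw.support) ∧
      (∀ it ∈ mono, col (tip it.l) = col (tip it.l')) ∧
      (∀ it ∈ pair, col (tip it.a₁) = col (tip it.b₁) ∧ col (tip it.a₂) = col (tip it.b₂)) ∧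
      (usedLinks mono pair).Nodup ∧
      (∀ l ∈ usedLinks mono pair, ∃ w ∈ W', ∃ k, l = pl w k) ∧
      (itemEdgeLists mono pair).Pairwise List.Disjoint ∧
      (∀ e ∈ S, e ∈ R.edgeSet ∧ ∀ l ∈ itemEdgeLists mono pair, e ∉ l) ∧
      (∀ e ∈ R.edgeSet, e ∈ S ∨ ∃ l ∈ itemEdgeLists mono pair, e ∈ l) ∧
      (mono.length + 2 * pair.length) * t₁ ≤
        R.edgeFinset.card + t₁ * (univ.filter fun v => ∃ x, R.Adj v x).card ∧
      S.card ≤ 2 * (univ.filter fun v => ∃ x, R.Adj v x).card +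
        r ^ 2 * (((2 * t₁ + 1) * t₁ + 1) * (2 * t₁)) := by
  obtain ⟨pm, ms, mt, mw, pp, as, at', bs, bt, aw, bw, S, hmono, hpair, hdisj, hSdisj, hcov, hSR,
    hcount, hScard, hload⟩ := exists_pieces R W' hm r t₁ ht₁ hW hdeg hhome
  -- the type of ends
  let pos : EndT pm pp → V := Sum.elim ms (Sum.elim mt (Sum.elim as (Sum.elim at' (Sum.elim bs bt))))
  obtain ⟨num, hnum⟩ : ∃ num : EndT pm pp → Fin t₁, ∀ e e', pos e = pos e' → num e = num e' → e = e' := by
    apply exists_numberingR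
    intro v
    refine le_trans ?_ (le_trans (hload v) (hdeg v))
    simp only [pos]
    rw [card_filter_elim, card_filter_elim, card_filter_elim, card_filter_elim, card_filter_elim]
    omega
  have hposW : ∀ e, pos e ∈ W' := by
    rintro (i | i | i | i | i | i)
    · exact (hmono i).2.2.1
    · exact (hmono i).2.2.2.1
    · exact (hpair i).2.2.2.2.1
    · exact (hpair i).2.2.2.2.2.1
    · exact (hpair i).2.2.2.2.2.2.1
    · exact (hpair i).2.2.2.2.2.2.2.1
  let lk : EndT pm pp → L := fun e => pl (pos e) (num e)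
  have hlk : ∀ e e', lk e = lk e' → e = e' := by
    intro e e' h
    obtain ⟨h1, h2⟩ := hinj _ (hposW e) _ (hposW e') _ _ h
    exact hnum e e' h1 h2
  have hlkroot : ∀ e, root (lk e) = pos e := fun e => hroot _ (hposW e) _
  have hlkcol : ∀ e, col (tip (lk e)) = hm (pos e) := fun e => hcol _ (hposW e) _
  -- the mono items
  let mono : List (MonoItem G root) := List.ofFn fun i : Fin pm =>
    { l := lk (Sum.inl i)
      l' := lk (Sum.inr (Sum.inl i))
      w := mkWalk hR (mw i) (hlkroot (Sum.inl i)) (hlkroot (Sum.inr (Sum.inl i))) }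
  let pair : List (PairItem G root) := List.ofFn fun j : Fin pp =>
    { a₁ := lk (Sum.inr (Sum.inr (Sum.inl j)))
      a₂ := lk (Sum.inr (Sum.inr (Sum.inr (Sum.inl j))))
      b₁ := lk (Sum.inr (Sum.inr (Sum.inr (Sum.inr (Sum.inl j)))))
      b₂ := lk (Sum.inr (Sum.inr (Sum.inr (Sum.inr (Sum.inr j)))))
      aw := mkWalk hR (aw j) (hlkroot (Sum.inr (Sum.inr (Sum.inl j))))
        (hlkroot (Sum.inr (Sum.inr (Sum.inr (Sum.inl j)))))
      bw := mkWalk hR (bw j) (hlkroot (Sum.inr (Sum.inr (Sum.inr (Sum.inr (Sum.inl j))))))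
        (hlkroot (Sum.inr (Sum.inr (Sum.inr (Sum.inr (Sum.inr j)))))) }
  have hedgesList : itemEdgeLists mono pair = List.ofFn (fun i => (mw i).edges) ++
      List.ofFn (fun i => (aw i).edges) ++ List.ofFn (fun i => (bw i).edges) := by
    have h1 : mono.map (fun it => it.w.edges) = List.ofFn (fun i => (mw i).edges) := by
      simp only [mono]
      rw [List.map_ofFn]
      exact congrArg List.ofFn (funext fun i => mkWalk_edges hR (mw i) (hlkroot (Sum.inl i)) (hlkroot (Sum.inr (Sum.inl i))))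
    have h2 : pair.map (fun it => it.aw.edges) = List.ofFn (fun i => (aw i).edges) := by
      simp only [pair]
      rw [List.map_ofFn]
      exact congrArg List.ofFn (funext fun i => mkWalk_edges hR (aw i) (hlkroot (Sum.inr (Sum.inr (Sum.inl i))))
        (hlkroot (Sum.inr (Sum.inr (Sum.inr (Sum.inl i))))))
    have h3 : pair.map (fun it => it.bw.edges) = List.ofFn (fun i => (bw i).edges) := by
      simp only [pair]
      rw [List.map_ofFn]
      exact congrArg List.ofFn (funext fun i => mkWalk_edges hR (bw i) (hlkroot (Sum.inr (Sum.inr (Sum.inr (Sum.inr (Sum.inl i))))))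
        (hlkroot (Sum.inr (Sum.inr (Sum.inr (Sum.inr (Sum.inr i)))))))
    simp only [itemEdgeLists, h1, h2, h3]
  have hmemEdges : ∀ (e : Sym2 V), (∃ l ∈ itemEdgeLists mono pair, e ∈ l) ↔
      ((∃ i, e ∈ (mw i).edges) ∨ (∃ i, e ∈ (aw i).edges) ∨ (∃ i, e ∈ (bw i).edges)) := by
    intro e
    rw [hedgesList]
    simp only [List.mem_append, List.mem_ofFn]
    constructor
    · rintro ⟨l, ((⟨i, rfl⟩ | ⟨i, rfl⟩) | ⟨i, rfl⟩), he⟩
      · exact Or.inl ⟨i, he⟩
      · exact Or.inr (Or.inl ⟨i, he⟩)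
      · exact Or.inr (Or.inr ⟨i, he⟩)
    · rintro (⟨i, he⟩ | ⟨i, he⟩ | ⟨i, he⟩)
      · exact ⟨_, Or.inl (Or.inl ⟨i, rfl⟩), he⟩
      · exact ⟨_, Or.inl (Or.inr ⟨i, rfl⟩), he⟩
      · exact ⟨_, Or.inr ⟨i, rfl⟩, he⟩
  have hedgeR : ∀ {a b : V} (w : R.Walk a b), ∀ e ∈ w.edges, e ∈ R.edgeSet :=
    fun w e he => w.edges_subset_edgeSet he
  refine ⟨mono, pair, S, ?_, ?_, ?_, ?_, ?_, ?_, ?_, ?_, ?_, ?_, ?_⟩
  · intro it hit
    obtain ⟨i, rfl⟩ := List.mem_ofFn.1 hit
    have e1 := mkWalk_edges hR (mw i) (hlkroot (Sum.inl i)) (hlkroot (Sum.inr (Sum.inl i)))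
    have e2 := mkWalk_isPath hR (mw i) (hlkroot (Sum.inl i)) (hlkroot (Sum.inr (Sum.inl i)))
    have e3 := mkWalk_length hR (mw i) (hlkroot (Sum.inl i)) (hlkroot (Sum.inr (Sum.inl i)))
    refine ⟨e2.2 (hmono i).1, lt_of_lt_of_eq (hmono i).2.1 e3.symm, ?_⟩
    intro e he
    exact hedgeR _ e (e1 ▸ he : e ∈ (mw i).edges)
  · intro it hit
    obtain ⟨j, rfl⟩ := List.mem_ofFn.1 hit
    obtain ⟨h1, h2, h3, h4, -, -, -, -, -, -, h5⟩ := hpair j
    have e1 := mkWalk_edges hR (aw j) (hlkroot (Sum.inr (Sum.inr (Sum.inl j))))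
        (hlkroot (Sum.inr (Sum.inr (Sum.inr (Sum.inl j)))))
    have e2 := mkWalk_isPath hR (aw j) (hlkroot (Sum.inr (Sum.inr (Sum.inl j))))
        (hlkroot (Sum.inr (Sum.inr (Sum.inr (Sum.inl j)))))
    have e3 := mkWalk_length hR (aw j) (hlkroot (Sum.inr (Sum.inr (Sum.inl j))))
        (hlkroot (Sum.inr (Sum.inr (Sum.inr (Sum.inl j)))))
    have e4 := mkWalk_support hR (aw j) (hlkroot (Sum.inr (Sum.inr (Sum.inl j))))
        (hlkroot (Sum.inr (Sum.inr (Sum.inr (Sum.inl j)))))
    have f1 := mkWalk_edges hR (bw j) (hlkroot (Sum.inr (Sum.inr (Sum.inr (Sum.inr (Sum.inl j))))))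
        (hlkroot (Sum.inr (Sum.inr (Sum.inr (Sum.inr (Sum.inr j))))))
    have f2 := mkWalk_isPath hR (bw j) (hlkroot (Sum.inr (Sum.inr (Sum.inr (Sum.inr (Sum.inl j))))))
        (hlkroot (Sum.inr (Sum.inr (Sum.inr (Sum.inr (Sum.inr j))))))
    have f3 := mkWalk_length hR (bw j) (hlkroot (Sum.inr (Sum.inr (Sum.inr (Sum.inr (Sum.inl j))))))
        (hlkroot (Sum.inr (Sum.inr (Sum.inr (Sum.inr (Sum.inr j))))))
    have f4 := mkWalk_support hR (bw j) (hlkroot (Sum.inr (Sum.inr (Sum.inr (Sum.inr (Sum.inl j))))))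
        (hlkroot (Sum.inr (Sum.inr (Sum.inr (Sum.inr (Sum.inr j))))))
    refine ⟨e2.2 h1, lt_of_lt_of_eq h2 e3.symm, ?_, f2.2 h3, lt_of_lt_of_eq h4 f3.symm, ?_, ?_⟩
    · intro e he
      exact hedgeR _ e (e1 ▸ he : e ∈ (aw j).edges)
    · intro e he
      exact hedgeR _ e (f1 ▸ he : e ∈ (bw j).edges)
    · have h6 : List.Disjoint (mkWalk hR (aw j) (hlkroot (Sum.inr (Sum.inr (Sum.inl j))))
        (hlkroot (Sum.inr (Sum.inr (Sum.inr (Sum.inl j)))))).support
          (mkWalk hR (bw j) (hlkroot (Sum.inr (Sum.inr (Sum.inr (Sum.inr (Sum.inl j))))))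
        (hlkroot (Sum.inr (Sum.inr (Sum.inr (Sum.inr (Sum.inr j))))))).support := by
        rw [e4, f4]; exact h5
      exact h6
  · intro it hit
    obtain ⟨i, rfl⟩ := List.mem_ofFn.1 hit
    show col (tip (lk (Sum.inl i))) = col (tip (lk (Sum.inr (Sum.inl i))))
    rw [hlkcol, hlkcol]
    exact (hmono i).2.2.2.2
  · intro it hit
    obtain ⟨j, rfl⟩ := List.mem_ofFn.1 hit
    constructor
    · show col (tip (lk _)) = col (tip (lk _))
      rw [hlkcol, hlkcol]
      exact (hpair j).2.2.2.2.2.2.2.2.1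
    · show col (tip (lk _)) = col (tip (lk _))
      rw [hlkcol, hlkcol]
      exact (hpair j).2.2.2.2.2.2.2.2.2.1
  · -- nodup
    have hlk' : ∀ e e', lk e = lk e' ↔ e = e' := fun e e' => ⟨hlk e e', fun h => h ▸ rfl⟩
    simp only [usedLinks]
    rw [List.nodup_append]
    refine ⟨?_, ?_, ?_⟩
    · rw [List.nodup_flatMap]
      refine ⟨?_, ?_⟩
      · intro it hit
        obtain ⟨i, rfl⟩ := List.mem_ofFn.1 hit
        show [lk _, lk _].Nodup
        simp [hlk']
      · rw [List.pairwise_ofFn]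
        intro i j hij
        show List.Disjoint [lk _, lk _] [lk _, lk _]
        simp [hlk', hij.ne']
    · rw [List.nodup_flatMap]
      refine ⟨?_, ?_⟩
      · intro it hit
        obtain ⟨i, rfl⟩ := List.mem_ofFn.1 hit
        show [lk _, lk _, lk _, lk _].Nodup
        simp [hlk']
      · rw [List.pairwise_ofFn]
        intro i j hij
        show List.Disjoint [lk _, lk _, lk _, lk _] [lk _, lk _, lk _, lk _]
        simp [hlk', hij.ne']
    · intro a ha b hb hab
      subst hab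
      obtain ⟨it, hit, ha⟩ := List.mem_flatMap.1 ha
      obtain ⟨it', hit', hb⟩ := List.mem_flatMap.1 hb
      obtain ⟨i, rfl⟩ := List.mem_ofFn.1 hit
      obtain ⟨j, rfl⟩ := List.mem_ofFn.1 hit'
      simp only [List.mem_cons, List.not_mem_nil, or_false] at ha hb
      rcases ha with rfl | rfl <;> rcases hb with h | h | h | h <;>
        · have := hlk _ _ h
          simp at this
  · -- which links
    intro l hl
    simp only [usedLinks, List.mem_append, List.mem_flatMap] at hl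
    have : ∃ e, l = lk e := by
      rcases hl with ⟨it, hit, ha⟩ | ⟨it, hit, ha⟩
      · obtain ⟨i, rfl⟩ := List.mem_ofFn.1 hit
        simp only [List.mem_cons, List.not_mem_nil, or_false] at ha
        rcases ha with rfl | rfl
        · exact ⟨_, rfl⟩
        · exact ⟨_, rfl⟩
      · obtain ⟨i, rfl⟩ := List.mem_ofFn.1 hit
        simp only [List.mem_cons, List.not_mem_nil, or_false] at ha
        rcases ha with rfl | rfl | rfl | rfl <;> exact ⟨_, rfl⟩
    obtain ⟨e, rfl⟩ := this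
    exact ⟨pos e, hposW e, num e, rfl⟩
  · rw [hedgesList]
    exact hdisj
  · intro e he
    refine ⟨hSR e he, ?_⟩
    intro l hl hel
    obtain ⟨h1, h2, h3⟩ := hSdisj e he
    rcases (hmemEdges e).1 ⟨l, hl, hel⟩ with ⟨i, h⟩ | ⟨i, h⟩ | ⟨i, h⟩
    · exact h1 i h
    · exact h2 i h
    · exact h3 i h
  · intro e he
    rcases hcov e he with h | h
    · exact Or.inl h
    · exact Or.inr ((hmemEdges e).2 h)
  · simpa [mono, pair] using hcount
  · exact hScard

end Crest.Agent.EG
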