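import Crest.Agent.EG.Items
import Crest.Agent.EG.Pieces
import Crest.Agent.EG.Hall
import Crest.Agent.EG.PlanR

/-!
# From graphs to items (S0064 blueprint Step E)

`r_plan` (in `EG/PlanR.lean`): the light graph `R`, pieces from `exists_pieces`, ends get distinct
pending links.
`in_plan`: the heavy class graphs `H j`, Lovász in each of them, ends get distinct links.
-/

set_option autoImplicit false

namespace Crest.Agent.EG

open Finset
open scoped Classical

variable {V L : Type} [Fintype V] [Fintype L]

/-- General numbering lemma: if every fibre of `π : E → W` has at most `k` elements, there is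
`num : E → Fin k` injective on the fibres of `π`. -/
theorem exists_numbering {E W : Type} [Fintype E] (π : E → W) (k : ℕ)
    (h : ∀ v, (univ.filter fun e => π e = v).card ≤ k) :
    ∃ num : E → Fin k, ∀ e e', π e = π e' → num e = num e' → e = e' := by
  have hex : ∀ v, ∃ f : {e : E // π e = v} → Fin k, Function.Injective f := by
    intro v
    have hc : Fintype.card {e // π e = v} ≤ Fintype.card (Fin k) := by
      rw [Fintype.card_subtype, Fintype.card_fin]
      exact h v
    obtain ⟨f⟩ := Function.Embedding.nonempty_of_card_le hc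
    exact ⟨f, f.injective⟩
  choose f hf using hex
  refine ⟨fun e => f (π e) ⟨e, rfl⟩, ?_⟩
  intro e e' hp hn
  have key : ∀ v (hv : π e' = v), f v ⟨e', hv⟩ = f (π e') ⟨e', rfl⟩ := by
    intro v hv
    subst hv
    rfl
  have h2 : f (π e) ⟨e, rfl⟩ = f (π e) ⟨e', hp.symm⟩ := by
    rw [key (π e) hp.symm]
    exact hn
  have h3 := hf (π e) h2
  simpa using h3

omit [Fintype V] [Fintype L] in
theorem exists_adj_of_length_pos {H : SimpleGraph V} {u v : V} (p : H.Walk u v)
    (h : 0 < p.length) : ∃ y, H.Adj u y := by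
  cases p with
  | nil => simp at h
  | cons a q => exact ⟨_, a⟩

omit [Fintype V] [Fintype L] in
theorem exists_adj_of_length_pos' {H : SimpleGraph V} {u v : V} (p : H.Walk u v)
    (h : 0 < p.length) : ∃ y, H.Adj v y :=
  exists_adj_of_length_pos p.reverse (by simpa using h)

omit [Fintype V] [Fintype L] in
theorem mem_usedLinks_nil {G : SimpleGraph V} {root : L → V} (mono : List (MonoItem G root)) (l : L) :
    l ∈ usedLinks mono ([] : List (PairItem G root)) ↔ ∃ it ∈ mono, it.l = l ∨ it.l' = l := by
  simp [usedLinks, eq_comm]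

omit [Fintype L] in
/-- One graph of `in_plan`. -/
theorem plan_one (G H : SimpleGraph V) (hH : H ≤ G) (root : L → V) (il : V → Fin 2 → L)
    (hroot : ∀ x, (∃ y, H.Adj x y) → ∀ c, root (il x c) = x)
    (hinj : ∀ x x', (∃ y, H.Adj x y) → (∃ y, H.Adj x' y) → ∀ c c', il x c = il x' c' →
      x = x' ∧ c = c') :
    ∃ mono : List (MonoItem G root),
      (∀ it ∈ mono, it.w.IsPath ∧ 0 < it.w.length ∧ (∀ e ∈ it.w.edges, e ∈ H.edgeSet) ∧
        (∃ x, (∃ y, H.Adj x y) ∧ ∃ c, it.l = il x c) ∧
        (∃ x, (∃ y, H.Adj x y) ∧ ∃ c, it.l' = il x c)) ∧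
      (usedLinks mono ([] : List (PairItem G root))).Nodup ∧
      (itemEdgeLists mono ([] : List (PairItem G root))).Pairwise List.Disjoint ∧
      (∀ e ∈ H.edgeSet, ∃ l ∈ itemEdgeLists mono ([] : List (PairItem G root)), e ∈ l) ∧
      mono.length ≤ (univ.filter fun v => ∃ x, H.Adj v x).card := by
  obtain ⟨m, s, t, w, hw, hd, hc, hl, hm⟩ := exists_path_decomposition' H
  let π : Fin m ⊕ Fin m → V := Sum.elim s t
  have hπ : ∀ v, (univ.filter fun e => π e = v).card ≤ 2 := by
    intro v
    have := hl v
    rw [Finset.card_filter, Finset.card_filter] at this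
    rw [Finset.card_filter, Fintype.sum_sum_type]
    exact this
  obtain ⟨num, hnum⟩ := exists_numbering π 2 hπ
  have hs : ∀ i, ∃ y, H.Adj (s i) y := fun i => exists_adj_of_length_pos (w i) (hw i).2
  have ht : ∀ i, ∃ y, H.Adj (t i) y := fun i => exists_adj_of_length_pos' (w i) (hw i).2
  have hπa : ∀ e, ∃ y, H.Adj (π e) y := by
    rintro (i | i)
    · exact hs i
    · exact ht i
  let link : Fin m ⊕ Fin m → L := fun e => il (π e) (num e)
  have hlink : Function.Injective link := by
    intro e e' h
    obtain ⟨h1, h2⟩ := hinj _ _ (hπa e) (hπa e') _ _ h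
    exact hnum e e' h1 h2
  let item : Fin m → MonoItem G root := fun i =>
    { l := link (Sum.inl i)
      l' := link (Sum.inr i)
      w := ((w i).mapLe hH).copy (hroot _ (hs i) _).symm (hroot _ (ht i) _).symm }
  have hitem_edges : ∀ i, (item i).w.edges = (w i).edges := by
    intro i
    exact (SimpleGraph.Walk.edges_copy _ _ _).trans (SimpleGraph.Walk.edges_mapLe_eq_edges _ _)
  refine ⟨List.ofFn item, ?_, ?_, ?_, ?_, ?_⟩
  · intro it hit
    obtain ⟨i, rfl⟩ := (List.mem_ofFn' _ _).1 hit
    refine ⟨?_, ?_, ?_, ⟨s i, hs i, _, rfl⟩, ⟨t i, ht i, _, rfl⟩⟩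
    · exact (SimpleGraph.Walk.isPath_copy _ _ _).2 ((SimpleGraph.Walk.isPath_mapLe hH).2 (hw i).1)
    · have : (item i).w.length = (w i).length :=
        (SimpleGraph.Walk.length_copy _ _ _).trans (SimpleGraph.Walk.length_mapLe _ _)
      rw [this]
      exact (hw i).2
    · intro e he
      rw [hitem_edges] at he
      exact (w i).edges_subset_edgeSet he
  · have : usedLinks (List.ofFn item) ([] : List (PairItem G root)) =
        (List.ofFn item).flatMap (fun it => [it.l, it.l']) := by simp [usedLinks]
    rw [this, List.nodup_flatMap]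
    constructor
    · intro it hit
      obtain ⟨i, rfl⟩ := (List.mem_ofFn' _ _).1 hit
      simp only [List.nodup_cons, List.mem_singleton, List.not_mem_nil, not_false_eq_true,
        List.nodup_nil, and_self, and_true]
      intro h
      simpa using hlink h
    · rw [List.pairwise_ofFn]
      intro i j hij
      have hne : i ≠ j := hij.ne
      intro x hx hy
      simp only [List.mem_cons, List.not_mem_nil, or_false] at hx hy
      rcases hx with rfl | rfl <;> rcases hy with h | h
      · exact hne (by simpa using hlink h)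
      · simpa using hlink h
      · simpa using hlink h
      · exact hne (by simpa using hlink h)
  · have : itemEdgeLists (List.ofFn item) ([] : List (PairItem G root)) =
        List.ofFn (fun i => (item i).w.edges) := by simp [itemEdgeLists, List.map_ofFn, Function.comp_def]
    rw [this, List.pairwise_ofFn]
    intro i j hij
    rw [hitem_edges, hitem_edges]
    exact hd i j hij.ne
  · intro e he
    obtain ⟨i, hi⟩ := hc e he
    refine ⟨(item i).w.edges, ?_, ?_⟩
    · simp only [itemEdgeLists, List.map_nil, List.append_nil]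
      exact List.mem_map.2 ⟨item i, (List.mem_ofFn' _ _).2 ⟨i, rfl⟩, rfl⟩
    · rw [hitem_edges]
      exact hi
  · simpa using hm

/-- Heavy-class items.  Apply `exists_path_decomposition'` to each `H j`, `j < r`; each vertex is an end
of at most two paths of `H j`, so the ends at `x` in `H j` can be numbered injectively by `Fin 2`; the
link of the end number `c` at `x` in `H j` is `il j x c`. -/
theorem in_plan (G : SimpleGraph V) (r : ℕ) (H : ℕ → SimpleGraph V) (hH : ∀ j, H j ≤ G)
    (hdisj : ∀ j j', j ≠ j' → Disjoint (H j).edgeSet (H j').edgeSet)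
    (root tip : L → V) (col : V → ℕ) (il : ℕ → V → Fin 2 → L)
    (hroot : ∀ j < r, ∀ x, (∃ y, (H j).Adj x y) → ∀ c, root (il j x c) = x)
    (hcol : ∀ j < r, ∀ x, (∃ y, (H j).Adj x y) → ∀ c, col (tip (il j x c)) = j)
    (hinj : ∀ j < r, ∀ j' < r, ∀ x x', (∃ y, (H j).Adj x y) → (∃ y, (H j').Adj x' y) →
      ∀ c c', il j x c = il j' x' c' → j = j' ∧ x = x' ∧ c = c') :
    ∃ mono : List (MonoItem G root),
      (∀ it ∈ mono, it.w.IsPath ∧ 0 < it.w.length ∧ ∃ j < r, ∀ e ∈ it.w.edges, e ∈ (H j).edgeSet) ∧
      (∀ it ∈ mono, col (tip it.l) = col (tip it.l')) ∧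
      (usedLinks mono ([] : List (PairItem G root))).Nodup ∧
      (∀ l ∈ usedLinks mono ([] : List (PairItem G root)), ∃ j < r, ∃ x, (∃ y, (H j).Adj x y) ∧
        ∃ c, l = il j x c) ∧
      (itemEdgeLists mono ([] : List (PairItem G root))).Pairwise List.Disjoint ∧
      (∀ j < r, ∀ e ∈ (H j).edgeSet, ∃ l ∈ itemEdgeLists mono ([] : List (PairItem G root)), e ∈ l) ∧
      mono.length ≤ ∑ j ∈ range r, (univ.filter fun v => ∃ x, (H j).Adj v x).card := by
  have key : ∀ r' ≤ r, ∃ mono : List (MonoItem G root),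
      (∀ it ∈ mono, it.w.IsPath ∧ 0 < it.w.length ∧ ∃ j < r', (∀ e ∈ it.w.edges, e ∈ (H j).edgeSet) ∧
        (∃ x, (∃ y, (H j).Adj x y) ∧ ∃ c, it.l = il j x c) ∧
        (∃ x, (∃ y, (H j).Adj x y) ∧ ∃ c, it.l' = il j x c)) ∧
      (usedLinks mono ([] : List (PairItem G root))).Nodup ∧
      (itemEdgeLists mono ([] : List (PairItem G root))).Pairwise List.Disjoint ∧
      (∀ j < r', ∀ e ∈ (H j).edgeSet, ∃ l ∈ itemEdgeLists mono ([] : List (PairItem G root)), e ∈ l) ∧
      mono.length ≤ ∑ j ∈ range r', (univ.filter fun v => ∃ x, (H j).Adj v x).card := by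
    intro r'
    induction r' with
    | zero =>
      intro _
      exact ⟨[], by simp, by simp [usedLinks], by simp [itemEdgeLists], by simp, by simp⟩
    | succ r' ih =>
      intro hr
      have hr' : r' < r := by omega
      obtain ⟨A, hA1, hA2, hA3, hA4, hA5⟩ := ih (by omega)
      obtain ⟨B, hB1, hB2, hB3, hB4, hB5⟩ := plan_one G (H r') (hH r') root (il r')
        (hroot r' hr') (fun x x' hx hx' c c' h => (hinj r' hr' r' hr' x x' hx hx' c c' h).2)
      refine ⟨A ++ B, ?_, ?_, ?_, ?_, ?_⟩
      · intro it hit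
        rcases List.mem_append.1 hit with hit | hit
        · obtain ⟨h1, h2, j, hj, h3, h4, h5⟩ := hA1 it hit
          exact ⟨h1, h2, j, by omega, h3, h4, h5⟩
        · obtain ⟨h1, h2, h3, h4, h5⟩ := hB1 it hit
          exact ⟨h1, h2, r', by omega, h3, h4, h5⟩
      · have : usedLinks (A ++ B) ([] : List (PairItem G root)) =
            usedLinks A ([] : List (PairItem G root)) ++ usedLinks B ([] : List (PairItem G root)) := by
          simp [usedLinks]
        rw [this, List.nodup_append]
        refine ⟨hA2, hB2, ?_⟩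
        intro a ha b hb hab
        subst hab
        obtain ⟨it, hit, hl⟩ := (mem_usedLinks_nil _ _).1 ha
        obtain ⟨it', hit', hl'⟩ := (mem_usedLinks_nil _ _).1 hb
        obtain ⟨-, -, j, hj, -, ⟨x, hx, c, hc⟩, ⟨x₂, hx₂, c₂, hc₂⟩⟩ := hA1 it hit
        obtain ⟨-, -, -, ⟨x', hx', c', hc'⟩, ⟨x₂', hx₂', c₂', hc₂'⟩⟩ := hB1 it' hit'
        rcases hl with hl | hl <;> rcases hl' with hl' | hl'
        · have := (hinj j (by omega) r' hr' x x' hx hx' c c' (by rw [← hc, ← hc', hl, hl'])).1
          omega
        · have := (hinj j (by omega) r' hr' x x₂' hx hx₂' c c₂' (by rw [← hc, ← hc₂', hl, hl'])).1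
          omega
        · have := (hinj j (by omega) r' hr' x₂ x' hx₂ hx' c₂ c' (by rw [← hc₂, ← hc', hl, hl'])).1
          omega
        · have := (hinj j (by omega) r' hr' x₂ x₂' hx₂ hx₂' c₂ c₂' (by rw [← hc₂, ← hc₂', hl, hl'])).1
          omega
      · have : itemEdgeLists (A ++ B) ([] : List (PairItem G root)) =
            itemEdgeLists A ([] : List (PairItem G root)) ++ itemEdgeLists B ([] : List (PairItem G root)) := by
          simp [itemEdgeLists]
        rw [this, List.pairwise_append]
        refine ⟨hA3, hB3, ?_⟩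
        intro a ha b hb e hea heb
        have memA : ∃ it ∈ A, a = it.w.edges := by
          simpa [itemEdgeLists, eq_comm] using ha
        have memB : ∃ it ∈ B, b = it.w.edges := by
          simpa [itemEdgeLists, eq_comm] using hb
        obtain ⟨it, hit, rfl⟩ := memA
        obtain ⟨it', hit', rfl⟩ := memB
        obtain ⟨-, -, j, hj, h3, -⟩ := hA1 it hit
        obtain ⟨-, -, h3', -⟩ := hB1 it' hit'
        exact Set.disjoint_left.1 (hdisj j r' (by omega)) (h3 e hea) (h3' e heb)
      · intro j hj e he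
        rcases Nat.lt_succ_iff_lt_or_eq.1 hj with hj | rfl
        · obtain ⟨l, hl, hel⟩ := hA4 j hj e he
          refine ⟨l, ?_, hel⟩
          simp only [itemEdgeLists, List.map_nil, List.append_nil, List.map_append,
            List.mem_append] at hl ⊢
          exact Or.inl hl
        · obtain ⟨l, hl, hel⟩ := hB4 e he
          refine ⟨l, ?_, hel⟩
          simp only [itemEdgeLists, List.map_nil, List.append_nil, List.map_append,
            List.mem_append] at hl ⊢
          exact Or.inr hl
      · rw [Finset.sum_range_succ, List.length_append]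
        omega
  obtain ⟨mono, h1, h2, h3, h4, h5⟩ := key r le_rfl
  refine ⟨mono, ?_, ?_, h2, ?_, h3, h4, h5⟩
  · intro it hit
    obtain ⟨a, b, j, hj, c, -, -⟩ := h1 it hit
    exact ⟨a, b, j, hj, c⟩
  · intro it hit
    obtain ⟨-, -, j, hj, -, ⟨x, hx, c, hc⟩, ⟨x', hx', c', hc'⟩⟩ := h1 it hit
    rw [hc, hc', hcol j hj x hx c, hcol j hj x' hx' c']
  · intro l hl
    obtain ⟨it, hit, hl'⟩ := (mem_usedLinks_nil _ _).1 hl
    obtain ⟨-, -, j, hj, -, ⟨x, hx, c, hc⟩, ⟨x', hx', c', hc'⟩⟩ := h1 it hit
    rcases hl' with rfl | rfl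
    · exact ⟨j, hj, x, hx, c, hc⟩
    · exact ⟨j, hj, x', hx', c', hc'⟩

end Crest.Agent.EG
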