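import Crest.Agent.EG.Random
import Crest.Agent.EG.Network
import Crest.Agent.EG.Links
import Crest.Agent.EG.Plan

/-!
# The final assembly of the Local Dense Lemma (S0064 blueprint Step E)

`Ctx P G Q` packs the output of Steps A–D: three networks with their link tables.
-/

set_option autoImplicit false

namespace Crest.Agent.EG

open Finset
open scoped Classical

variable {V : Type} [Fintype V]

/-- Output of Steps A–D. Network `i` serves the stage whose hubs are `Ho i` (see below); zones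
`Zn i = T i ∪ A i ∪ B i`; attach roots `W ∪ Zn (i+2)`. -/
structure Ctx (P : Par) (G : SimpleGraph V) (Q : Finset V) where
  W : Finset V
  W' : Finset V
  T : Fin 3 → Finset V
  A : Fin 3 → Finset V
  B : Fin 3 → Finset V
  Cl : Fin 3 → Finset V
  Γ : Fin 3 → SimpleGraph V
  col : Fin 3 → V → ℕ
  hm : Fin 3 → V → ℕ
  lb : Fin 3 → V → Finset ℕ
  pendB : Fin 3 → V → Fin P.M → V
  pendT : Fin 3 → V → Fin P.M → V
  attT : Fin 3 → V → ℕ → Fin 2 → V
  hcard : Q.card = P.n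
  hW'W : W' ⊆ W
  hWQ : W ⊆ Q
  hNW : ∀ w ∈ W, nbr G w ⊆ Q
  hQ : ∀ v ∈ Q, v ∈ W ∨ ∃ i, v ∈ T i ∨ v ∈ A i ∨ v ∈ B i
  hsubQ : ∀ i, T i ∪ A i ∪ B i ⊆ Q
  hWZ : ∀ i, Disjoint W (T i ∪ A i ∪ B i)
  hZZ : ∀ i i', i ≠ i' → Disjoint (T i ∪ A i ∪ B i) (T i' ∪ A i' ∪ B i')
  hTA : ∀ i, Disjoint (T i) (A i)
  hTB : ∀ i, Disjoint (T i) (B i)
  hAB : ∀ i, Disjoint (A i) (B i)
  hClT : ∀ i, Cl i ⊆ T i
  hΓG : ∀ i, Γ i ≤ G
  hΓb : ∀ i x y, (Γ i).Adj x y → (x ∈ T i ∧ y ∈ A i) ∨ (x ∈ A i ∧ y ∈ T i)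
  tab : ∀ i, TabProps P G (Γ i) (Cl i) W' (B i) (W ∪ (T (i + 2) ∪ A (i + 2) ∪ B (i + 2))) (col i)
    (hm i) (hm (i + 1)) (lb i) (lb (i + 1)) (pendB i) (pendT i) (attT i)
  route : ∀ i (c : ℕ) (x y : Fin c → V), c ≤ P.k →
    (∀ l, x l ∈ Cl i ∧ y l ∈ Cl i ∧ col i (x l) = col i (y l)) →
    (∀ t ∈ Cl i, 64 * ((univ.filter fun l => x l = t).card + (univ.filter fun l => y l = t).card)
      ≤ (nbr (Γ i) t).card) →
    ∃ w : ∀ l, (Γ i).Walk (x l) (y l), (∀ l, (w l).IsPath) ∧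
      (∀ l l', l ≠ l' → List.Disjoint (w l).edges (w l').edges)
  sumLab : ∀ i, 10 * ∑ v ∈ Q, (lb i v).card ≤ 11 * P.n
  rbound : ∀ i, ∀ v ∈ Q, ((nbr G v ∩ W').filter fun w => hm i w ∉ lb i v).card ≤ P.r₀ * P.h
  friendly : ∀ i, ∀ w ∈ W', ((nbr G w).filter fun v => hm i w ∉ lb i v).card ≤ P.t₁
  hm_lt : ∀ i, ∀ w ∈ W', hm i w < P.r₀
  lb_sub : ∀ i v, lb i v ⊆ range P.r₀
  big : P.n ≤ 480 * W'.card


namespace Par

variable (P : Par)

theorem ctx_r₀_pos : 0 < P.r₀ := by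
  have := P.hΛ
  simp only [Par.r₀]
  omega

theorem ctx_h_pos : 0 < P.h := by
  have hΛ : 0 < P.Λ := by have := P.hΛ; omega
  have : 0 < P.Λ ^ 6 := Nat.pow_pos hΛ
  simp only [Par.h]
  positivity

theorem ctx_num : 1440 * (P.r₀ * P.h) ≤ P.t₁ := by
  simp only [Par.r₀, Par.h, Par.t₁]
  have hx : P.Λ * P.Λ ^ 6 = P.Λ ^ 7 := by ring
  calc 1440 * (320 * P.Λ * (2 * 10 ^ 16 * P.Λ ^ 6))
      = (1440 * 320 * 2 * 10 ^ 16) * (P.Λ * P.Λ ^ 6) := by ring
    _ = (1440 * 320 * 2 * 10 ^ 16) * P.Λ ^ 7 := by rw [hx]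
    _ ≤ 10 ^ 22 * P.Λ ^ 7 := Nat.mul_le_mul_right _ (by norm_num)

end Par

theorem ctx_extσ_lt {r : ℕ} (hr : 0 < r) (Ni : Finset V) (σ : {x // x ∈ Ni} → Fin r) (v : V) :
    extσ Ni σ v < r := by
  unfold extσ
  split_ifs with h
  · exact (σ ⟨v, h⟩).2
  · exact hr

theorem ctx_homeOf_lt {u r : ℕ} (hr : 0 < r) (m : Fin (2 * u + 1) → V → V) (σ : V → ℕ)
    (hσ : ∀ v, σ v < r) (y : V) : homeOf u m σ y < r := by
  unfold homeOf
  split_ifs with h
  · have hs := Classical.choose_spec h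
    have hpos : 0 < (univ.filter fun l => σ (m l y) = Classical.choose h).card := by omega
    obtain ⟨l, hl⟩ := Finset.card_pos.1 hpos
    have hl' := (mem_filter.1 hl).2
    rw [← hl']
    exact hσ _
  · exact hr

/-- Double count: the vertices of `W` with more than `t` neighbours `v` with `hm w ∉ lb v`. -/
theorem ctx_count_bad {G : SimpleGraph V} {Q W Y₀ : Finset V} {hm : V → ℕ} {lb : V → Finset ℕ}
    (hW : W ⊆ Y₀) (hNW : ∀ w ∈ W, nbr G w ⊆ Q) (C t : ℕ)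
    (hr : ∀ v ∈ Q, ((nbr G v ∩ Y₀).filter fun y => hm y ∉ lb v).card ≤ C) :
    (W.filter fun w => t < ((nbr G w).filter fun v => hm w ∉ lb v).card).card * t ≤ Q.card * C := by
  classical
  have h1 : (W.filter fun w => t < ((nbr G w).filter fun v => hm w ∉ lb v).card).card * t ≤
      ∑ w ∈ W.filter (fun w => t < ((nbr G w).filter fun v => hm w ∉ lb v).card),
        ((nbr G w).filter fun v => hm w ∉ lb v).card := by
    rw [← smul_eq_mul]
    apply Finset.card_nsmul_le_sum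
    intro w hw
    exact (mem_filter.1 hw).2.le
  have h2 : ∑ w ∈ W.filter (fun w => t < ((nbr G w).filter fun v => hm w ∉ lb v).card),
        ((nbr G w).filter fun v => hm w ∉ lb v).card ≤
      ∑ w ∈ W, ((nbr G w).filter fun v => hm w ∉ lb v).card :=
    Finset.sum_le_sum_of_subset (filter_subset _ _)
  have h3 : ∑ w ∈ W, ((nbr G w).filter fun v => hm w ∉ lb v).card =
      ∑ w ∈ W, (Q.filter fun v => G.Adj w v ∧ hm w ∉ lb v).card := by
    apply Finset.sum_congr rfl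
    intro w hw
    congr 1
    ext v
    simp only [mem_filter, mem_nbr]
    constructor
    · rintro ⟨ha, hb⟩
      exact ⟨hNW w hw (mem_nbr.2 ha), ha, hb⟩
    · rintro ⟨_, ha, hb⟩
      exact ⟨ha, hb⟩
  have h4 : ∑ w ∈ W, (Q.filter fun v => G.Adj w v ∧ hm w ∉ lb v).card =
      ∑ v ∈ Q, (W.filter fun w => G.Adj w v ∧ hm w ∉ lb v).card :=
    Finset.sum_card_bipartiteAbove_eq_sum_card_bipartiteBelow
      (fun w v => G.Adj w v ∧ hm w ∉ lb v)
  have h5 : ∑ v ∈ Q, (W.filter fun w => G.Adj w v ∧ hm w ∉ lb v).card ≤ ∑ _v ∈ Q, C := by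
    apply Finset.sum_le_sum
    intro v hv
    refine le_trans (Finset.card_le_card ?_) (hr v hv)
    intro w hw
    obtain ⟨hwW, hadj, hb⟩ := mem_filter.1 hw
    exact mem_filter.2 ⟨mem_inter.2 ⟨mem_nbr.2 hadj.symm, hW hwW⟩, hb⟩
  rw [Finset.sum_const, smul_eq_mul] at h5
  omega

/-- Steps A–D: `exists_slices`, `exists_network` for `i = 0, 1, 2`, friendliness count, `exists_tables`
for `i = 0, 1, 2`.  `hm i = homeOf P.u (m i) (extσ (Ni i) (σ i))`, `lb i = Lab …`, `X i = Xset …`.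
`W' = {w ∈ W : ∀ i, |{v ∈ N(w) : hm i w ∉ lb i v}| ≤ t₁}`.  Count: `∑_{w ∈ W} |{v ∈ N(w) : hm i w ∉ lb i v}|`
is `∑_{v ∈ Q} |{w ∈ N(v) ∩ W : hm i w ∉ lb i v}| ≤ n r₀ h` by `rbound` (`W ⊆ Y₀`, `N(w) ⊆ Q`),
and `1440 r₀ h ≤ t₁`, so at most `n / 1440` vertices of `W` fail for each `i`, and `n ≤ 240 |W|`. -/
theorem exists_ctx (P : Par) (G : SimpleGraph V) (Q Y : Finset V)
    (hYQ : Y ⊆ Q) (hcard : Q.card = P.n) (hY : P.n ≤ 6 * Y.card)
    (hN : ∀ y ∈ Y, nbr G y ⊆ Q) (hdeg : ∀ y ∈ Y, P.d₀ ≤ (nbr G y).card) :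
    ∃ c : Ctx P G Q, c.W ⊆ Y := by
  obtain ⟨Y₀, Q₀, W, Ni, T, A, B, m, hPR, hWY₀, hWbig, hQ₀, hcov, hdW, hdZ⟩ :=
    exists_slices P G Q Y hYQ hcard hY hN hdeg
  have hnet : ∀ i, ∃ (Γ : SimpleGraph V) (col : V → ℕ) (Cl : Finset V)
      (σ : {x // x ∈ Ni i} → Fin P.r₀), NetOut P G Q Y₀ (Ni i) (T i) (A i) (m i) Γ col Cl σ :=
    fun i => exists_network P G Q Y Y₀ Q₀ (Ni i) (T i) (A i) (B i) (m i) (hPR i) hcard hN hdeg hQ₀
  choose Γ col Cl σ hO using hnet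
  let hm : Fin 3 → V → ℕ := fun i => homeOf P.u (m i) (extσ (Ni i) (σ i))
  let lb : Fin 3 → V → Finset ℕ := fun i => Lab G Y₀ P.u (m i) (extσ (Ni i) (σ i)) P.h P.r₀
  let X : Fin 3 → V → ℕ → Finset V := fun i => Xset G Y₀ P.u (m i) (extσ (Ni i) (σ i))
  have hY₀Y : Y₀ ⊆ Y := (hPR 0).hY₀
  have hWY : W ⊆ Y := hWY₀.trans hY₀Y
  have hWQ : W ⊆ Q := hWY.trans hYQ
  have hNW : ∀ w ∈ W, nbr G w ⊆ Q := fun w hw => hN w (hWY hw)
  let W' : Finset V := W.filter fun w => ∀ i, ((nbr G w).filter fun v => hm i w ∉ lb i v).card ≤ P.t₁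
  have hW'W : W' ⊆ W := filter_subset _ _
  have hfr : ∀ i, ∀ w ∈ W', ((nbr G w).filter fun v => hm i w ∉ lb i v).card ≤ P.t₁ :=
    fun i w hw => (mem_filter.1 hw).2 i
  -- the count
  have hbad : ∀ i, 1440 * (W.filter fun w =>
      P.t₁ < ((nbr G w).filter fun v => hm i w ∉ lb i v).card).card ≤ P.n := by
    intro i
    have h1 := ctx_count_bad (G := G) (Q := Q) (W := W) (Y₀ := Y₀) (hm := hm i) (lb := lb i) hWY₀ hNW
      (P.r₀ * P.h) P.t₁ (hO i).rbound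
    rw [hcard] at h1
    have h2 := P.ctx_num
    have hpos : 0 < P.r₀ * P.h := Nat.mul_pos P.ctx_r₀_pos P.ctx_h_pos
    generalize (W.filter fun w =>
      P.t₁ < ((nbr G w).filter fun v => hm i w ∉ lb i v).card).card = b at h1 ⊢
    have h3 : b * (1440 * (P.r₀ * P.h)) ≤ b * P.t₁ := Nat.mul_le_mul_left _ h2
    have h4 : (1440 * b) * (P.r₀ * P.h) ≤ P.n * (P.r₀ * P.h) := by
      calc (1440 * b) * (P.r₀ * P.h) = b * (1440 * (P.r₀ * P.h)) := by ring
        _ ≤ b * P.t₁ := h3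
        _ ≤ P.n * (P.r₀ * P.h) := h1
    exact Nat.le_of_mul_le_mul_right h4 hpos
  have hbig : P.n ≤ 480 * W'.card := by
    have hsub : W ⊆ W' ∪ ((W.filter fun w =>
        P.t₁ < ((nbr G w).filter fun v => hm 0 w ∉ lb 0 v).card) ∪ ((W.filter fun w =>
        P.t₁ < ((nbr G w).filter fun v => hm 1 w ∉ lb 1 v).card) ∪ (W.filter fun w =>
        P.t₁ < ((nbr G w).filter fun v => hm 2 w ∉ lb 2 v).card))) := by
      intro w hw
      by_cases h0 : P.t₁ < ((nbr G w).filter fun v => hm 0 w ∉ lb 0 v).card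
      · simp only [mem_union]
        exact Or.inr (Or.inl (mem_filter.2 ⟨hw, h0⟩))
      by_cases h1 : P.t₁ < ((nbr G w).filter fun v => hm 1 w ∉ lb 1 v).card
      · simp only [mem_union]
        exact Or.inr (Or.inr (Or.inl (mem_filter.2 ⟨hw, h1⟩)))
      by_cases h2 : P.t₁ < ((nbr G w).filter fun v => hm 2 w ∉ lb 2 v).card
      · simp only [mem_union]
        exact Or.inr (Or.inr (Or.inr (mem_filter.2 ⟨hw, h2⟩)))
      refine mem_union_left _ (mem_filter.2 ⟨hw, ?_⟩)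
      intro i
      fin_cases i
      · exact not_lt.1 h0
      · exact not_lt.1 h1
      · exact not_lt.1 h2
    have hc := Finset.card_le_card hsub
    have hc1 := Finset.card_union_le W' ((W.filter fun w =>
        P.t₁ < ((nbr G w).filter fun v => hm 0 w ∉ lb 0 v).card) ∪ ((W.filter fun w =>
        P.t₁ < ((nbr G w).filter fun v => hm 1 w ∉ lb 1 v).card) ∪ (W.filter fun w =>
        P.t₁ < ((nbr G w).filter fun v => hm 2 w ∉ lb 2 v).card)))
    have hc2 := Finset.card_union_le (W.filter fun w =>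
        P.t₁ < ((nbr G w).filter fun v => hm 0 w ∉ lb 0 v).card) ((W.filter fun w =>
        P.t₁ < ((nbr G w).filter fun v => hm 1 w ∉ lb 1 v).card) ∪ (W.filter fun w =>
        P.t₁ < ((nbr G w).filter fun v => hm 2 w ∉ lb 2 v).card))
    have hc3 := Finset.card_union_le (W.filter fun w =>
        P.t₁ < ((nbr G w).filter fun v => hm 1 w ∉ lb 1 v).card) (W.filter fun w =>
        P.t₁ < ((nbr G w).filter fun v => hm 2 w ∉ lb 2 v).card)
    have h0 := hbad 0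
    have h1 := hbad 1
    have h2 := hbad 2
    omega
  -- positions
  have hsubQ : ∀ i, T i ∪ A i ∪ B i ⊆ Q := by
    intro i
    refine union_subset (union_subset ?_ (hPR i).hA) (hPR i).hB
    exact (hPR i).hT.trans hYQ
  have hWZ : ∀ i, Disjoint W (T i ∪ A i ∪ B i) := by
    intro i
    obtain ⟨h1, h2, h3⟩ := hdW i
    exact disjoint_union_right.2 ⟨disjoint_union_right.2 ⟨h1, h2⟩, h3⟩
  -- tables
  have htab : ∀ i, ∃ (pendB pendT : V → Fin P.M → V) (attT : V → ℕ → Fin 2 → V),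
      TabProps P G (Γ i) (Cl i) W' (B i) (W ∪ (T (i + 2) ∪ A (i + 2) ∪ B (i + 2))) (col i)
        (hm i) (hm (i + 1)) (lb i) (lb (i + 1)) pendB pendT attT := by
    intro i
    have hi2 : i ≠ i + 2 := by revert i; decide
    have hBU : Disjoint (B i) (W ∪ (T (i + 2) ∪ A (i + 2) ∪ B (i + 2))) := by
      refine disjoint_union_right.2 ⟨(hdW i).2.2.symm, ?_⟩
      exact (hdZ i (i + 2) hi2).mono_left subset_union_right
    have hXw : ∀ w ∈ W', ∀ b, G.Adj b w → w ∈ X i b (hm i w) := by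
      intro w hw b hb
      exact mem_filter.2 ⟨mem_inter.2 ⟨mem_nbr.2 hb, hWY₀ (hW'W hw)⟩, rfl⟩
    have hXsub : ∀ v j, X i v j ⊆ nbr G v := fun v j =>
      (filter_subset _ _).trans inter_subset_left
    have hlb : ∀ v j, j ∈ lb i v → P.h ≤ (X i v j).card := fun v j hj => (mem_filter.1 hj).2
    have hacc : ∀ v, v ∈ B i ∪ (W ∪ (T (i + 2) ∪ A (i + 2) ∪ B (i + 2))) → ∀ j, j ∈ lb i v →
        (X i v j).card ≤ 40 * ((nbr G v ∩ Cl i).filter fun t => col i t = j).card := by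
      intro v hv j hj
      have hvQ : v ∈ Q := by
        rcases mem_union.1 hv with h | h
        · exact (hPR i).hB h
        · rcases mem_union.1 h with h | h
          · exact hWQ h
          · exact hsubQ _ h
      exact (hO i).access v hvQ j hj
    have hdeg' : ∀ w ∈ W', P.d₀ ≤ (nbr G w).card := fun w hw => hdeg w (hWY (hW'W hw))
    have hB' : ∀ w ∈ W', (nbr G w).card ≤ 40 * (nbr G w ∩ B i).card := fun w hw =>
      (hPR i).pr1B w (hWY (hW'W hw))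
    obtain ⟨pendB, pendT, attT, h1, h2, h3, h4, h5, h6, h7⟩ :=
      exists_tables P G (Γ i) (Cl i) W' (B i) (W ∪ (T (i + 2) ∪ A (i + 2) ∪ B (i + 2))) (col i)
        (hm i) (hm (i + 1)) (lb i) (lb (i + 1)) (X i) hBU hXw hXsub hlb hacc (hfr i) (hfr (i + 1))
        hdeg' hB' (hO i).hCl_deg (hO i).hCl_d₂
    exact ⟨pendB, pendT, attT, ⟨h1, h2, h3, h4, h5, h6, h7⟩⟩
  choose pendB pendT attT htab' using htab
  have hY₀W : ∀ i, ∀ v ∈ Q, ((nbr G v ∩ W').filter fun w => hm i w ∉ lb i v).card ≤ P.r₀ * P.h := by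
    intro i v hv
    refine le_trans (Finset.card_le_card ?_) ((hO i).rbound v hv)
    intro w hw
    obtain ⟨hw1, hw2⟩ := mem_filter.1 hw
    obtain ⟨hw3, hw4⟩ := mem_inter.1 hw1
    exact mem_filter.2 ⟨mem_inter.2 ⟨hw3, hWY₀ (hW'W hw4)⟩, hw2⟩
  refine ⟨{ W := W, W' := W', T := T, A := A, B := B, Cl := Cl, Γ := Γ, col := col, hm := hm, lb := lb,
            pendB := pendB, pendT := pendT, attT := attT,
            hcard := hcard, hW'W := hW'W, hWQ := hWQ, hNW := hNW, hQ := hcov, hsubQ := hsubQ,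
            hWZ := hWZ, hZZ := hdZ,
            hTA := fun i => (hPR i).hTA, hTB := fun i => (hPR i).hTB, hAB := fun i => (hPR i).hAB,
            hClT := fun i => (hO i).hCl, hΓG := fun i => (hO i).hΓ, hΓb := fun i => (hO i).hb,
            tab := htab', route := fun i => (hO i).route, sumLab := fun i => (hO i).sumLab,
            rbound := hY₀W, friendly := hfr,
            hm_lt := fun i w _ => ctx_homeOf_lt P.ctx_r₀_pos _ _ (ctx_extσ_lt P.ctx_r₀_pos _ _) _,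
            lb_sub := fun i v => filter_subset _ _,
            big := hbig }, ?_⟩
  exact hWY

end Crest.Agent.EG
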