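import Crest.Agent.EG.Basic

/-!
# Pósa rotation: the cycle `Z` and the set `R` (S0064 blueprint Part 1)
-/

set_option autoImplicit false

namespace Crest.Agent.EG

open Finset
open scoped Classical

variable {V : Type} [Fintype V]

namespace PosaAux

/-- Consecutive unordered pairs of a list. -/
def ed : List V → List (Sym2 V)
  | [] => []
  | [_] => []
  | a :: b :: l => s(a, b) :: ed (b :: l)

omit [Fintype V] in
theorem ed_append_cons (A : List V) (p : V) (D : List V) :
    ed (A ++ p :: D) = ed (A ++ [p]) ++ ed (p :: D) := by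
  induction A with
  | nil => simp [ed]
  | cons a A ih =>
    cases A with
    | nil => simp [ed]
    | cons b A =>
      simp only [List.cons_append, ed] at ih ⊢
      rw [ih]

omit [Fintype V] in
theorem mem_ed_cons_of_mem {p : V} {X : List V} {e : Sym2 V} (h : e ∈ ed X) : e ∈ ed (p :: X) := by
  cases X with
  | nil => simp [ed] at h
  | cons z X => simp [ed]; exact Or.inr (by simpa using h)

omit [Fintype V] in
theorem mem_ed_reverse (l : List V) (e : Sym2 V) : e ∈ ed l.reverse ↔ e ∈ ed l := by
  induction l with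
  | nil => simp
  | cons a l ih =>
    cases l with
    | nil => simp
    | cons b l =>
      have h1 : (a :: b :: l).reverse = l.reverse ++ b :: [a] := by simp
      rw [h1, ed_append_cons]
      have h2 : (b :: l).reverse = l.reverse ++ [b] := by simp
      rw [← h2]
      simp only [List.mem_append, ih]
      simp only [ed, List.mem_cons]
      simp only [List.not_mem_nil, or_false]
      constructor
      · rintro (h | h)
        · exact Or.inr h
        · left; rw [h]; exact Sym2.eq_swap
      · rintro (h | h)
        · right; rw [h]; exact Sym2.eq_swap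
        · exact Or.inl h

omit [Fintype V] in
theorem mem_of_mem_ed {l : List V} {a b : V} (h : s(a, b) ∈ ed l) : a ∈ l ∧ b ∈ l := by
  induction l with
  | nil => simp [ed] at h
  | cons x l ih =>
    cases l with
    | nil => simp [ed] at h
    | cons y l =>
      simp only [ed, List.mem_cons] at h
      rcases h with h | h
      · rw [Sym2.eq_iff] at h
        rcases h with ⟨rfl, rfl⟩ | ⟨rfl, rfl⟩ <;> simp
      · have := ih h
        simp only [List.mem_cons] at this ⊢
        exact ⟨Or.inr this.1, Or.inr this.2⟩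

omit [Fintype V] in
/-- If `y ∉ A` and `s(y,z)` is a consecutive pair of `A ++ [y]` then `z` is the last element of `A`. -/
theorem last_of_mem_ed {A : List V} {y z : V} (hy : y ∉ A) (h : s(y, z) ∈ ed (A ++ [y])) :
    ∃ A', A = A' ++ [z] := by
  induction A with
  | nil => simp [ed] at h
  | cons a A ih =>
    cases A with
    | nil =>
      simp only [List.cons_append, List.nil_append, ed, List.mem_cons, List.not_mem_nil, or_false] at h
      rw [Sym2.eq_iff] at h
      rcases h with ⟨rfl, _⟩ | ⟨_, rfl⟩
      · simp at hy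
      · exact ⟨[], rfl⟩
    | cons b A =>
      simp only [List.cons_append, ed, List.mem_cons] at h
      rcases h with h | h
      · rw [Sym2.eq_iff] at h
        rcases h with ⟨rfl, _⟩ | ⟨rfl, _⟩
        · simp at hy
        · simp at hy
      · have hy' : y ∉ b :: A := fun h' => hy (List.mem_cons_of_mem _ h')
        obtain ⟨A', hA'⟩ := ih hy' (by simpa using h)
        exact ⟨a :: A', by rw [hA']; rfl⟩

omit [Fintype V] in
/-- In a nodup list `A ++ y :: s :: D`, a consecutive pair `s(y,z)` has `z = s` or `z` the last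
element of `A`. -/
theorem nb_of_mem_ed {A D : List V} {y s' z : V} (hnd : (A ++ y :: s' :: D).Nodup)
    (h : s(y, z) ∈ ed (A ++ y :: s' :: D)) : z = s' ∨ ∃ A', A = A' ++ [z] := by
  have hyA : y ∉ A := by
    intro h'
    exact (List.nodup_append.1 hnd).2.2 y h' y (by simp) rfl
  have hyD : y ∉ s' :: D := by
    have := (List.nodup_append.1 hnd).2.1
    exact (List.nodup_cons.1 this).1
  rw [ed_append_cons] at h
  simp only [List.mem_append] at h
  rcases h with h | h
  · exact Or.inr (last_of_mem_ed hyA h)
  · simp only [ed, List.mem_cons] at h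
    rcases h with h | h
    · rw [Sym2.eq_iff] at h
      rcases h with ⟨_, rfl⟩ | ⟨rfl, rfl⟩
      · exact Or.inl rfl
      · exact Or.inl rfl
    · exact absurd (mem_of_mem_ed (l := s' :: D) h).1 hyD

omit [Fintype V] in
theorem getLast?_snoc (A : List V) (p : V) : (A ++ [p]).getLast? = some p := by
  simp

/-- A path as a list. -/
def IsP (G : SimpleGraph V) (L : List V) : Prop := L.Nodup ∧ L.IsChain G.Adj

/-- `End L x`: `x` is the last element of `L`. -/
def End (L : List V) (x : V) : Prop := ∃ A, L = A ++ [x]

/-- One Pósa rotation. -/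
def Rot (G : SimpleGraph V) (L L' : List V) : Prop :=
  ∃ (A : List V) (p s' : V) (D : List V) (x : V), L = A ++ p :: s' :: D ∧ End (s' :: D) x ∧
    G.Adj x p ∧ L' = A ++ p :: (s' :: D).reverse

omit [Fintype V] in
theorem Rot.perm {G : SimpleGraph V} {L L' : List V} (h : Rot G L L') : L'.Perm L := by
  obtain ⟨A, p, s', D, x, rfl, -, -, rfl⟩ := h
  exact List.Perm.append_left A ((List.reverse_perm _).cons p)

omit [Fintype V] in
theorem Rot.isP {G : SimpleGraph V} {L L' : List V} (h : Rot G L L') (hL : IsP G L) : IsP G L' := by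
  refine ⟨h.perm.nodup_iff.2 hL.1, ?_⟩
  obtain ⟨A, p, s', D, x, rfl, ⟨D', hD'⟩, hx, rfl⟩ := h
  have hc := hL.2
  have e1 : A ++ p :: s' :: D = (A ++ [p]) ++ (s' :: D) := by simp
  rw [e1, List.isChain_append] at hc
  obtain ⟨c1, c2, -⟩ := hc
  have e2 : A ++ p :: (s' :: D).reverse = (A ++ [p]) ++ (s' :: D).reverse := by simp
  rw [e2, List.isChain_append]
  refine ⟨c1, ?_, ?_⟩
  · rw [List.isChain_reverse]
    exact c2.imp (fun a b hab => hab.symm)
  · intro u hu v hv
    rw [getLast?_snoc] at hu
    rw [List.head?_reverse, hD', getLast?_snoc] at hv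
    simp only [Option.mem_def, Option.some.injEq] at hu hv
    subst hu hv
    exact hx.symm

/-- Reachability by rotations. -/
def Reach (G : SimpleGraph V) (P L : List V) : Prop := Relation.ReflTransGen (Rot G) P L

omit [Fintype V] in
theorem Reach.perm {G : SimpleGraph V} {P L : List V} (h : Reach G P L) : L.Perm P := by
  induction h with
  | refl => exact List.Perm.refl _
  | tail _ h ih => exact h.perm.trans ih

omit [Fintype V] in
theorem Reach.isP {G : SimpleGraph V} {P L : List V} (h : Reach G P L) (hP : IsP G P) :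
    IsP G L := by
  induction h with
  | refl => exact hP
  | tail _ h ih => exact h.isP ih

omit [Fintype V] in
/-- Rotations preserve the head. -/
theorem Reach.head {G : SimpleGraph V} {P L : List V} (h : Reach G P L) : L.head? = P.head? := by
  induction h with
  | refl => rfl
  | tail _ h ih =>
    rw [← ih]
    obtain ⟨A, p, s', D, x, rfl, -, -, rfl⟩ := h
    cases A <;> simp

omit [Fintype V] in
/-- Consecutive pairs survive a rotation unless they are the pair (pivot, new end). -/
theorem rot_ed_mem {L L' : List V} {e : Sym2 V}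
    (A : List V) (p s' : V) (D : List V) (hL : L = A ++ p :: s' :: D)
    (hL' : L' = A ++ p :: (s' :: D).reverse) (he : e ∈ ed L) (hne : e ≠ s(p, s')) : e ∈ ed L' := by
  subst hL hL'
  rw [ed_append_cons] at he ⊢
  simp only [List.mem_append] at he ⊢
  rcases he with he | he
  · exact Or.inl he
  · right
    simp only [ed, List.mem_cons] at he
    rcases he with he | he
    · exact absurd he hne
    · exact mem_ed_cons_of_mem ((mem_ed_reverse _ _).2 he)

omit [Fintype V] in
theorem exists_first {l : List V} {q : V → Prop} (h : ∃ x ∈ l, q x) :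
    ∃ A y C, l = A ++ y :: C ∧ q y ∧ ∀ a ∈ A, ¬ q a := by
  induction l with
  | nil => simp at h
  | cons a l ih =>
    by_cases ha : q a
    · exact ⟨[], a, l, rfl, ha, by simp⟩
    · obtain ⟨x, hx, hqx⟩ := h
      rcases List.mem_cons.1 hx with rfl | hx
      · exact absurd hqx ha
      · obtain ⟨A, y, C, rfl, hy, hA⟩ := ih ⟨x, hx, hqx⟩
        refine ⟨a :: A, y, C, rfl, hy, ?_⟩
        intro b hb
        rcases List.mem_cons.1 hb with rfl | hb
        · exact ha
        · exact hA b hb

omit [Fintype V] in
theorem exists_walk_of_chain (G : SimpleGraph V) :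
    ∀ (l : List V) (a : V), (a :: l).IsChain G.Adj →
      ∃ (b : V) (w : G.Walk a b), w.support = a :: l ∧ ∃ l', a :: l = l' ++ [b] := by
  intro l
  induction l with
  | nil =>
    intro a _
    exact ⟨a, SimpleGraph.Walk.nil, by simp, [], by simp⟩
  | cons c l ih =>
    intro a h
    rw [List.isChain_cons_cons] at h
    obtain ⟨b, w, hw, l', hl'⟩ := ih c h.2
    refine ⟨b, SimpleGraph.Walk.cons h.1 w, by simp [hw], a :: l', ?_⟩
    rw [hl']
    rfl

omit [Fintype V] in
theorem edge_not_mem {G : SimpleGraph V} {y x : V} {w : G.Walk y x} (hw : w.IsPath)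
    (hlen : 3 ≤ w.support.length) : s(x, y) ∉ w.edges := by
  cases w with
  | nil => simp at hlen
  | @cons _ y' _ h q =>
    have hq := (SimpleGraph.Walk.cons_isPath_iff h q).1 hw
    simp only [SimpleGraph.Walk.edges_cons, List.mem_cons, not_or]
    constructor
    · intro heq
      have hxy' : x = y' := by
        rw [Sym2.eq_iff] at heq
        rcases heq with ⟨rfl, rfl⟩ | ⟨rfl, _⟩
        · exact (G.irrefl h).elim
        · rfl
      subst hxy'
      have := (SimpleGraph.Walk.isPath_iff_eq_nil).1 hq.1
      subst this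
      simp at hlen
    · intro hmem
      exact hq.2 (SimpleGraph.Walk.snd_mem_support_of_mem_edges q hmem)

end PosaAux

open PosaAux in
/-- Take a longest path `P = v₀ … v_k`, let `R` be the set of ends of paths obtained by Pósa
rotations with `v₀` fixed.  `N(R) ⊆ R ∪ R⁺ ∪ R⁻` gives the cardinality bound.  If `y = v_j` is the
neighbour of `R` of smallest index on `P`, `x ∈ R`, `x ~ y`, every rotated path has the prefix
`v₀ … v_j`, `j ≤ k - 2` since `deg v_k ≥ 2`, and `Z = y … x y` on the rotated path of `x` contains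
all of `R`. -/
theorem posa (G : SimpleGraph V) (hE : ∃ u v, G.Adj u v) (hdeg : ∀ v, (nbr G v).card ≠ 1) :
    ∃ (u : V) (Z : G.Walk u u) (R : Finset V),
      Z.IsCycle ∧ R.Nonempty ∧ (∀ x ∈ R, x ∈ Z.support) ∧
      (R ∪ R.biUnion (nbr G)).card ≤ 3 * R.card := by
  -- a longest path
  obtain ⟨u0, v0, huv⟩ := hE
  have hbound : ∀ L : List V, IsP G L → L.length ≤ Fintype.card V :=
    fun L hL => List.Nodup.length_le_card hL.1
  have hex : ∃ n, ∃ L : List V, IsP G L ∧ L.length = n := by
    refine ⟨2, [u0, v0], ⟨?_, ?_⟩, rfl⟩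
    · simpa using huv.ne
    · simpa using huv
  obtain ⟨P, hP, hPmax⟩ : ∃ P : List V, IsP G P ∧ ∀ L, IsP G L → L.length ≤ P.length := by
    classical
    let n := Nat.findGreatest (fun n => ∃ L : List V, IsP G L ∧ L.length = n) (Fintype.card V)
    have hn : ∃ L : List V, IsP G L ∧ L.length = n := by
      obtain ⟨m, L, hL, hm⟩ := hex
      exact Nat.findGreatest_spec (P := fun n => ∃ L : List V, IsP G L ∧ L.length = n)
        (hm ▸ hbound L hL) ⟨L, hL, hm⟩
    obtain ⟨P, hP, hPn⟩ := hn
    refine ⟨P, hP, fun L hL => ?_⟩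
    rw [hPn]
    exact Nat.le_findGreatest (hbound L hL) ⟨L, hL, rfl⟩
  have hPlen : 2 ≤ P.length := hPmax [u0, v0] ⟨by simpa using huv.ne, by simpa using huv⟩
  -- reachable paths are longest: neighbours of the end are on the path
  have hnbr : ∀ L x z, Reach G P L → End L x → G.Adj x z → z ∈ L := by
    intro L x z hL ⟨A, hA⟩ hxz
    by_contra hz
    have hIs := hL.isP hP
    have : IsP G (L ++ [z]) := by
      refine ⟨?_, ?_⟩
      · rw [List.nodup_append]
        refine ⟨hIs.1, by simp, ?_⟩
        intro a ha b hb hab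
        simp only [List.mem_singleton] at hb
        subst hb; subst hab
        exact hz ha
      · apply List.IsChain.append hIs.2 (by simp)
        intro a ha b hb
        rw [hA, getLast?_snoc] at ha
        simp only [Option.mem_def, Option.some.injEq, List.head?_cons] at ha hb
        subst ha hb
        exact hxz
    have h1 := hPmax _ this
    have h2 : L.length = P.length := hL.perm.length_eq
    simp at h1
    omega
  -- the set R
  let R : Finset V := univ.filter fun x => ∃ L, Reach G P L ∧ End L x
  have hRmem : ∀ x, x ∈ R ↔ ∃ L, Reach G P L ∧ End L x := by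
    intro x
    simp [R]
  -- the last vertex of P
  obtain ⟨B0, x0, hP0⟩ : ∃ B0 x0, P = B0 ++ [x0] := by
    have hne : P ≠ [] := by
      intro h; simp [h] at hPlen
    exact ⟨P.dropLast, P.getLast hne, (List.dropLast_append_getLast hne).symm⟩
  have hx0R : x0 ∈ R := (hRmem x0).2 ⟨P, Relation.ReflTransGen.refl, B0, hP0⟩
  have hRne : R.Nonempty := ⟨x0, hx0R⟩
  -- x0 has at least two neighbours
  have hB0 : ∃ B1 z, B0 = B1 ++ [z] := by
    have hne : B0 ≠ [] := by
      intro h
      rw [h] at hP0
      rw [hP0] at hPlen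
      simp at hPlen
    exact ⟨B0.dropLast, B0.getLast hne, (List.dropLast_append_getLast hne).symm⟩
  obtain ⟨B1, z0, hB1⟩ := hB0
  have hz0 : G.Adj z0 x0 := by
    have hc := hP.2
    rw [hP0, hB1, List.append_assoc, List.isChain_append] at hc
    obtain ⟨-, hc, -⟩ := hc
    simpa using hc
  have hcard2 : 2 ≤ (nbr G x0).card := by
    have h1 : (nbr G x0).card ≠ 1 := hdeg x0
    have h2 : 0 < (nbr G x0).card := Finset.card_pos.2 ⟨z0, mem_nbr.2 hz0.symm⟩
    omega
  obtain ⟨z1, z2, hz1, hz2, hz12⟩ : ∃ z1 z2, z1 ∈ nbr G x0 ∧ z2 ∈ nbr G x0 ∧ z1 ≠ z2 := by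
    obtain ⟨a, ha, b, hb, hab⟩ := Finset.one_lt_card.1 hcard2
    exact ⟨a, b, ha, hb, hab⟩
  rw [mem_nbr] at hz1 hz2
  -- first neighbour of R on P
  let N := R.biUnion (nbr G)
  have hNmem : ∀ z, z ∈ N ↔ ∃ r ∈ R, G.Adj r z := by
    intro z
    simp [N, mem_nbr]
  have hNex : ∃ z ∈ P, z ∈ N :=
    ⟨z1, hnbr P x0 z1 Relation.ReflTransGen.refl ⟨B0, hP0⟩ hz1, (hNmem z1).2 ⟨x0, hx0R, hz1⟩⟩
  obtain ⟨A0, y, C0, hP1, hyN, hA0⟩ := exists_first hNex
  -- prefix invariant
  have hprefix : ∀ L, Reach G P L → ∃ C, L = A0 ++ y :: C ∧ C.Perm C0 := by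
    intro L hL
    induction hL with
    | refl => exact ⟨C0, hP1, List.Perm.refl _⟩
    | @tail L L' hL hrot ih =>
      obtain ⟨C, rfl, hC⟩ := ih
      obtain ⟨A, p, s', D, x, hL1, ⟨D', hD'⟩, hx, rfl⟩ := hrot
      have hxR : x ∈ R := (hRmem x).2 ⟨A0 ++ y :: C, hL, A ++ p :: D', by
        rw [hL1, hD']; simp⟩
      have hpN : p ∈ N := (hNmem p).2 ⟨x, hxR, hx⟩
      have hpA0 : p ∉ A0 := fun h => hA0 p h hpN
      rcases List.append_eq_append_iff.1 hL1 with ⟨a', h1, h2⟩ | ⟨c', h1, h2⟩
      · -- A0 = A ++ a', y :: C = a' ++ p :: s' :: D   (orientation as produced by Mathlib)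
        cases a' with
        | nil =>
          simp only [List.nil_append, List.cons.injEq] at h2
          obtain ⟨rfl, rfl⟩ := h2
          simp only [List.append_nil] at h1
          subst h1
          refine ⟨(s' :: D).reverse, rfl, ?_⟩
          exact (List.reverse_perm _).trans hC
        | cons b a' =>
          simp only [List.cons_append, List.cons.injEq] at h2
          obtain ⟨rfl, rfl⟩ := h2
          subst h1
          refine ⟨a' ++ p :: (s' :: D).reverse, by simp, ?_⟩
          refine List.Perm.trans ?_ hC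
          exact List.Perm.append_left a' ((List.reverse_perm _).cons p)
      · -- A = A0 ++ c', p :: s' :: D = c' ++ y :: C
        cases c' with
        | nil =>
          simp only [List.nil_append, List.cons.injEq] at h2
          obtain ⟨rfl, rfl⟩ := h2
          simp only [List.append_nil] at h1
          subst h1
          refine ⟨(s' :: D).reverse, rfl, ?_⟩
          exact (List.reverse_perm _).trans hC
        | cons b c' =>
          simp only [List.cons_append, List.cons.injEq] at h2
          obtain ⟨rfl, h3⟩ := h2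
          exact absurd (by rw [h1]; simp) hpA0
  -- the shape of C0
  have hmemP : ∀ z, G.Adj x0 z → z ∈ y :: C0 := by
    intro z hz
    have hzP : z ∈ P := hnbr P x0 z Relation.ReflTransGen.refl ⟨B0, hP0⟩ hz
    rw [hP1] at hzP
    rcases List.mem_append.1 hzP with h | h
    · exact absurd ((hNmem z).2 ⟨x0, hx0R, hz⟩) (hA0 z h)
    · exact h
  have hlast : (A0 ++ y :: C0).getLast? = some x0 := by
    rw [← hP1, hP0, getLast?_snoc]
  have hC0 : ∃ c d e, C0 = c :: d :: e := by
    cases C0 with
    | nil =>
      exfalso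
      have h1 : A0 ++ [y] = B0 ++ [x0] := by rw [← hP1, hP0]
      rw [getLast?_snoc] at hlast
      simp only [Option.some.injEq] at hlast
      have h2 := hmemP z1 hz1
      simp only [List.mem_singleton] at h2
      rw [h2, hlast] at hz1
      exact G.irrefl hz1
    | cons c C0 =>
      cases C0 with
      | nil =>
        exfalso
        have h1 : (A0 ++ [y]) ++ [c] = A0 ++ [y, c] := by simp
        rw [← h1, getLast?_snoc] at hlast
        simp only [Option.some.injEq] at hlast
        subst hlast
        have h2 := hmemP z1 hz1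
        have h3 := hmemP z2 hz2
        simp only [List.mem_cons, List.not_mem_nil, or_false] at h2 h3
        have h4 : z1 ≠ c := fun h => G.irrefl (h ▸ hz1)
        have h5 : z2 ≠ c := fun h => G.irrefl (h ▸ hz2)
        exact hz12 ((h2.resolve_right h4).trans (h3.resolve_right h5).symm)
      | cons d e => exact ⟨c, d, e, rfl⟩
  obtain ⟨c0, d0, e0, hC0e⟩ := hC0
  -- the cycle
  obtain ⟨x, hxR, hxy⟩ := (hNmem y).1 hyN
  obtain ⟨Lx, hLx, Ex, hEx⟩ := (hRmem x).1 hxR
  obtain ⟨Cx, hCx, hCxp⟩ := hprefix Lx hLx
  have hLxP := hLx.isP hP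
  rw [hCx] at hLxP
  have hndx : (y :: Cx).Nodup := (List.nodup_append.1 hLxP.1).2.1
  have hchx : (y :: Cx).IsChain G.Adj := hLxP.2.right_of_append
  have hlenx : Cx.length = C0.length := hCxp.length_eq
  obtain ⟨b, w, hwsup, l', hl'⟩ := exists_walk_of_chain G Cx y hchx
  have hbx : b = x := by
    have h1 : Lx.getLast? = some x := by rw [hEx, getLast?_snoc]
    have h2 : (A0 ++ y :: Cx).getLast? = some b := by
      have : A0 ++ y :: Cx = (A0 ++ l') ++ [b] := by rw [hl']; simp
      rw [this, getLast?_snoc]
    rw [hCx] at h1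
    rw [h1] at h2
    simpa using h2.symm
  subst hbx
  have hwpath : w.IsPath := by
    rw [SimpleGraph.Walk.isPath_def, hwsup]
    exact hndx
  have hne_edge : s(b, y) ∉ w.edges := by
    have hlen3 : 3 ≤ w.support.length := by
      rw [hwsup]
      simp only [List.length_cons]
      rw [hlenx, hC0e]
      simp
    exact edge_not_mem hwpath hlen3
  have hZ : (SimpleGraph.Walk.cons hxy w).IsCycle :=
    (SimpleGraph.Walk.cons_isCycle_iff w hxy).2 ⟨hwpath, hne_edge⟩
  -- counting sets
  let Tp : Finset V := univ.filter fun z => ∃ r ∈ R, ∃ B C, P = B ++ r :: z :: C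
  let Tm : Finset V := univ.filter fun z => ∃ r ∈ R, ∃ B C, P = B ++ z :: r :: C
  have hTp : Tp.card ≤ R.card := by
    refine Finset.card_le_card_of_forall_subsingleton (fun z r => ∃ B C, P = B ++ r :: z :: C) ?_ ?_
    · intro z hz
      obtain ⟨r, hr, B, C, h⟩ := (Finset.mem_filter.1 hz).2
      exact ⟨r, hr, B, C, h⟩
    · intro r _ z hz z' hz'
      obtain ⟨-, B, C, h⟩ := hz
      obtain ⟨-, B', C', h'⟩ := hz'
      have hnd := hP.1
      have h1 : r ∉ B := by
        intro hrB
        rw [h] at hnd
        exact (List.nodup_append.1 hnd).2.2 r hrB r (by simp) rfl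
      have h2 : r ∉ z :: C := by
        rw [h] at hnd
        exact (List.nodup_cons.1 (List.nodup_append.1 hnd).2.1).1
      have h3 := (List.append_cons_inj_of_notMem h1 h2).1 (h.symm.trans h')
      have h4 := h3.2.2
      simp only [List.cons.injEq] at h4
      exact h4.1
  have hTm : Tm.card ≤ R.card := by
    refine Finset.card_le_card_of_forall_subsingleton (fun z r => ∃ B C, P = B ++ z :: r :: C) ?_ ?_
    · intro z hz
      obtain ⟨r, hr, B, C, h⟩ := (Finset.mem_filter.1 hz).2
      exact ⟨r, hr, B, C, h⟩
    · intro r _ z hz z' hz'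
      obtain ⟨-, B, C, h⟩ := hz
      obtain ⟨-, B', C', h'⟩ := hz'
      have hnd := hP.1
      have e1 : B ++ z :: r :: C = (B ++ [z]) ++ r :: C := by simp
      have e2 : B' ++ z' :: r :: C' = (B' ++ [z']) ++ r :: C' := by simp
      rw [e1] at h
      rw [e2] at h'
      have h1 : r ∉ B ++ [z] := by
        intro hrB
        rw [h] at hnd
        exact (List.nodup_append.1 hnd).2.2 r hrB r (by simp) rfl
      have h2 : r ∉ C := by
        rw [h] at hnd
        exact (List.nodup_cons.1 (List.nodup_append.1 hnd).2.1).1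
      have h3 := (List.append_cons_inj_of_notMem h1 h2).1 (h.symm.trans h')
      have h4 := h3.1
      have h5 := congrArg List.getLast? h4
      rw [getLast?_snoc, getLast?_snoc] at h5
      simpa using h5
  -- retention of consecutive pairs
  have hRet : ∀ L, Reach G P L → ∀ e ∈ ed P, (∀ r ∈ R, r ∉ e) → e ∈ ed L := by
    intro L hL e he hr
    induction hL with
    | refl => exact he
    | @tail L L' hL hrot ih =>
      obtain ⟨A, p, s', D, x', hL1, hEnd, hx', hL2⟩ := hrot
      have hs'R : s' ∈ R := by
        refine (hRmem s').2 ⟨L', hL.tail ⟨A, p, s', D, x', hL1, hEnd, hx', hL2⟩,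
          A ++ p :: D.reverse, ?_⟩
        rw [hL2]
        simp
      refine rot_ed_mem A p s' D hL1 hL2 ih ?_
      rintro rfl
      exact hr s' hs'R (by simp)
  -- the main neighbourhood claim
  have hNb : ∀ x' ∈ R, ∀ v, G.Adj x' v → v ∈ R ∨ v ∈ Tp ∨ v ∈ Tm := by
    intro x' hx'R v hx'v
    by_contra hcon
    push Not at hcon
    obtain ⟨hvR, hvTp, hvTm⟩ := hcon
    have hvTp' : ∀ r ∈ R, ∀ B C, P ≠ B ++ r :: v :: C := by
      intro r hr B C h
      exact hvTp (Finset.mem_filter.2 ⟨Finset.mem_univ _, r, hr, B, C, h⟩)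
    have hvTm' : ∀ r ∈ R, ∀ B C, P ≠ B ++ v :: r :: C := by
      intro r hr B C h
      exact hvTm (Finset.mem_filter.2 ⟨Finset.mem_univ _, r, hr, B, C, h⟩)
    obtain ⟨L, hL, E, hE⟩ := (hRmem x').1 hx'R
    have hvL : v ∈ L := hnbr L x' v hL ⟨E, hE⟩ hx'v
    have hvE : v ∈ E := by
      rw [hE] at hvL
      rcases List.mem_append.1 hvL with h | h
      · exact h
      · simp only [List.mem_singleton] at h
        exact absurd h.symm hx'v.ne
    obtain ⟨A, D0, hE2⟩ := List.append_of_mem hvE
    obtain ⟨s', D, hD⟩ : ∃ s' D, D0 ++ [x'] = s' :: D := by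
      cases D0 with
      | nil => exact ⟨x', [], rfl⟩
      | cons a b => exact ⟨a, b ++ [x'], rfl⟩
    have hL1 : L = A ++ v :: s' :: D := by
      rw [hE, hE2, ← hD]
      simp
    have hrot : Rot G L (A ++ v :: (s' :: D).reverse) :=
      ⟨A, v, s', D, x', hL1, ⟨D0, hD.symm⟩, hx'v, rfl⟩
    have hs'R : s' ∈ R := by
      refine (hRmem s').2 ⟨_, hL.tail hrot, A ++ v :: D.reverse, ?_⟩
      simp
    have hLP := hL.isP hP
    rw [hL1] at hLP
    have hvP : v ∈ P := hL.perm.subset hvL
    obtain ⟨B, C, hPB⟩ := List.append_of_mem hvP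
    cases C with
    | nil =>
      exact hvR ((hRmem v).2 ⟨P, Relation.ReflTransGen.refl, B, hPB⟩)
    | cons wp C' =>
      have hwpR : wp ∉ R := fun h => hvTm' wp h B C' hPB
      have he1 : s(v, wp) ∈ ed P := by
        rw [hPB, ed_append_cons]
        simp [ed]
      have he1L : s(v, wp) ∈ ed (A ++ v :: s' :: D) := by
        rw [← hL1]
        refine hRet L hL _ he1 ?_
        intro r hr hmem
        rcases Sym2.mem_iff.1 hmem with rfl | rfl
        · exact hvR hr
        · exact hwpR hr
      have h1 := nb_of_mem_ed hLP.1 he1L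
      rcases List.eq_nil_or_concat B with rfl | ⟨B', wm, rfl⟩
      · -- v is the head of P
        have hhead := hL.head
        rw [hL1, hPB] at hhead
        cases A with
        | nil =>
          rcases h1 with h1 | ⟨A', hA'⟩
          · exact hwpR (h1 ▸ hs'R)
          · simp at hA'
        | cons a A =>
          simp only [List.cons_append, List.head?_cons, List.nil_append, Option.some.injEq] at hhead
          subst hhead
          have := hLP.1
          simp at this
      · have hwmR : wm ∉ R := by
          intro h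
          exact hvTp' wm h B' (wp :: C') (by rw [hPB]; simp)
        have he2 : s(v, wm) ∈ ed P := by
          have e : P = B' ++ wm :: v :: wp :: C' := by rw [hPB]; simp
          rw [e, ed_append_cons]
          simp only [ed, List.mem_append, List.mem_cons]
          right; left
          exact Sym2.eq_swap
        have he2L : s(v, wm) ∈ ed (A ++ v :: s' :: D) := by
          rw [← hL1]
          refine hRet L hL _ he2 ?_
          intro r hr hmem
          rcases Sym2.mem_iff.1 hmem with rfl | rfl
          · exact hvR hr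
          · exact hwmR hr
        have h2 := nb_of_mem_ed hLP.1 he2L
        rcases h1 with h1 | ⟨A1, hA1⟩
        · exact hwpR (h1 ▸ hs'R)
        rcases h2 with h2 | ⟨A2, hA2⟩
        · exact hwmR (h2 ▸ hs'R)
        have h3 : wp = wm := by
          have h4 := congrArg List.getLast? (hA1.symm.trans hA2)
          rw [getLast?_snoc, getLast?_snoc] at h4
          simpa using h4
        subst h3
        have hnd := hP.1
        rw [hPB] at hnd
        simp [List.nodup_append] at hnd
  refine ⟨b, SimpleGraph.Walk.cons hxy w, R, hZ, hRne, ?_, ?_⟩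
  · intro r hr
    obtain ⟨Lr, hLr, Er, hEr⟩ := (hRmem r).1 hr
    obtain ⟨Cr, hCr, hCrp⟩ := hprefix Lr hLr
    have hCrne : Cr ≠ [] := by
      intro h
      rw [h] at hCrp
      rw [hC0e] at hCrp
      simpa using hCrp.length_eq
    have hrCr : r ∈ Cr := by
      have e := List.dropLast_append_getLast hCrne
      have h1 : Lr.getLast? = some r := by rw [hEr, getLast?_snoc]
      have h2 : Lr.getLast? = some (Cr.getLast hCrne) := by
        rw [hCr]
        have : A0 ++ y :: Cr = (A0 ++ y :: Cr.dropLast) ++ [Cr.getLast hCrne] := by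
          conv_lhs => rw [← e]
          simp
        rw [this, getLast?_snoc]
      rw [h1] at h2
      have h3 : r = Cr.getLast hCrne := by simpa using h2
      rw [h3]
      exact List.getLast_mem hCrne
    have hrCx : r ∈ Cx := hCxp.symm.subset (hCrp.subset hrCr)
    simp only [SimpleGraph.Walk.support_cons, hwsup, List.mem_cons]
    exact Or.inr (Or.inr hrCx)
  · have hsub : R ∪ R.biUnion (nbr G) ⊆ R ∪ (Tp ∪ Tm) := by
      intro z hz
      rcases Finset.mem_union.1 hz with h | h
      · exact Finset.mem_union_left _ h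
      · obtain ⟨r, hr, hrz⟩ := Finset.mem_biUnion.1 h
        rcases hNb r hr z (mem_nbr.1 hrz) with h1 | h1 | h1
        · exact Finset.mem_union_left _ h1
        · exact Finset.mem_union_right _ (Finset.mem_union_left _ h1)
        · exact Finset.mem_union_right _ (Finset.mem_union_right _ h1)
    calc (R ∪ R.biUnion (nbr G)).card ≤ (R ∪ (Tp ∪ Tm)).card := Finset.card_le_card hsub
      _ ≤ R.card + (Tp ∪ Tm).card := Finset.card_union_le _ _
      _ ≤ R.card + (Tp.card + Tm.card) := by
          gcongr
          exact Finset.card_union_le _ _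
      _ ≤ 3 * R.card := by omega

end Crest.Agent.EG
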