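import Crest.Agent.EG.Basic
import Crest.Agent.EG.Posa

/-!
# Top-level potential induction (S0064 blueprint Part 0)
-/

set_option autoImplicit false

namespace Crest.Agent.EG

open Finset
open scoped Classical

/-- The Local Dense Lemma as a proposition. -/
def LDLStatement (κ n₁ : ℕ) : Prop :=
  ∀ (V : Type) [Fintype V] (G : SimpleGraph V) (Q Y : Finset V) (d₀ : ℕ),
    Y ⊆ Q → n₁ ≤ Q.card → Q.card ≤ 6 * Y.card →
    (∀ y ∈ Y, nbr G y ⊆ Q) → (∀ y ∈ Y, d₀ ≤ (nbr G y).card) →
    Q.card ≤ (1 + Nat.log 2 Q.card) ^ 2 * d₀ →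
    ∃ W ⊆ Y, W.Nonempty ∧ ∃ E : Set (Sym2 V), E ⊆ G.edgeSet ∧
      (∀ w ∈ W, ∀ x, G.Adj w x → s(w, x) ∈ E) ∧ Cov G E (κ * W.card)

namespace TopAux

/-- The weights `a_i = 1 / (8 i (1 + log₂ i)²)`. -/
noncomputable def a (i : ℕ) : ℝ := 1 / (8 * (i : ℝ) * (1 + (Nat.log 2 i : ℝ)) ^ 2)

theorem a_pos {i : ℕ} (hi : 1 ≤ i) : 0 < a i := by
  have : (1 : ℝ) ≤ i := by exact_mod_cast hi
  unfold a
  positivity

theorem a_nonneg (i : ℕ) : 0 ≤ a i := by
  unfold a
  positivity

theorem a_anti {i j : ℕ} (hi : 1 ≤ i) (hij : i ≤ j) : a j ≤ a i := by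
  have h0 : (1 : ℝ) ≤ i := by exact_mod_cast hi
  have h1 : (i : ℝ) ≤ j := by exact_mod_cast hij
  have h2 : (Nat.log 2 i : ℝ) ≤ Nat.log 2 j := by exact_mod_cast Nat.log_mono_right hij
  unfold a
  apply one_div_le_one_div_of_le
  · positivity
  · gcongr

theorem block_sum (N : ℕ) : ∑ i ∈ Finset.Ico (2 ^ N) (2 ^ (N + 1)), a i ≤ 1 / (8 * (1 + (N : ℝ)) ^ 2) := by
  have hcard : (Finset.Ico (2 ^ N) (2 ^ (N + 1))).card = 2 ^ N := by
    rw [Nat.card_Ico, pow_succ]
    have : 1 ≤ 2 ^ N := Nat.one_le_two_pow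
    omega
  have hle : ∀ i ∈ Finset.Ico (2 ^ N) (2 ^ (N + 1)), a i ≤ a (2 ^ N) := by
    intro i hi
    exact a_anti Nat.one_le_two_pow (Finset.mem_Ico.1 hi).1
  have h1 := Finset.sum_le_card_nsmul _ _ _ hle
  rw [hcard, nsmul_eq_mul] at h1
  refine h1.trans (le_of_eq ?_)
  unfold a
  rw [Nat.log_pow (by norm_num) N]
  push_cast
  have : (2 : ℝ) ^ N ≠ 0 := by positivity
  have h2 : (1 + (N : ℝ)) ≠ 0 := by positivity
  field_simp

theorem dyadic_sum (N : ℕ) :
    ∑ i ∈ Finset.Ico 2 (2 ^ (N + 1)), a i ≤ (1 / 8) * (1 - 1 / ((N : ℝ) + 1)) := by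
  induction N with
  | zero => simp
  | succ N ih =>
    have h2 : 2 ≤ 2 ^ (N + 1) := by
      calc 2 = 2 ^ 1 := by norm_num
        _ ≤ 2 ^ (N + 1) := Nat.pow_le_pow_right (by norm_num) (by omega)
    have h3 : 2 ^ (N + 1) ≤ 2 ^ (N + 1 + 1) := Nat.pow_le_pow_right (by norm_num) (by omega)
    rw [← Finset.sum_Ico_consecutive _ h2 h3]
    have h4 := block_sum (N + 1)
    have h5 : (1 : ℝ) / (8 * (1 + ((N + 1 : ℕ) : ℝ)) ^ 2) ≤
        (1 / 8) * (1 / ((N : ℝ) + 1) - 1 / (((N + 1 : ℕ) : ℝ) + 1)) := by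
      push_cast
      have hN : (0 : ℝ) ≤ N := Nat.cast_nonneg N
      have e : 1 / ((N : ℝ) + 1) - 1 / ((N : ℝ) + 1 + 1) = 1 / (((N : ℝ) + 1) * ((N : ℝ) + 1 + 1)) := by
        field_simp
        ring
      rw [e]
      have e2 : (1 / 8 : ℝ) * (1 / (((N : ℝ) + 1) * ((N : ℝ) + 1 + 1))) =
          1 / (8 * (((N : ℝ) + 1) * ((N : ℝ) + 1 + 1))) := by
        field_simp
      rw [e2]
      apply one_div_le_one_div_of_le (by positivity)
      nlinarith [mul_nonneg hN hN]
    push_cast at h4 h5 ⊢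
    linarith

theorem sum_a_le (k : ℕ) : ∑ i ∈ Finset.Icc 2 k, a i ≤ 1 / 2 := by
  have hsub : Finset.Icc 2 k ⊆ Finset.Ico 2 (2 ^ (k + 1)) := by
    intro i hi
    rw [Finset.mem_Icc] at hi
    rw [Finset.mem_Ico]
    refine ⟨hi.1, lt_of_le_of_lt hi.2 ?_⟩
    exact lt_of_lt_of_le (Nat.lt_two_pow_self) (Nat.pow_le_pow_right (by norm_num) (by omega))
  have h1 := Finset.sum_le_sum_of_subset_of_nonneg hsub (fun i _ _ => a_nonneg i)
  have h2 := dyadic_sum k
  have h3 : (0 : ℝ) ≤ 1 / ((k : ℝ) + 1) := by positivity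
  linarith

/-- The concave potential. -/
noncomputable def psi (k : ℕ) : ℝ := if k = 0 then 0 else 1 / 2 + ∑ i ∈ Finset.Icc 2 k, a i

@[simp] theorem psi_zero : psi 0 = 0 := by simp [psi]

theorem psi_of_ne {k : ℕ} (hk : k ≠ 0) : psi k = 1 / 2 + ∑ i ∈ Finset.Icc 2 k, a i := by
  simp [psi, hk]

theorem psi_half {k : ℕ} (hk : 1 ≤ k) : 1 / 2 ≤ psi k := by
  rw [psi_of_ne (by omega)]
  have := Finset.sum_nonneg (s := Finset.Icc 2 k) (fun i _ => a_nonneg i)
  linarith

theorem psi_le_one (k : ℕ) : psi k ≤ 1 := by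
  by_cases hk : k = 0
  · simp [hk]
  · rw [psi_of_ne hk]
    have := sum_a_le k
    linarith

theorem psi_succ {k : ℕ} (hk : 1 ≤ k) : psi (k + 1) = psi k + a (k + 1) := by
  rw [psi_of_ne (by omega), psi_of_ne (by omega), Finset.sum_Icc_succ_top (by omega)]
  ring

theorem psi_mono : Monotone psi := by
  refine monotone_nat_of_le_succ ?_
  intro k
  by_cases hk : k = 0
  · subst hk
    have := psi_half (k := 1) le_rfl
    simp only [psi_zero, zero_add]
    linarith
  · rw [psi_succ (by omega)]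
    linarith [a_nonneg (k + 1)]

theorem psi_nonneg (k : ℕ) : 0 ≤ psi k := by
  have := psi_mono (Nat.zero_le k)
  simpa using this

/-- `ψ(k) - ψ(k-2) ≥ 2 a_k` for `k ≥ 2`. -/
theorem w_ge {k : ℕ} (hk : 2 ≤ k) : 2 * a k ≤ psi k - psi (k - 2) := by
  obtain ⟨m, rfl⟩ : ∃ m, k = m + 2 := ⟨k - 2, by omega⟩
  cases m with
  | zero =>
    have h1 : a 2 ≤ 1 / 2 := by
      unfold a
      have : Nat.log 2 2 = 1 := by norm_num
      rw [this]
      norm_num
    have h2 : psi (0 + 2) = 1 / 2 + a 2 := by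
      rw [psi_of_ne (by omega)]
      simp
    simp only [zero_add] at h2 ⊢
    rw [h2]
    simp
    linarith
  | succ m =>
    have h1 : psi (m + 1 + 2) = psi (m + 2) + a (m + 3) := psi_succ (by omega)
    have h2 : psi (m + 2) = psi (m + 1) + a (m + 2) := psi_succ (by omega)
    have h3 : m + 1 + 2 - 2 = m + 1 := by omega
    rw [h3, h1, h2]
    have h4 : a (m + 3) ≤ a (m + 2) := a_anti (by omega) (by omega)
    have h5 : m + 1 + 2 = m + 3 := by omega
    rw [h5]
    linarith

variable {V : Type} [Fintype V]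

/-- The potential of a graph. -/
noncomputable def Pot (G : SimpleGraph V) : ℝ := ∑ v, psi (nbr G v).card

theorem Pot_nonneg (G : SimpleGraph V) : 0 ≤ Pot G :=
  Finset.sum_nonneg fun _ _ => psi_nonneg _

theorem Pot_le (G : SimpleGraph V) : Pot G ≤ Fintype.card V := by
  unfold Pot
  calc ∑ v, psi (nbr G v).card ≤ ∑ _v : V, (1 : ℝ) := Finset.sum_le_sum fun _ _ => psi_le_one _
    _ = Fintype.card V := by simp

theorem nbr_mono {G G' : SimpleGraph V} (h : G' ≤ G) (v : V) : nbr G' v ⊆ nbr G v := by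
  intro x hx
  rw [mem_nbr] at hx ⊢
  exact h hx

theorem pot_sub {G G' : SimpleGraph V} (h : G' ≤ G) (A : Finset V) :
    ∑ v ∈ A, (psi (nbr G v).card - psi (nbr G' v).card) ≤ Pot G - Pot G' := by
  unfold Pot
  rw [← Finset.sum_sub_distrib]
  apply Finset.sum_le_sum_of_subset_of_nonneg (Finset.subset_univ A)
  intro v _ _
  have := psi_mono (Finset.card_le_card (nbr_mono h v))
  linarith

omit [Fintype V] in
theorem step {G : SimpleGraph V} {E : Set (Sym2 V)} {k k' : ℕ} (hE : E ⊆ G.edgeSet)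
    (h1 : Cov G E k) (h2 : Cov (G.deleteEdges E) (G.deleteEdges E).edgeSet k') :
    Cov G G.edgeSet (k + k') := by
  have h3 : Cov G (G.deleteEdges E).edgeSet k' := h2.mono_graph (SimpleGraph.deleteEdges_le E)
  have h4 := h1.union h3 (by
    rw [SimpleGraph.edgeSet_deleteEdges]
    exact Set.disjoint_sdiff_right)
  rwa [SimpleGraph.edgeSet_deleteEdges, Set.union_sdiff_cancel hE] at h4

theorem measure_lt {G : SimpleGraph V} {E : Set (Sym2 V)} {e : Sym2 V} (he : e ∈ E)
    (he' : e ∈ G.edgeSet) : (G.deleteEdges E).edgeSet.ncard < G.edgeSet.ncard := by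
  apply Set.ncard_lt_ncard _ (Set.toFinite _)
  rw [SimpleGraph.edgeSet_deleteEdges]
  refine ⟨Set.sdiff_subset, fun h => ?_⟩
  exact (h he').2 he

/-- Two cycle edges at every vertex of a cycle. -/
theorem deg_drop_cycle (G : SimpleGraph V) {u : V} (Z : G.Walk u u) (hZ : Z.IsCycle) {v : V}
    (hv : v ∈ Z.support) :
    (nbr (G.deleteEdges {e | e ∈ Z.edges}) v).card + 2 ≤ (nbr G v).card := by
  set T : Finset V := (Set.toFinite (Z.toSubgraph.neighborSet v)).toFinset with hT
  have hT2 : T.card = 2 := by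
    have := hZ.ncard_neighborSet_toSubgraph_eq_two hv
    rw [Set.ncard_eq_toFinset_card _ (Set.toFinite _)] at this
    exact this
  have hTmem : ∀ x, x ∈ T ↔ s(v, x) ∈ Z.edges := by
    intro x
    rw [hT, Set.Finite.mem_toFinset, SimpleGraph.Subgraph.mem_neighborSet,
      SimpleGraph.Walk.adj_toSubgraph_iff_mem_edges]
  have hdisj : Disjoint (nbr (G.deleteEdges {e | e ∈ Z.edges}) v) T := by
    rw [Finset.disjoint_left]
    intro x hx hxT
    rw [mem_nbr, SimpleGraph.deleteEdges_adj] at hx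
    exact hx.2 ((hTmem x).1 hxT)
  have hsub : nbr (G.deleteEdges {e | e ∈ Z.edges}) v ∪ T ⊆ nbr G v := by
    intro x hx
    rcases Finset.mem_union.1 hx with h | h
    · exact nbr_mono (SimpleGraph.deleteEdges_le _) v h
    · rw [mem_nbr]
      exact Z.adj_of_mem_edges ((hTmem x).1 h)
  have := Finset.card_le_card hsub
  rw [Finset.card_union_of_disjoint hdisj, hT2] at this
  exact this

end TopAux

open TopAux in
/-- Potential `Φ(G) = C ∑ ψ(deg v)`, `ψ(0) = 0`, `ψ(k) = 1/2 + ∑_{2 ≤ i ≤ k} a_i`,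
`a_i = 1 / (8 i (1 + log₂ i)²)`. See results.approach of row S0064, Part 0. -/
theorem top_of_LDL (κ n₁ : ℕ) (h : LDLStatement κ n₁) :
    ∃ C : ℕ, ∀ (V : Type) [Fintype V] (G : SimpleGraph V),
      Cov G G.edgeSet (C * Fintype.card V) := by
  have ha1 : 0 < a (n₁ + 1) := a_pos (by omega)
  -- the constant
  let C : ℕ := 26 + 2 * κ + ⌈1 / (2 * a (n₁ + 1))⌉₊
  have hC2 : (2 : ℝ) ≤ C := by
    have : 2 ≤ C := by simp only [C]; omega
    exact_mod_cast this
  have hC24 : (24 : ℝ) ≤ C := by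
    have : 24 ≤ C := by simp only [C]; omega
    exact_mod_cast this
  have hCκ : (2 : ℝ) * κ ≤ C := by
    have : 2 * κ ≤ C := by simp only [C]; omega
    exact_mod_cast this
  have hCa : 1 / (2 * a (n₁ + 1)) ≤ C := by
    have h1 : 1 / (2 * a (n₁ + 1)) ≤ ⌈1 / (2 * a (n₁ + 1))⌉₊ := Nat.le_ceil _
    have h2 : ⌈1 / (2 * a (n₁ + 1))⌉₊ ≤ C := by simp only [C]; omega
    exact h1.trans (by exact_mod_cast h2)
  have hCpos : (0 : ℝ) < C := by linarith
  refine ⟨C, ?_⟩
  intro V _ G
  suffices hmain : ∃ k : ℕ, (k : ℝ) ≤ C * Pot G ∧ Cov G G.edgeSet k by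
    obtain ⟨k, hk, hcov⟩ := hmain
    refine hcov.mono ?_
    have h1 : (k : ℝ) ≤ C * Fintype.card V :=
      hk.trans (mul_le_mul_of_nonneg_left (Pot_le G) hCpos.le)
    exact_mod_cast h1
  -- strong induction on the number of edges
  induction hm : G.edgeSet.ncard using Nat.strong_induction_on generalizing G with
  | _ m ih =>
  by_cases hE : ∃ u v, G.Adj u v
  swap
  · -- no edges
    refine ⟨0, by simpa using mul_nonneg hCpos.le (Pot_nonneg G), ?_⟩
    have : G.edgeSet = ∅ := by
      rw [Set.eq_empty_iff_forall_notMem]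
      intro e
      induction e using Sym2.ind with
      | _ a b =>
        intro hab
        exact hE ⟨a, b, hab⟩
    rw [this]
    exact Cov.empty 0
  by_cases h1 : ∃ v, (nbr G v).card = 1
  · -- a vertex of degree one
    obtain ⟨v, hv⟩ := h1
    obtain ⟨u, hu⟩ := Finset.card_eq_one.1 hv
    have hvu : G.Adj v u := mem_nbr.1 (by rw [hu]; simp)
    let E : Set (Sym2 V) := {s(v, u)}
    let G' := G.deleteEdges E
    have hle : G' ≤ G := SimpleGraph.deleteEdges_le E
    have hlt : G'.edgeSet.ncard < m := by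
      rw [← hm]
      exact measure_lt (e := s(v, u)) rfl hvu
    obtain ⟨k', hk', hcov'⟩ := ih _ hlt G' rfl
    refine ⟨1 + k', ?_, step (k := 1) (by simpa [E] using hvu) (Cov.single hvu) hcov'⟩
    have hdeg0 : (nbr G' v).card = 0 := by
      rw [Finset.card_eq_zero, Finset.eq_empty_iff_forall_notMem]
      intro x hx
      rw [mem_nbr] at hx
      have hx1 : G.Adj v x := hle hx
      have hx2 : x = u := by
        have : x ∈ nbr G v := mem_nbr.2 hx1
        rw [hu] at this
        simpa using this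
      subst hx2
      have := (SimpleGraph.deleteEdges_adj.1 hx).2
      exact this rfl
    have hdrop := pot_sub hle {v}
    simp only [Finset.sum_singleton, hv, hdeg0, psi_zero, sub_zero] at hdrop
    have h12 := psi_half (k := 1) le_rfl
    push_cast
    have : (C : ℝ) * (1 / 2) ≤ C * (Pot G - Pot G') :=
      mul_le_mul_of_nonneg_left (by linarith) hCpos.le
    nlinarith
  -- Pósa
  have hdeg : ∀ v, (nbr G v).card ≠ 1 := fun v hv => h1 ⟨v, hv⟩
  obtain ⟨u, Z, R, hZ, hRne, hRZ, hRcard⟩ := posa G hE hdeg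
  let A : Finset V := Z.support.toFinset
  have hAmem : ∀ v, v ∈ A ↔ v ∈ Z.support := fun v => List.mem_toFinset
  let E : Set (Sym2 V) := {e | e ∈ Z.edges}
  have hEsub : E ⊆ G.edgeSet := fun e he => Z.edges_subset_edgeSet he
  have hdrop2 : ∀ v ∈ A, (nbr (G.deleteEdges E) v).card + 2 ≤ (nbr G v).card :=
    fun v hv => deg_drop_cycle G Z hZ ((hAmem v).1 hv)
  have hdeg2 : ∀ v ∈ A, 2 ≤ (nbr G v).card := fun v hv => by
    have := hdrop2 v hv
    omega
  let w : V → ℝ := fun v => psi (nbr G v).card - psi ((nbr G v).card - 2)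
  have hw : ∀ v ∈ A, 2 * a (nbr G v).card ≤ w v := fun v hv => w_ge (hdeg2 v hv)
  have hw0 : ∀ v ∈ A, 0 ≤ w v := fun v hv => by
    have h1 : 0 ≤ a (nbr G v).card := a_nonneg _
    linarith [hw v hv]
  by_cases hcase : (1 : ℝ) / C ≤ ∑ v ∈ A, w v
  · -- remove the cycle
    let G' := G.deleteEdges E
    have hle : G' ≤ G := SimpleGraph.deleteEdges_le E
    have huA : u ∈ A := (hAmem u).2 Z.start_mem_support
    obtain ⟨x, hx1, hx2⟩ : ∃ x, x ∈ nbr G u ∧ x ∉ nbr G' u := by
      by_contra hcon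
      push Not at hcon
      have h3 : nbr G u ⊆ nbr G' u := fun x hx => hcon x hx
      have h4 := Finset.card_le_card h3
      have h5 : (nbr G' u).card + 2 ≤ (nbr G u).card := hdrop2 u huA
      omega
    rw [mem_nbr] at hx1 hx2
    have hxE : s(u, x) ∈ E := by
      by_contra hcon
      exact hx2 (SimpleGraph.deleteEdges_adj.2 ⟨hx1, hcon⟩)
    have hlt : G'.edgeSet.ncard < m := by
      rw [← hm]
      exact measure_lt hxE hx1
    obtain ⟨k', hk', hcov'⟩ := ih _ hlt G' rfl
    refine ⟨1 + k', ?_, step hEsub (Cov.cycle Z hZ) hcov'⟩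
    have hdrop := pot_sub hle A
    have h6 : ∑ v ∈ A, w v ≤ ∑ v ∈ A, (psi (nbr G v).card - psi (nbr G' v).card) := by
      apply Finset.sum_le_sum
      intro v hv
      have h7 : (nbr G' v).card ≤ (nbr G v).card - 2 := by
        have := hdrop2 v hv
        simp only [G']
        omega
      have := psi_mono h7
      simp only [w]
      linarith
    have h8 : 1 ≤ (C : ℝ) * (Pot G - Pot G') := by
      have h9 : (1 : ℝ) / C ≤ Pot G - Pot G' := hcase.trans (h6.trans hdrop)
      rw [div_le_iff₀ hCpos] at h9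
      linarith
    push_cast
    nlinarith
  · -- use the Local Dense Lemma
    push Not at hcase
    have hRA : R ⊆ A := fun x hx => (hAmem x).2 (hRZ x hx)
    have hsumS : ∀ S ⊆ R, ∑ v ∈ S, w v < 1 / C := fun S hS =>
      lt_of_le_of_lt (Finset.sum_le_sum_of_subset_of_nonneg (hS.trans hRA)
        (fun v hv _ => hw0 v hv)) hcase
    let Q : Finset V := R ∪ R.biUnion (nbr G)
    have hRQ : R ⊆ Q := Finset.subset_union_left
    have hnbrQ : ∀ r ∈ R, nbr G r ⊆ Q := fun r hr =>
      (Finset.subset_biUnion_of_mem (nbr G) hr).trans Finset.subset_union_right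
    have hdegn : ∀ r ∈ R, (nbr G r).card ≤ Q.card := fun r hr => Finset.card_le_card (hnbrQ r hr)
    obtain ⟨r0, hr0⟩ := hRne
    have hnpos : 1 ≤ Q.card := Finset.card_pos.2 ⟨r0, hRQ hr0⟩
    by_cases hn : Q.card < n₁
    · exfalso
      have h1 : ∑ v ∈ {r0}, w v < 1 / C := hsumS {r0} (by simpa using hr0)
      simp only [Finset.sum_singleton] at h1
      have h2 : a (n₁ + 1) ≤ a (nbr G r0).card := by
        have h3 := hdeg2 r0 (hRA hr0)
        have h4 := hdegn r0 hr0
        exact a_anti (by omega) (by omega)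
      have h3 := hw r0 (hRA hr0)
      have h4 : 1 / (C : ℝ) ≤ 2 * a (n₁ + 1) := by
        rw [div_le_iff₀ hCpos]
        rw [div_le_iff₀ (by positivity)] at hCa
        linarith
      linarith
    · push Not at hn
      have hRQ3 : Q.card ≤ 3 * R.card := hRcard
      let Lm : ℕ := (1 + Nat.log 2 Q.card) ^ 2
      have hLm : 1 ≤ Lm := Nat.one_le_pow _ _ (by omega)
      let Y : Finset V := R.filter fun v => Q.card ≤ Lm * (nbr G v).card
      let low : Finset V := R.filter fun v => ¬ Q.card ≤ Lm * (nbr G v).card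
      have hcard : Y.card + low.card = R.card := Finset.card_filter_add_card_filter_not _
      have hnR : (0 : ℝ) < Q.card := by exact_mod_cast hnpos
      have hlow : ∀ v ∈ low, 1 / (4 * (Q.card : ℝ)) ≤ w v := by
        intro v hv
        obtain ⟨hvR, hv2⟩ := Finset.mem_filter.1 hv
        have hk2 := hdeg2 v (hRA hvR)
        have hkn := hdegn v hvR
        have hv3 : Lm * (nbr G v).card < Q.card := by omega
        have h1 := hw v (hRA hvR)
        have hlog : (1 + Nat.log 2 (nbr G v).card) ^ 2 ≤ Lm :=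
          Nat.pow_le_pow_left (by have := Nat.log_mono_right (b := 2) hkn; omega) 2
        have h2 : 1 / (8 * (Q.card : ℝ)) ≤ a (nbr G v).card := by
          unfold a
          apply one_div_le_one_div_of_le
          · have : (2 : ℝ) ≤ (nbr G v).card := by exact_mod_cast hk2
            positivity
          · have h3 : (nbr G v).card * (1 + Nat.log 2 (nbr G v).card) ^ 2 ≤ Q.card := by
              calc (nbr G v).card * (1 + Nat.log 2 (nbr G v).card) ^ 2
                  ≤ (nbr G v).card * Lm := Nat.mul_le_mul_left _ hlog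
                _ = Lm * (nbr G v).card := Nat.mul_comm _ _
                _ ≤ Q.card := hv3.le
            have h4 : (((nbr G v).card : ℝ)) * (1 + (Nat.log 2 (nbr G v).card : ℝ)) ^ 2 ≤ Q.card := by
              exact_mod_cast h3
            nlinarith
        have h5 : 1 / (4 * (Q.card : ℝ)) = 2 * (1 / (8 * (Q.card : ℝ))) := by
          field_simp
          norm_num
        rw [h5]
        linarith
      have hlowcard : 6 * low.card < Q.card := by
        have h1 : low.card • (1 / (4 * (Q.card : ℝ))) ≤ ∑ v ∈ low, w v :=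
          Finset.card_nsmul_le_sum _ _ _ hlow
        have h2 := hsumS low (Finset.filter_subset _ _)
        have h3 : (1 : ℝ) / C ≤ 1 / 24 := one_div_le_one_div_of_le (by norm_num) hC24
        rw [nsmul_eq_mul] at h1
        have h4 : (low.card : ℝ) * (1 / (4 * (Q.card : ℝ))) < 1 / 24 := by linarith
        have h5 : (low.card : ℝ) * (1 / (4 * (Q.card : ℝ))) = low.card / (4 * Q.card) := by
          ring
        rw [h5, div_lt_iff₀ (by positivity)] at h4
        have h6 : (6 : ℝ) * low.card < Q.card := by linarith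
        exact_mod_cast h6
      have hYcard : Q.card ≤ 6 * Y.card := by omega
      -- the degree threshold
      let d₀ : ℕ := (Q.card + Lm - 1) / Lm
      have hd0 : Q.card ≤ Lm * d₀ := by
        have h1 := Nat.div_add_mod (Q.card + Lm - 1) Lm
        have h2 := Nat.mod_lt (Q.card + Lm - 1) (show 0 < Lm by omega)
        simp only [d₀]
        omega
      have hd1 : ∀ y ∈ Y, d₀ ≤ (nbr G y).card := by
        intro y hy
        have hy2 := (Finset.mem_filter.1 hy).2
        have : (Q.card + Lm - 1) / Lm < (nbr G y).card + 1 := by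
          apply Nat.div_lt_of_lt_mul
          rw [Nat.mul_add, Nat.mul_one]
          omega
        simp only [d₀]
        omega
      obtain ⟨W, hWY, hWne, E', hE'sub, hE'all, hcov⟩ :=
        h V G Q Y d₀ ((Finset.filter_subset _ _).trans hRQ) hn hYcard
          (fun y hy => hnbrQ y (Finset.mem_filter.1 hy).1) hd1 hd0
      let G' := G.deleteEdges E'
      have hle : G' ≤ G := SimpleGraph.deleteEdges_le E'
      have hWR : ∀ v ∈ W, v ∈ R := fun v hv => (Finset.mem_filter.1 (hWY hv)).1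
      obtain ⟨w0, hw0W⟩ := hWne
      have hw0deg := hdeg2 w0 (hRA (hWR w0 hw0W))
      obtain ⟨x, hx⟩ : (nbr G w0).Nonempty := Finset.card_pos.1 (by omega)
      rw [mem_nbr] at hx
      have hlt : G'.edgeSet.ncard < m := by
        rw [← hm]
        exact measure_lt (hE'all w0 hw0W x hx) hx
      obtain ⟨k', hk', hcov'⟩ := ih _ hlt G' rfl
      refine ⟨κ * W.card + k', ?_, step hE'sub hcov hcov'⟩
      have hdrop := pot_sub hle W
      have h1 : ∀ v ∈ W, (1 / 2 : ℝ) ≤ psi (nbr G v).card - psi (nbr G' v).card := by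
        intro v hv
        have h2 : (nbr G' v).card = 0 := by
          rw [Finset.card_eq_zero, Finset.eq_empty_iff_forall_notMem]
          intro y hy
          rw [mem_nbr] at hy
          exact (SimpleGraph.deleteEdges_adj.1 hy).2 (hE'all v hv y (hle hy))
        rw [h2, psi_zero, sub_zero]
        exact psi_half (by have := hdeg2 v (hRA (hWR v hv)); omega)
      have h2 : W.card • (1 / 2 : ℝ) ≤ ∑ v ∈ W, (psi (nbr G v).card - psi (nbr G' v).card) :=
        Finset.card_nsmul_le_sum _ _ _ h1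
      rw [nsmul_eq_mul] at h2
      have h3 : (W.card : ℝ) * (1 / 2) ≤ Pot G - Pot G' := h2.trans hdrop
      have h4 : (C : ℝ) * ((W.card : ℝ) * (1 / 2)) ≤ C * (Pot G - Pot G') :=
        mul_le_mul_of_nonneg_left h3 hCpos.le
      have h5 : (κ : ℝ) * W.card ≤ (C : ℝ) * ((W.card : ℝ) * (1 / 2)) := by
        have h6 : (0 : ℝ) ≤ W.card := Nat.cast_nonneg _
        nlinarith
      push_cast
      nlinarith

end Crest.Agent.EG
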