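import Crest.Agent.EG.Setup
import Crest.Agent.EG.Ctx
import Crest.Agent.EG.Top

set_option autoImplicit false

namespace Crest.Agent.EG

open Finset
open scoped Classical

set_option exponentiation.threshold 3000 in
theorem par_key (m : ℕ) (hm : 2001 ≤ m) : 10 ^ 73 * m ^ 48 ≤ 2 ^ (m - 1) := by
  induction m, hm using Nat.le_induction with
  | base => norm_num
  | succ m hm ih =>
    have h1 : 2001 * (m + 1) ≤ 2002 * m := by omega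
    have h2 : (2001 * (m + 1)) ^ 48 ≤ (2002 * m) ^ 48 := Nat.pow_le_pow_left h1 48
    have h3 : (2002 : ℕ) ^ 48 ≤ 2 * 2001 ^ 48 := by norm_num
    have h4 : 2001 ^ 48 * (m + 1) ^ 48 ≤ 2001 ^ 48 * (2 * m ^ 48) := by
      calc 2001 ^ 48 * (m + 1) ^ 48 = (2001 * (m + 1)) ^ 48 := by ring
        _ ≤ (2002 * m) ^ 48 := h2
        _ = 2002 ^ 48 * m ^ 48 := by ring
        _ ≤ (2 * 2001 ^ 48) * m ^ 48 := Nat.mul_le_mul_right _ h3
        _ = 2001 ^ 48 * (2 * m ^ 48) := by ring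
    have h5 : (m + 1) ^ 48 ≤ 2 * m ^ 48 := Nat.le_of_mul_le_mul_left h4 (by positivity)
    have h6 : m + 1 - 1 = (m - 1) + 1 := by omega
    rw [h6, pow_succ]
    calc 10 ^ 73 * (m + 1) ^ 48 ≤ 10 ^ 73 * (2 * m ^ 48) := Nat.mul_le_mul_left _ h5
      _ = (10 ^ 73 * m ^ 48) * 2 := by ring
      _ ≤ 2 ^ (m - 1) * 2 := Nat.mul_le_mul_right _ ih

/-- Eventually `Λ = (1 + log₂ n)²` is admissible: `1000 ≤ Λ`, `n ≤ 2 ^ Λ`, `10^73 Λ^24 ≤ n`. -/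
theorem exists_par_of_large : ∃ n₁ : ℕ, ∀ n d₀ : ℕ, n₁ ≤ n → n ≤ (1 + Nat.log 2 n) ^ 2 * d₀ → d₀ ≤ n →
    ∃ P : Par, P.n = n ∧ P.d₀ = d₀ ∧ P.Λ = (1 + Nat.log 2 n) ^ 2 := by
  refine ⟨2 ^ 2000, ?_⟩
  intro n d₀ hn h1 h2
  have hnpos : n ≠ 0 := (lt_of_lt_of_le (Nat.two_pow_pos 2000) hn).ne'
  have hlog : 2000 ≤ Nat.log 2 n := Nat.le_log_of_pow_le (by norm_num) hn
  have hpow : 2 ^ Nat.log 2 n ≤ n := Nat.pow_log_le_self 2 hnpos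
  have hlt : n < 2 ^ (Nat.log 2 n + 1) := Nat.lt_pow_succ_log_self (by norm_num) n
  set L := 1 + Nat.log 2 n with hL
  have hL2 : 2001 ≤ L := by omega
  have hΛ : 1000 ≤ L ^ 2 := by nlinarith
  have hLe : L ≤ L ^ 2 := by nlinarith
  have hn_log : n ≤ 2 ^ (L ^ 2) := by
    have h3 : Nat.log 2 n + 1 = L := by omega
    rw [h3] at hlt
    exact hlt.le.trans (Nat.pow_le_pow_right (by norm_num) hLe)
  have hbig : 10 ^ 73 * (L ^ 2) ^ 24 ≤ n := by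
    have h3 := par_key L hL2
    have h4 : L - 1 = Nat.log 2 n := by omega
    rw [h4] at h3
    calc 10 ^ 73 * (L ^ 2) ^ 24 = 10 ^ 73 * L ^ 48 := by ring
      _ ≤ 2 ^ Nat.log 2 n := h3
      _ ≤ n := hpow
  exact ⟨⟨n, L ^ 2, d₀, hΛ, hn_log, hbig, h1, h2⟩, rfl, rfl, rfl⟩

end Crest.Agent.EG
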