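import Crest.Agent.EG.Assembly
import Crest.Agent.EG.LDLFinal

/-!
# Final union and accounting of the Local Dense Lemma (S0064 blueprint Step E)
-/

set_option autoImplicit false

namespace Crest.Agent.EG

open Finset
open scoped Classical

noncomputable section

set_option linter.unusedSectionVars false

variable {V : Type} [Fintype V] {P : Par} {G : SimpleGraph V} {Q : Finset V}

/-- A finite set of edges is covered by its singletons. -/
theorem cov_of_finset (S : Finset (Sym2 V)) (h : ∀ e ∈ S, e ∈ G.edgeSet) :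
    Cov G (S : Set (Sym2 V)) S.card := by
  induction S using Finset.induction_on with
  | empty => simpa using Cov.empty 0
  | insert a S ha ih =>
    have h1 : Cov G {a} 1 := Cov.single (h a (by simp))
    have h2 := ih (fun e he => h e (by simp [he]))
    have h3 := h1.union h2 (by simpa using ha)
    have h4 : ({a} : Set (Sym2 V)) ∪ (S : Set (Sym2 V)) = ((insert a S : Finset (Sym2 V)) : Set (Sym2 V)) := by
      ext e; simp
    rw [h4, add_comm] at h3
    rwa [card_insert_of_notMem ha]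

theorem Cov.subset_edgeSet {E : Set (Sym2 V)} {k : ℕ} (h : Cov G E k) : E ⊆ G.edgeSet := by
  obtain ⟨F, hF, -, hU⟩ := h
  rw [← hU]
  intro e he
  obtain ⟨i, hi⟩ := Set.mem_iUnion.1 he
  rcases hF i with h0 | ⟨e', he', h1⟩ | ⟨u, w, -, h1⟩
  · rw [h0] at hi; exact absurd hi (Set.notMem_empty e)
  · rw [h1] at hi; rwa [Set.mem_singleton_iff.1 hi]
  · rw [← h1] at hi
    exact w.edges_subset_edgeSet hi

theorem exists_edge_of_mem_support {u v : V} (w : G.Walk u v) (hw : 0 < w.length) {x : V}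
    (hx : x ∈ w.support) : ∃ e ∈ w.edges, x ∈ e := by
  induction w with
  | nil => simp at hw
  | @cons a b c h p ih =>
    rw [SimpleGraph.Walk.support_cons, List.mem_cons] at hx
    rcases hx with rfl | hx
    · exact ⟨s(x, b), by simp, by simp⟩
    · by_cases hp : 0 < p.length
      · obtain ⟨e, he, hxe⟩ := ih hp hx
        exact ⟨e, by simp [he], hxe⟩
      · have h0 : p.length = 0 := by omega
        cases p with
        | nil =>
          simp only [SimpleGraph.Walk.support_nil, List.mem_singleton] at hx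
          subst hx
          exact ⟨s(a, x), by simp, by simp⟩
        | cons _ _ => simp at h0

section Lists

variable {L : Type} {root : L → V}

theorem usedLinks_perm (a b : List (MonoItem G root)) (p : List (PairItem G root)) :
    (usedLinks (a ++ b) p).Perm (usedLinks a p ++ usedLinks b ([] : List (PairItem G root))) := by
  simp only [usedLinks, List.flatMap_append, List.flatMap_nil, List.append_nil]
  rw [List.append_assoc, List.append_assoc]
  exact List.Perm.append_left _ List.perm_append_comm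

theorem itemEdgeLists_perm (a b : List (MonoItem G root)) (p : List (PairItem G root)) :
    (itemEdgeLists (a ++ b) p).Perm
      (itemEdgeLists a p ++ itemEdgeLists b ([] : List (PairItem G root))) := by
  simp only [itemEdgeLists, List.map_append, List.map_nil, List.append_nil]
  rw [List.append_assoc, List.append_assoc, List.append_assoc, List.append_assoc]
  refine List.Perm.append_left _ ?_
  simpa [List.append_assoc] using
    List.perm_append_comm (l₁ := b.map fun it => it.w.edges)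
      (l₂ := p.map (fun it => it.aw.edges) ++ p.map (fun it => it.bw.edges))

end Lists

namespace Ctx

variable (c : Ctx P G Q)

theorem pend_fin {k : ℕ} (h : k < P.t₁ + 2) : k < P.M := h

/-- Light-phase link. -/
def plk (d : ∀ i, c.Lk i) (i : Fin 3) (w : V) (k : Fin P.t₁) : c.Lk i :=
  if h : w ∈ c.W' then
    Sum.inl ⟨(w, ⟨k.1 + 2, pend_fin (by have := k.2; omega)⟩), h⟩
  else d i

/-- Heavy-phase link. -/
def ilk (d : ∀ i, c.Lk i) (i : Fin 3) (j : ℕ) (x : V) (e : Fin 2) : c.Lk i :=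
  if h₁ : x ∈ c.W' ∧ c.hm i x = j then
    Sum.inl ⟨(x, ⟨e.1, pend_fin (by have := e.2; omega)⟩), h₁.1⟩
  else if h₂ : (x, j, e) ∈ attIdx (c.Up i) (c.lb i) P.r₀ then
    Sum.inr ⟨(x, j, e), h₂⟩
  else d i

/-- The root of a light-phase link. -/
theorem plk_root (d : ∀ i, c.Lk i) (i : Fin 3) {w : V} (hw : w ∈ c.W') (k : Fin P.t₁) :
    lkRoot (c.plk d i w k) = w := by
  simp [plk, hw, lkRoot]

theorem plk_col (d : ∀ i, c.Lk i) (i : Fin 3) {w : V} (hw : w ∈ c.W') (k : Fin P.t₁) :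
    c.col i (lkTip (c.pendT i) (c.attT i) (c.plk d i w k)) = c.hm i w := by
  simp only [plk, hw, dif_pos, lkTip]
  exact ((c.tab i).pT w hw _).2

theorem plk_inj (d : ∀ i, c.Lk i) (i : Fin 3) {w w' : V} (hw : w ∈ c.W') (hw' : w' ∈ c.W')
    (k k' : Fin P.t₁) (h : c.plk d i w k = c.plk d i w' k') : w = w' ∧ k = k' := by
  simp only [plk, hw, hw', dif_pos, Sum.inl.injEq, Subtype.mk.injEq, Prod.mk.injEq, Fin.mk.injEq] at h
  exact ⟨h.1, Fin.ext (by omega)⟩

/-- Is a light-phase link. -/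
theorem plk_form (d : ∀ i, c.Lk i) (i : Fin 3) {w : V} (hw : w ∈ c.W') (k : Fin P.t₁) :
    ∃ q h, c.plk d i w k = Sum.inl ⟨q, h⟩ ∧ q.1 = w ∧ 2 ≤ (q.2 : ℕ) := by
  refine ⟨(w, ⟨k.1 + 2, pend_fin (by have := k.2; omega)⟩), hw, by simp [plk, hw], rfl, ?_⟩
  simp

theorem ilk_spec (d : ∀ i, c.Lk i) (i : Fin 3) (j : ℕ) (x : V) (e : Fin 2)
    (hj : j < P.r₀) (hx : x ∈ c.Up i) (hv : (x ∈ c.W' ∧ c.hm i x = j) ∨ j ∈ c.lb i x) :
    (∃ (h₁ : x ∈ c.W' ∧ c.hm i x = j) (hk : e.1 < P.M),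
        c.ilk d i j x e = Sum.inl ⟨(x, ⟨e.1, hk⟩), h₁.1⟩) ∨
      (∃ (hj' : j ∈ c.lb i x) (h₂ : (x, j, e) ∈ attIdx (c.Up i) (c.lb i) P.r₀),
        c.ilk d i j x e = Sum.inr ⟨(x, j, e), h₂⟩) := by
  by_cases h₁ : x ∈ c.W' ∧ c.hm i x = j
  · left
    exact ⟨h₁, pend_fin (by have := e.2; omega), by simp only [ilk, dif_pos h₁]⟩
  · right
    have hj' : j ∈ c.lb i x := hv.resolve_left h₁
    have h₂ : (x, j, e) ∈ attIdx (c.Up i) (c.lb i) P.r₀ := by
      simp [attIdx, hx, hj, hj']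
    exact ⟨hj', h₂, by simp only [ilk, dif_neg h₁, dif_pos h₂]⟩

/-- The link data of one network. -/
structure LData (i : Fin 3) where
  lw : ∀ l : c.Lk i, G.Walk (lkRoot l) (lkTip (c.pendT i) (c.attT i) l)
  isLink : IsLinkSys G ((c.Zn i : Finset V) : Set V) lkRoot (lkTip (c.pendT i) (c.attT i)) lw
  notΓ : ∀ l, ∀ e ∈ (lw l).edges, e ∉ (c.Γ i).edgeSet
  edgesP : ∀ (q : {q : V × Fin P.M // q.1 ∈ c.W'}), (lw (Sum.inl q)).edges =
    [s(q.1.1, c.pendB i q.1.1 q.1.2), s(c.pendB i q.1.1 q.1.2, c.pendT i q.1.1 q.1.2)]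
  edgesA : ∀ (q : {q : V × ℕ × Fin 2 // q ∈ attIdx (c.Up i) (c.lb i) P.r₀}), (lw (Sum.inr q)).edges =
    [s(q.1.1, c.attT i q.1.1 q.1.2.1 q.1.2.2)]
  route : ∀ (n : ℕ) (x y : Fin n → c.Lk i), n ≤ P.k →
    Function.Injective (Sum.elim x y) →
    (∀ l, c.col i (lkTip (c.pendT i) (c.attT i) (x l)) = c.col i (lkTip (c.pendT i) (c.attT i) (y l))) →
    ∃ w : ∀ l, (c.Γ i).Walk (lkTip (c.pendT i) (c.attT i) (x l)) (lkTip (c.pendT i) (c.attT i) (y l)),
      (∀ l, (w l).IsPath) ∧ (∀ l l', l ≠ l' → List.Disjoint (w l).edges (w l').edges)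

theorem W'_disj_Zn (i : Fin 3) : Disjoint c.W' (c.Zn i) :=
  Finset.disjoint_of_subset_left c.hW'W (c.disj_W_Zn i)

theorem Up_disj_Zn (i : Fin 3) : Disjoint (c.Up i) (c.Zn i) := by
  unfold Up
  rw [Finset.disjoint_union_left]
  have hfin : ∀ i : Fin 3, i + 2 ≠ i := by decide
  exact ⟨c.disj_W_Zn i, c.disj_Zn _ _ (hfin i)⟩

theorem T_sub_Zn (i : Fin 3) : c.T i ⊆ c.Zn i := fun x hx => by simp [Zn, hx]
theorem A_sub_Zn (i : Fin 3) : c.A i ⊆ c.Zn i := fun x hx => by simp [Zn, hx]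
theorem B_sub_Zn (i : Fin 3) : c.B i ⊆ c.Zn i := fun x hx => by simp [Zn, hx]

theorem exists_LData (i : Fin 3) : Nonempty (c.LData i) := by
  obtain ⟨lw, h1, h2, h3, h4, h5⟩ := exists_linkSys P G (c.Γ i) (c.Cl i) c.W' (c.B i) (c.Up i)
    (c.T i) (c.A i) (c.Zn i) (c.col i) (c.hm i) (c.hm (i + 1)) (c.lb i) (c.lb (i + 1))
    (c.pendB i) (c.pendT i) (c.attT i) (c.tab i) (c.W'_disj_Zn i) (c.Up_disj_Zn i)
    (c.B_sub_Zn i) (c.T_sub_Zn i) (c.A_sub_Zn i) (c.hTB i).symm (c.hAB i).symm (c.hClT i)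
    (c.hΓG i) (c.hΓb i) (c.route i)
  exact ⟨⟨lw, h1, h2, h3, h4, h5⟩⟩

/-- The data of the light phase of one network. -/
structure RData (d : ∀ i, c.Lk i) (i : Fin 3) where
  mono : List (MonoItem G (lkRoot : c.Lk i → V))
  pair : List (PairItem G (lkRoot : c.Lk i → V))
  S : Finset (Sym2 V)
  m_path : ∀ it ∈ mono, it.w.IsPath ∧ 0 < it.w.length ∧ ∀ e ∈ it.w.edges, e ∈ (c.RG i).edgeSet
  p_path : ∀ it ∈ pair, it.aw.IsPath ∧ 0 < it.aw.length ∧ (∀ e ∈ it.aw.edges, e ∈ (c.RG i).edgeSet) ∧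
    it.bw.IsPath ∧ 0 < it.bw.length ∧ (∀ e ∈ it.bw.edges, e ∈ (c.RG i).edgeSet) ∧
    List.Disjoint it.aw.support it.bw.support
  m_col : ∀ it ∈ mono, c.col i (lkTip (c.pendT i) (c.attT i) it.l) =
    c.col i (lkTip (c.pendT i) (c.attT i) it.l')
  p_col : ∀ it ∈ pair, c.col i (lkTip (c.pendT i) (c.attT i) it.a₁) =
      c.col i (lkTip (c.pendT i) (c.attT i) it.b₁) ∧
    c.col i (lkTip (c.pendT i) (c.attT i) it.a₂) = c.col i (lkTip (c.pendT i) (c.attT i) it.b₂)
  nodup : (usedLinks mono pair).Nodup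
  used : ∀ l ∈ usedLinks mono pair, ∃ w ∈ c.W', ∃ k, l = c.plk d i w k
  edges : (itemEdgeLists mono pair).Pairwise List.Disjoint
  S_prop : ∀ e ∈ S, e ∈ (c.RG i).edgeSet ∧ ∀ l ∈ itemEdgeLists mono pair, e ∉ l
  cover : ∀ e ∈ (c.RG i).edgeSet, e ∈ S ∨ ∃ l ∈ itemEdgeLists mono pair, e ∈ l
  count₁ : (mono.length + 2 * pair.length) * P.t₁ ≤
    (c.RG i).edgeFinset.card + P.t₁ * (univ.filter fun v => ∃ x, (c.RG i).Adj v x).card
  count₂ : S.card ≤ 2 * (univ.filter fun v => ∃ x, (c.RG i).Adj v x).card +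
    P.r₀ ^ 2 * (((2 * P.t₁ + 1) * P.t₁ + 1) * (2 * P.t₁))

theorem t₁_pos : 1 ≤ P.t₁ := by
  have := P.hΛ
  unfold Par.t₁
  have : 1 ≤ P.Λ ^ 7 := Nat.one_le_pow _ _ (by omega)
  nlinarith

theorem exists_RData (d : ∀ i, c.Lk i) (i : Fin 3) : Nonempty (c.RData d i) := by
  obtain ⟨mono, pair, S, h1, h2, h3, h4, h5, h6, h7, h8, h9, h10, h11⟩ :=
    r_plan G (c.RG i) (c.RG_le i) c.W' (c.hm i) P.r₀ P.t₁ t₁_pos (c.RG_end i) (c.RG_deg i)
      (c.hm_lt i) (lkRoot : c.Lk i → V) (lkTip (c.pendT i) (c.attT i)) (c.col i) (c.plk d i)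
      (fun w hw k => c.plk_root d i hw k) (fun w hw k => c.plk_col d i hw k)
      (fun w hw w' hw' k k' h => c.plk_inj d i hw hw' k k' h)
  exact ⟨⟨mono, pair, S, h1, h2, h3, h4, h5, h6, h7, h8, h9, h10, h11⟩⟩

/-- Pending units used in the light phase. -/
def UsOf (d : ∀ i, c.Lk i) (R : ∀ i, c.RData d i) (i : Fin 3) : Set (V × Fin P.M) :=
  {q | ∃ h : q.1 ∈ c.W', (Sum.inl ⟨q, h⟩ : c.Lk i) ∈ usedLinks (R i).mono (R i).pair}

/-- Pattern of link and network edges. -/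
def LZ (i : Fin 3) (e : Sym2 V) : Prop :=
  ∃ x y, e = s(x, y) ∧ y ∈ c.Zn i ∧ x ∈ c.W ∪ c.Zn i ∪ c.Zn (i + 2)

theorem LZ_disj {i i' : Fin 3} (h : i ≠ i') {e : Sym2 V} (h1 : c.LZ i e) (h2 : c.LZ i' e) : False := by
  obtain ⟨x, y, rfl, hy, hx⟩ := h1
  obtain ⟨x', y', he, hy', hx'⟩ := h2
  have hZ : ∀ {a b : Fin 3} {v : V}, v ∈ c.Zn a → v ∈ c.Zn b → a = b := by
    intro a b v ha hb
    by_contra hab
    exact Finset.disjoint_left.1 (c.disj_Zn a b hab) ha hb
  have hW : ∀ {a : Fin 3} {v : V}, v ∈ c.Zn a → v ∈ c.W → False := by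
    intro a v ha hb
    exact Finset.disjoint_left.1 (c.disj_W_Zn a) hb ha
  rw [Sym2.eq_iff] at he
  rcases he with ⟨rfl, rfl⟩ | ⟨rfl, rfl⟩
  · exact h (hZ hy hy')
  · simp only [Finset.mem_union] at hx hx'
    have e1 : i' = i ∨ i' = i + 2 := by
      rcases hx with (hx | hx) | hx
      · exact (hW hy' hx).elim
      · exact Or.inl (hZ hy' hx)
      · exact Or.inr (hZ hy' hx)
    have e2 : i = i' ∨ i = i' + 2 := by
      rcases hx' with (hx' | hx') | hx'
      · exact (hW hy hx').elim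
      · exact Or.inl (hZ hy hx')
      · exact Or.inr (hZ hy hx')
    have hfin : ∀ i i' : Fin 3, i ≠ i' → (i' = i ∨ i' = i + 2) → (i = i' ∨ i = i' + 2) → False := by
      decide
    exact hfin i i' h e1 e2

theorem Zn_sub_Ho (i : Fin 3) : c.Zn i ⊆ c.Ho (i + 1) := by
  intro x hx
  unfold Ho
  by_cases h : i + 1 = 1
  · have hfin : ∀ i : Fin 3, i + 1 = 1 → i = 0 := by decide
    have : i = 0 := hfin i h
    subst this
    simp [hx]
  · rw [if_neg h]
    have hfin : ∀ i : Fin 3, i + 1 + 2 = i := by decide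
    rwa [hfin i]

theorem pend_St (i : Fin 3) {w : V} (hw : w ∈ c.W') (k : Fin P.M) :
    s(w, c.pendB i w k) ∈ c.St (i + 1) := by
  have h := ((c.tab i).pB w hw k).1
  rw [Finset.mem_inter] at h
  exact ⟨w, hw, _, c.Zn_sub_Ho i (c.B_sub_Zn i h.2), mem_nbr.1 h.1, rfl⟩

theorem Rr_not_Pe {Us : Fin 3 → Set (V × Fin P.M)} {i : Fin 3} {e : Sym2 V} (he : e ∈ c.Rr i) :
    e ∉ c.Pe Us := by
  rintro ⟨i', w, hw, k, -, rfl⟩
  have h1 := c.pend_St i' hw k
  have hi : i = i' + 1 := by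
    by_contra hne
    exact Set.disjoint_left.1 (c.St_disj hne) he.1 h1
  subst hi
  exact he.2.2 w hw _ rfl ((c.tab i').pB w hw k).2.2

theorem LZ_of_Γ {i : Fin 3} {e : Sym2 V} (he : e ∈ (c.Γ i).edgeSet) :
    c.LZ i e ∧ ∀ x ∈ e, x ∉ c.W' := by
  induction e using Sym2.ind with
  | _ x y =>
    have hxy : (c.Γ i).Adj x y := he
    have hin : x ∈ c.Zn i ∧ y ∈ c.Zn i := by
      rcases c.hΓb i x y hxy with ⟨h1, h2⟩ | ⟨h1, h2⟩
      · exact ⟨c.T_sub_Zn i h1, c.A_sub_Zn i h2⟩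
      · exact ⟨c.A_sub_Zn i h1, c.T_sub_Zn i h2⟩
    refine ⟨⟨x, y, rfl, hin.2, by simp [hin.1]⟩, ?_⟩
    intro v hv hvW
    have hW := Finset.disjoint_left.1 (c.W'_disj_Zn i) hvW
    rcases Sym2.mem_iff.1 hv with rfl | rfl
    · exact hW hin.1
    · exact hW hin.2

theorem r₀_h_le : P.r₀ * P.h ≤ P.t₁ := by
  unfold Par.r₀ Par.h Par.t₁
  have : P.Λ * P.Λ ^ 6 = P.Λ ^ 7 := by ring
  calc 320 * P.Λ * (2 * 10 ^ 16 * P.Λ ^ 6) = 640 * 10 ^ 16 * (P.Λ * P.Λ ^ 6) := by ring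
    _ ≤ 10 ^ 22 * P.Λ ^ 7 := by rw [this]; exact Nat.mul_le_mul_right _ (by norm_num)

theorem leftover_le : P.r₀ ^ 2 * (((2 * P.t₁ + 1) * P.t₁ + 1) * (2 * P.t₁)) ≤ P.n := by
  have hΛ := P.hΛ
  have hΛ7 : 1 ≤ P.Λ ^ 7 := Nat.one_le_pow _ _ (by omega)
  have ht : 1 ≤ P.t₁ := t₁_pos
  have h1 : (2 * P.t₁ + 1) * P.t₁ + 1 ≤ 4 * P.t₁ ^ 2 := by nlinarith
  have h2 : P.r₀ ^ 2 * (((2 * P.t₁ + 1) * P.t₁ + 1) * (2 * P.t₁)) ≤ P.r₀ ^ 2 * (8 * P.t₁ ^ 3) := by
    apply Nat.mul_le_mul_left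
    calc ((2 * P.t₁ + 1) * P.t₁ + 1) * (2 * P.t₁) ≤ (4 * P.t₁ ^ 2) * (2 * P.t₁) :=
          Nat.mul_le_mul_right _ h1
      _ = 8 * P.t₁ ^ 3 := by ring
  refine h2.trans (le_trans ?_ P.hn_big)
  unfold Par.r₀ Par.t₁
  calc (320 * P.Λ) ^ 2 * (8 * (10 ^ 22 * P.Λ ^ 7) ^ 3)
      = 819200 * 10 ^ 66 * (P.Λ ^ 23) := by ring
    _ ≤ 10 ^ 73 * (P.Λ ^ 23) := Nat.mul_le_mul_right _ (by norm_num)
    _ ≤ 10 ^ 73 * P.Λ ^ 24 := Nat.mul_le_mul_left _ (Nat.pow_le_pow_right (by omega) (by omega))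

/-- The light phase has at most `2 n` pieces. -/
theorem R_pieces (d : ∀ i, c.Lk i) {i : Fin 3} (R : c.RData d i) :
    R.mono.length + 2 * R.pair.length ≤ 2 * P.n := by
  have h1 := R.count₁
  have h2 := c.RG_edges i
  have h3 := c.RG_verts i
  have h4 : P.n * (P.r₀ * P.h) ≤ P.n * P.t₁ := Nat.mul_le_mul_left _ r₀_h_le
  have h5 : (R.mono.length + 2 * R.pair.length) * P.t₁ ≤ (2 * P.n) * P.t₁ := by
    calc _ ≤ (c.RG i).edgeFinset.card + P.t₁ * (univ.filter fun v => ∃ x, (c.RG i).Adj v x).card := h1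
      _ ≤ P.n * P.t₁ + P.t₁ * P.n := by
          exact Nat.add_le_add (h2.trans h4) (Nat.mul_le_mul_left _ h3)
      _ = (2 * P.n) * P.t₁ := by ring
  exact Nat.le_of_mul_le_mul_right h5 (t₁_pos)

theorem R_singles (d : ∀ i, c.Lk i) {i : Fin 3} (R : c.RData d i) : R.S.card ≤ 3 * P.n := by
  have h1 := R.count₂
  have h3 := c.RG_verts i
  have h2 := leftover_le (P := P)
  omega

theorem mem_itemEdgeLists {L : Type} {root : L → V} {mono : List (MonoItem G root)}
    {pair : List (PairItem G root)} {l : List (Sym2 V)} :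
    l ∈ itemEdgeLists mono pair ↔ (∃ it ∈ mono, it.w.edges = l) ∨ (∃ it ∈ pair, it.aw.edges = l) ∨
      (∃ it ∈ pair, it.bw.edges = l) := by
  simp [itemEdgeLists]

/-- One stage: heavy items plus light items, realised. -/
theorem stage (d : ∀ i, c.Lk i) (R : ∀ i, c.RData d i) (i : Fin 3) :
    ∃ (E : Set (Sym2 V)) (k : ℕ), Cov G E k ∧ k ≤ 5 * P.n ∧
      (∀ e ∈ c.Rr i, e ∉ (R i).S → e ∈ E) ∧
      (∀ j < P.r₀, ∀ e ∈ (c.HG (c.UsOf d R) i j).edgeSet, e ∈ E) ∧
      (∀ e ∈ E, (e ∈ c.St i ∧ e ∉ c.ATT ∧ e ∉ c.Pe (c.UsOf d R) ∧ e ∉ (R i).S) ∨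
        (c.LZ i e ∧ (e ∈ c.ATT ∨ e ∈ c.Pe (c.UsOf d R) ∨ ∀ x ∈ e, x ∉ c.W'))) := by
  classical
  obtain ⟨Ld⟩ := c.exists_LData i
  set Us := c.UsOf d R with hUs
  -- heavy items
  obtain ⟨monoI, hI1, hI2, hI3, hI4, hI5, hI6, hI7⟩ :=
    in_plan G P.r₀ (fun j => c.HG Us i j) (fun j => c.HG_le Us i j) (fun j j' h => c.HG_disj Us i j j' h)
      (lkRoot : c.Lk i → V) (lkTip (c.pendT i) (c.attT i)) (c.col i) (c.ilk d i)
      (by
        rintro j hj x ⟨y, hxy⟩ e
        obtain ⟨h1, h2, h3⟩ := c.HG_vert Us i j hxy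
        rcases c.ilk_spec d i j x e h1 h2 h3 with ⟨_, _, h⟩ | ⟨_, _, h⟩ <;> rw [h] <;> rfl)
      (by
        rintro j hj x ⟨y, hxy⟩ e
        obtain ⟨h1, h2, h3⟩ := c.HG_vert Us i j hxy
        rcases c.ilk_spec d i j x e h1 h2 h3 with ⟨h₁, hk, h⟩ | ⟨hj', h₂, h⟩
        · rw [h]
          show c.col i (c.pendT i x ⟨e.1, hk⟩) = j
          rw [((c.tab i).pT x h₁.1 _).2, h₁.2]
        · rw [h]
          exact ((c.tab i).aT x h2 j hj' e).2)
      (by
        rintro j hj j' hj' x x' ⟨y, hxy⟩ ⟨y', hxy'⟩ e e' heq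
        obtain ⟨h1, h2, h3⟩ := c.HG_vert Us i j hxy
        obtain ⟨h1', h2', h3'⟩ := c.HG_vert Us i j' hxy'
        rcases c.ilk_spec d i j x e h1 h2 h3 with ⟨h₁, hk, h⟩ | ⟨hj0, h₂, h⟩ <;>
          rcases c.ilk_spec d i j' x' e' h1' h2' h3' with ⟨h₁', hk', h'⟩ | ⟨hj0', h₂', h'⟩ <;>
          rw [h, h'] at heq
        · simp only [Sum.inl.injEq, Subtype.mk.injEq, Prod.mk.injEq, Fin.mk.injEq] at heq
          obtain ⟨rfl, h3⟩ := heq
          exact ⟨h₁.2.symm.trans h₁'.2, rfl, Fin.ext h3⟩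
        · simp at heq
        · simp at heq
        · simp only [Sum.inr.injEq, Subtype.mk.injEq, Prod.mk.injEq] at heq
          exact ⟨heq.2.1, heq.1, heq.2.2⟩)
  -- edge facts
  have hRSt : ∀ e ∈ (c.RG i).edgeSet, e ∈ c.Rr i := fun e he => by rwa [c.RG_edgeSet i] at he
  have hsupp : ∀ {a b : V} (w : G.Walk a b), 0 < w.length → (∀ e ∈ w.edges, e ∈ c.St i) →
      ∀ v ∈ w.support, v ∉ ((c.Zn i : Finset V) : Set V) := by
    intro a b w hw hall v hv
    obtain ⟨e, he, hve⟩ := exists_edge_of_mem_support w hw hv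
    simpa using c.St_out (hall e he) hve
  -- realise
  have hmono : ∀ it ∈ (R i).mono ++ monoI, it.w.IsPath ∧ 0 < it.w.length ∧ ∀ e ∈ it.w.edges, e ∈ c.St i := by
    intro it hit
    rcases List.mem_append.1 hit with h | h
    · obtain ⟨h1, h2, h3⟩ := (R i).m_path it h
      exact ⟨h1, h2, fun e he => (hRSt e (h3 e he)).1⟩
    · obtain ⟨h1, h2, j, -, h3⟩ := hI1 it h
      exact ⟨h1, h2, fun e he => (c.HG_edge Us i j (h3 e he)).1⟩
  have hcount : ((R i).mono ++ monoI).length + 2 * (R i).pair.length ≤ 5 * P.n := by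
    have h1 := c.R_pieces d (R i)
    have h2 := c.HG_verts Us i
    rw [List.length_append]
    omega
  have hnodup : (usedLinks ((R i).mono ++ monoI) (R i).pair).Nodup := by
    refine (usedLinks_perm _ _ _).nodup_iff.2 (List.nodup_append.2 ⟨(R i).nodup, hI3, ?_⟩)
    intro a ha b hb hab
    subst hab
    obtain ⟨w, hw, k, rfl⟩ := (R i).used a ha
    obtain ⟨j, hj, x, ⟨y, hxy⟩, e, he⟩ := hI4 _ hb
    obtain ⟨h1, h2, h3⟩ := c.HG_vert Us i j hxy
    rcases c.ilk_spec d i j x e h1 h2 h3 with ⟨h₁, hk, h⟩ | ⟨hj0, h₂, h⟩ <;> rw [h] at he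
    · simp only [plk, hw, dif_pos, Sum.inl.injEq, Subtype.mk.injEq, Prod.mk.injEq, Fin.mk.injEq] at he
      have := e.2
      omega
    · simp [plk, hw] at he
  have hedges : (itemEdgeLists ((R i).mono ++ monoI) (R i).pair).Pairwise List.Disjoint := by
    have hsymm : ∀ {a b : List (Sym2 V)}, List.Disjoint a b → List.Disjoint b a := fun h => h.symm
    refine ((itemEdgeLists_perm _ _ _).pairwise_iff hsymm).2
      (List.pairwise_append.2 ⟨(R i).edges, hI5, ?_⟩)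
    intro a ha b hb e hea heb
    have h1 : e ∈ c.Rr i := by
      rcases mem_itemEdgeLists.1 ha with ⟨it, hit, rfl⟩ | ⟨it, hit, rfl⟩ | ⟨it, hit, rfl⟩
      · exact hRSt e (((R i).m_path it hit).2.2 e hea)
      · exact hRSt e (((R i).p_path it hit).2.2.1 e hea)
      · exact hRSt e (((R i).p_path it hit).2.2.2.2.2.1 e hea)
    rcases mem_itemEdgeLists.1 hb with ⟨it, hit, rfl⟩ | ⟨it, hit, -⟩ | ⟨it, hit, -⟩
    · obtain ⟨-, -, j, -, h3⟩ := hI1 it hit
      exact (c.HG_edge Us i j (h3 e heb)).2.2.2.1 h1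
    · simp at hit
    · simp at hit
  obtain ⟨E, hE1, hE2, hE3⟩ := realize G (c.Γ i) ((c.Zn i : Finset V) : Set V) lkRoot
    (lkTip (c.pendT i) (c.attT i)) Ld.lw Ld.isLink (c.hΓG i)
    (by
      intro x y hxy
      rcases c.hΓb i x y hxy with ⟨h1, h2⟩ | ⟨h1, h2⟩
      · exact ⟨by simpa using c.T_sub_Zn i h1, by simpa using c.A_sub_Zn i h2⟩
      · exact ⟨by simpa using c.A_sub_Zn i h1, by simpa using c.T_sub_Zn i h2⟩)
    Ld.notΓ (c.col i) P.k Ld.route ((R i).mono ++ monoI) (R i).pair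
    (fun it hit => by
      obtain ⟨h1, h2, h3⟩ := hmono it hit
      exact ⟨h1, h2, hsupp _ h2 h3⟩)
    (fun it hit => by
      obtain ⟨h1, h2, h3, h4, h5, h6, h7⟩ := (R i).p_path it hit
      exact ⟨h1, h2, hsupp _ h2 (fun e he => (hRSt e (h3 e he)).1), h4, h5,
        hsupp _ h5 (fun e he => (hRSt e (h6 e he)).1), h7⟩)
    (fun it hit => by
      rcases List.mem_append.1 hit with h | h
      · exact (R i).m_col it h
      · exact hI2 it h)
    (R i).p_col hnodup hedges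
    (by
      have : 5 * P.n ≤ P.k := by unfold Par.k; omega
      omega)
  refine ⟨E, _, hE3, hcount, ?_, ?_, ?_⟩
  · -- light edges
    intro e he heS
    have he' : e ∈ (c.RG i).edgeSet := by rwa [c.RG_edgeSet i]
    rcases (R i).cover e he' with h | ⟨l, hl, hel⟩
    · exact absurd h heS
    · refine hE1 l ?_ e hel
      exact ((itemEdgeLists_perm _ _ _).mem_iff).2 (List.mem_append_left _ hl)
  · -- heavy edges
    intro j hj e he
    obtain ⟨l, hl, hel⟩ := hI6 j hj e he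
    refine hE1 l ?_ e hel
    exact ((itemEdgeLists_perm _ _ _).mem_iff).2 (List.mem_append_right _ hl)
  · -- classification
    intro e he
    rcases hE2 e he with ⟨l, hl, hel⟩ | ⟨l, hl, hel⟩ | hΓ
    · left
      rcases List.mem_append.1 (((itemEdgeLists_perm _ _ _).mem_iff).1 hl) with h | h
      · have h1 : e ∈ c.Rr i := by
          rcases mem_itemEdgeLists.1 h with ⟨it, hit, rfl⟩ | ⟨it, hit, rfl⟩ | ⟨it, hit, rfl⟩
          · exact hRSt e (((R i).m_path it hit).2.2 e hel)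
          · exact hRSt e (((R i).p_path it hit).2.2.1 e hel)
          · exact hRSt e (((R i).p_path it hit).2.2.2.2.2.1 e hel)
        refine ⟨h1.1, h1.2.1, c.Rr_not_Pe h1, fun hS => ?_⟩
        exact ((R i).S_prop e hS).2 l h hel
      · rcases mem_itemEdgeLists.1 h with ⟨it, hit, rfl⟩ | ⟨it, hit, -⟩ | ⟨it, hit, -⟩
        · obtain ⟨-, -, j, -, h3⟩ := hI1 it hit
          obtain ⟨h1, h2, h4, h5, -⟩ := c.HG_edge Us i j (h3 e hel)
          refine ⟨h1, h2, h4, fun hS => h5 ?_⟩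
          rw [← c.RG_edgeSet i]
          exact ((R i).S_prop e hS).1
        · simp at hit
        · simp at hit
    · right
      -- link edges
      have hused : l ∈ usedLinks (R i).mono (R i).pair ∨
          l ∈ usedLinks monoI ([] : List (PairItem G (lkRoot : c.Lk i → V))) :=
        List.mem_append.1 (((usedLinks_perm _ _ _).mem_iff).1 hl)
      rcases l with q | q
      · -- pending link
        have hq : q.1.1 ∈ c.W' := q.2
        have hb := ((c.tab i).pB q.1.1 hq q.1.2).1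
        have ht := ((c.tab i).pT q.1.1 hq q.1.2).1
        rw [Finset.mem_inter] at hb ht
        have hbZ : c.pendB i q.1.1 q.1.2 ∈ c.Zn i := c.B_sub_Zn i hb.2
        have htZ : c.pendT i q.1.1 q.1.2 ∈ c.Zn i := c.T_sub_Zn i (c.hClT i ht.2)
        rw [Ld.edgesP q] at hel
        simp only [List.mem_cons, List.not_mem_nil, or_false] at hel
        rcases hel with rfl | rfl
        · refine ⟨⟨_, _, rfl, hbZ, by simp [c.hW'W hq]⟩, Or.inr (Or.inl ?_)⟩
          refine ⟨i, q.1.1, hq, q.1.2, ?_, rfl⟩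
          rcases hused with hu | hu
          · right
            exact ⟨hq, by simpa using hu⟩
          · left
            obtain ⟨j, hj, x, ⟨y, hxy⟩, e, he⟩ := hI4 _ hu
            obtain ⟨h1, h2, h3⟩ := c.HG_vert Us i j hxy
            rcases c.ilk_spec d i j x e h1 h2 h3 with ⟨h₁, hk, h⟩ | ⟨hj0, h₂, h⟩ <;> rw [h] at he
            · have h5 : q = ⟨(x, ⟨e.1, hk⟩), h₁.1⟩ := by simpa using he
              rw [h5]
              simpa using e.2
            · simp at he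
        · refine ⟨⟨_, _, rfl, htZ, by simp [hbZ]⟩, Or.inr (Or.inr ?_)⟩
          intro x hx hxW
          have hW := Finset.disjoint_left.1 (c.W'_disj_Zn i) hxW
          rcases Sym2.mem_iff.1 hx with rfl | rfl
          · exact hW hbZ
          · exact hW htZ
      · -- attach link
        have hq : q.1 ∈ attIdx (c.Up i) (c.lb i) P.r₀ := q.2
        simp only [attIdx, Finset.mem_filter, Finset.mem_product, Finset.mem_range, Finset.mem_univ,
          and_true] at hq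
        obtain ⟨⟨hq1, hq2⟩, hq3⟩ := hq
        have ht := ((c.tab i).aT q.1.1 hq1 q.1.2.1 hq3 q.1.2.2).1
        rw [Finset.mem_inter] at ht
        have htZ : c.attT i q.1.1 q.1.2.1 q.1.2.2 ∈ c.Zn i := c.T_sub_Zn i (c.hClT i ht.2)
        rw [Ld.edgesA q] at hel
        simp only [List.mem_cons, List.not_mem_nil, or_false] at hel
        subst hel
        have hup : q.1.1 ∈ c.W ∪ c.Zn i ∪ c.Zn (i + 2) := by
          have : q.1.1 ∈ c.Up i := hq1
          unfold Up at this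
          rw [Finset.mem_union] at this
          rcases this with h | h <;> simp [h]
        refine ⟨⟨_, _, rfl, htZ, hup⟩, ?_⟩
        by_cases hv : q.1.1 ∈ c.W'
        · exact Or.inl ⟨i, q.1.1, hv, q.1.2.1, q.1.2.2, hq3, hq2, rfl⟩
        · refine Or.inr (Or.inr ?_)
          intro x hx hxW
          have hW := Finset.disjoint_left.1 (c.W'_disj_Zn i) hxW
          rcases Sym2.mem_iff.1 hx with rfl | rfl
          · exact hv hxW
          · exact hW htZ
    · right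
      obtain ⟨h1, h2⟩ := c.LZ_of_Γ hΓ
      exact ⟨h1, Or.inr (Or.inr h2)⟩

theorem W'_card_le' : c.W'.card ≤ P.n := by
  rw [← c.hcard]
  exact Finset.card_le_card (c.hW'W.trans c.hWQ)

theorem length_usedLinks {L : Type} {root : L → V} (a : List (MonoItem G root))
    (p : List (PairItem G root)) :
    (usedLinks a p).length = 2 * a.length + 4 * p.length := by
  have h1 : ∀ a : List (MonoItem G root),
      (a.flatMap (fun it => [it.l, it.l'])).length = 2 * a.length := by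
    intro a
    induction a with
    | nil => simp
    | cons x xs ih => simp [List.flatMap_cons, ih]; ring
  have h2 : ∀ p : List (PairItem G root),
      (p.flatMap (fun it => [it.a₁, it.a₂, it.b₁, it.b₂])).length = 4 * p.length := by
    intro p
    induction p with
    | nil => simp
    | cons x xs ih => simp [List.flatMap_cons, ih]; ring
  simp only [usedLinks, List.length_append, h1, h2]

/-- The final union of stages and singletons. -/
theorem ldl_of_ctx : ∃ E : Set (Sym2 V), E ⊆ G.edgeSet ∧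
    (∀ w ∈ c.W', ∀ x, G.Adj w x → s(w, x) ∈ E) ∧ Cov G E (57 * P.n) := by
  classical
  have hnpos : 0 < P.n := by
    have h1 := P.hn_big
    have h2 : 0 < P.Λ ^ 24 := Nat.pow_pos (by have := P.hΛ; omega)
    have h3 : 0 < 10 ^ 73 * P.Λ ^ 24 := by positivity
    omega
  have hW'ne : c.W'.Nonempty := by
    rw [← Finset.card_pos]
    have := c.big
    omega
  obtain ⟨w₀, hw₀⟩ := hW'ne
  have hM : 0 < P.M := by unfold Par.M; omega
  let q₀ : V × Fin P.M := (w₀, ⟨0, hM⟩)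
  let d : ∀ i, c.Lk i := fun i => Sum.inl ⟨q₀, hw₀⟩
  let R : ∀ i, c.RData d i := fun i => Classical.choice (c.exists_RData d i)
  choose E k hCov hk hR hH hClass using c.stage d R
  have hStW : ∀ {i : Fin 3} {e : Sym2 V}, e ∈ c.St i → ∃ x ∈ e, x ∈ c.W' := by
    rintro i e ⟨w, hw, v, -, -, rfl⟩
    exact ⟨w, by simp, hw⟩
  have hEdisj : ∀ i i', i ≠ i' → Disjoint (E i) (E i') := by
    intro i i' hne
    rw [Set.disjoint_left]
    intro e h1 h2
    rcases hClass i e h1 with ⟨a1, a2, a3, -⟩ | ⟨b1, b2⟩ <;>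
      rcases hClass i' e h2 with ⟨a1', a2', a3', -⟩ | ⟨b1', b2'⟩
    · exact Set.disjoint_left.1 (c.St_disj hne) a1 a1'
    · rcases b2' with h | h | h
      · exact a2 h
      · exact a3 h
      · obtain ⟨x, hx, hxW⟩ := hStW a1
        exact h x hx hxW
    · rcases b2 with h | h | h
      · exact a2' h
      · exact a3' h
      · obtain ⟨x, hx, hxW⟩ := hStW a1'
        exact h x hx hxW
    · exact c.LZ_disj hne b1 b1'
  -- union of the stages
  let Eall : Set (Sym2 V) := E 0 ∪ E 1 ∪ E 2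
  have hEall : Cov G Eall (k 0 + k 1 + k 2) :=
    ((hCov 0).union (hCov 1) (hEdisj 0 1 (by decide))).union (hCov 2)
      (by
        rw [Set.disjoint_union_left]
        exact ⟨hEdisj 0 2 (by decide), hEdisj 1 2 (by decide)⟩)
  -- the singletons
  let F2 : Finset (Fin P.M) := (univ : Finset (Fin 2)).image
    (fun a => (⟨a.1, by unfold Par.M; have := a.2; omega⟩ : Fin P.M))
  have hF2 : F2.card ≤ 2 := by
    refine (Finset.card_image_le).trans ?_
    simp
  let gg : ∀ i, c.Lk i → V × Fin P.M := fun i => Sum.elim (fun q => q.1) (fun _ => q₀)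
  let Ata : Finset (Sym2 V) := c.ATT_finite.toFinset
  have hAta : Ata.card ≤ 9 * P.n := by
    have := c.ATT_card
    rwa [Set.ncard_eq_toFinset_card _ c.ATT_finite] at this
  let Pf : Fin 3 → Finset (Sym2 V) := fun i =>
    (((c.W' ×ˢ F2) ∪ ((usedLinks (R i).mono (R i).pair).toFinset.image (gg i))).image
      (fun q => s(q.1, c.pendB i q.1 q.2)))
  have hPf : ∀ i, (Pf i).card ≤ 6 * P.n := by
    intro i
    have h0 : (Pf i).card ≤ ((c.W' ×ˢ F2) ∪
        ((usedLinks (R i).mono (R i).pair).toFinset.image (gg i))).card := Finset.card_image_le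
    have h1 := Finset.card_union_le (c.W' ×ˢ F2)
      ((usedLinks (R i).mono (R i).pair).toFinset.image (gg i))
    have h2 : (c.W' ×ˢ F2).card ≤ P.n * 2 := by
      rw [Finset.card_product]
      exact Nat.mul_le_mul (c.W'_card_le') hF2
    have h3 : ((usedLinks (R i).mono (R i).pair).toFinset.image (gg i)).card ≤
        (usedLinks (R i).mono (R i).pair).length :=
      Finset.card_image_le.trans (List.toFinset_card_le _)
    have h4 := length_usedLinks (R i).mono (R i).pair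
    have h5 := c.R_pieces d (R i)
    omega
  have hPe : ∀ e ∈ c.Pe (c.UsOf d R), ∃ i, e ∈ Pf i := by
    rintro e ⟨i, w, hw, k', hk', rfl⟩
    refine ⟨i, Finset.mem_image.2 ⟨(w, k'), ?_, rfl⟩⟩
    rcases hk' with h | ⟨h1, h2⟩
    · refine Finset.mem_union_left _ (Finset.mem_product.2 ⟨hw, ?_⟩)
      exact Finset.mem_image.2 ⟨⟨k'.1, h⟩, Finset.mem_univ _, Fin.ext rfl⟩
    · refine Finset.mem_union_right _ (Finset.mem_image.2 ⟨_, List.mem_toFinset.2 h2, rfl⟩)
  let Sing : Finset (Sym2 V) :=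
    ((R 0).S ∪ (R 1).S ∪ (R 2).S ∪ Ata ∪ Pf 0 ∪ Pf 1 ∪ Pf 2).filter
      (fun e => e ∉ Eall ∧ e ∈ G.edgeSet)
  have hSing : Sing.card ≤ 36 * P.n := by
    have h0 : Sing.card ≤ ((R 0).S ∪ (R 1).S ∪ (R 2).S ∪ Ata ∪ Pf 0 ∪ Pf 1 ∪ Pf 2).card :=
      Finset.card_filter_le _ _
    have h1 := Finset.card_union_le ((R 0).S ∪ (R 1).S ∪ (R 2).S ∪ Ata ∪ Pf 0 ∪ Pf 1) (Pf 2)
    have h2 := Finset.card_union_le ((R 0).S ∪ (R 1).S ∪ (R 2).S ∪ Ata ∪ Pf 0) (Pf 1)
    have h3 := Finset.card_union_le ((R 0).S ∪ (R 1).S ∪ (R 2).S ∪ Ata) (Pf 0)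
    have h4 := Finset.card_union_le ((R 0).S ∪ (R 1).S ∪ (R 2).S) Ata
    have h5 := Finset.card_union_le ((R 0).S ∪ (R 1).S) (R 2).S
    have h6 := Finset.card_union_le (R 0).S (R 1).S
    have h7 := c.R_singles d (R 0)
    have h8 := c.R_singles d (R 1)
    have h9 := c.R_singles d (R 2)
    have h10 := hPf 0
    have h11 := hPf 1
    have h12 := hPf 2
    omega
  have hSingCov : Cov G (Sing : Set (Sym2 V)) Sing.card :=
    cov_of_finset Sing (fun e he => (Finset.mem_filter.1 he).2.2)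
  have hdisj : Disjoint Eall (Sing : Set (Sym2 V)) := by
    rw [Set.disjoint_left]
    intro e h1 h2
    exact (Finset.mem_filter.1 h2).2.1 h1
  have hfinal := hEall.union hSingCov hdisj
  refine ⟨_, hfinal.subset_edgeSet, ?_, hfinal.mono ?_⟩
  · intro w hw x hadj
    have he : s(w, x) ∈ G.edgeSet := hadj
    by_cases hE : s(w, x) ∈ Eall
    · exact Or.inl hE
    · right
      refine Finset.mem_coe.2 (Finset.mem_filter.2 ⟨?_, hE, he⟩)
      have hEi : ∀ i, s(w, x) ∉ E i := by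
        intro i h
        apply hE
        fin_cases i
        · exact Or.inl (Or.inl h)
        · exact Or.inl (Or.inr h)
        · exact Or.inr h
      have hSi : ∀ i, s(w, x) ∈ (R i).S →
          s(w, x) ∈ ((R 0).S ∪ (R 1).S ∪ (R 2).S ∪ Ata ∪ Pf 0 ∪ Pf 1 ∪ Pf 2) := by
        intro i h
        fin_cases i <;> simp_all
      have hPi : ∀ i, s(w, x) ∈ Pf i →
          s(w, x) ∈ ((R 0).S ∪ (R 1).S ∪ (R 2).S ∪ Ata ∪ Pf 0 ∪ Pf 1 ∪ Pf 2) := by
        intro i h
        fin_cases i <;> simp_all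
      by_cases hA : s(w, x) ∈ c.ATT
      · have : s(w, x) ∈ Ata := c.ATT_finite.mem_toFinset.2 hA
        simp [this]
      by_cases hP : s(w, x) ∈ c.Pe (c.UsOf d R)
      · obtain ⟨i, hi⟩ := hPe _ hP
        exact hPi i hi
      obtain ⟨i, hi⟩ := c.St_cover hw hadj
      by_cases hr : s(w, x) ∈ c.Rr i
      · by_cases hs : s(w, x) ∈ (R i).S
        · exact hSi i hs
        · exact absurd (hR i _ hr hs) (hEi i)
      · obtain ⟨h1, h2⟩ := c.HG_cover (c.UsOf d R) i hi hA hP hr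
        exact absurd (hH i _ h1 _ h2) (hEi i)
  · have h0 := hk 0
    have h1 := hk 1
    have h2 := hk 2
    omega

end Ctx

/-- The Local Dense Lemma with explicit parameters. -/
theorem ldl_par (P : Par) (G : SimpleGraph V) (Q Y : Finset V) (hYQ : Y ⊆ Q) (hcard : Q.card = P.n)
    (hY : P.n ≤ 6 * Y.card) (hN : ∀ y ∈ Y, nbr G y ⊆ Q) (hdeg : ∀ y ∈ Y, P.d₀ ≤ (nbr G y).card) :
    ∃ W ⊆ Y, W.Nonempty ∧ ∃ E : Set (Sym2 V), E ⊆ G.edgeSet ∧
      (∀ w ∈ W, ∀ x, G.Adj w x → s(w, x) ∈ E) ∧ Cov G E (30000 * W.card) := by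
  obtain ⟨c, hc⟩ := exists_ctx P G Q Y hYQ hcard hY hN hdeg
  obtain ⟨E, h1, h2, h3⟩ := c.ldl_of_ctx
  have hnpos : 0 < P.n := by
    have h1 := P.hn_big
    have h2 : 0 < P.Λ ^ 24 := Nat.pow_pos (by have := P.hΛ; omega)
    have h3 : 0 < 10 ^ 73 * P.Λ ^ 24 := by positivity
    omega
  have hbig := c.big
  refine ⟨c.W', c.hW'W.trans hc, ?_, E, h1, h2, h3.mono ?_⟩
  · rw [← Finset.card_pos]
    omega
  · omega

end

/-- The Local Dense Lemma. -/
theorem ldl_statement : ∃ n₁, LDLStatement 30000 n₁ := by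
  obtain ⟨n₁, h⟩ := exists_par_of_large
  refine ⟨max n₁ 1, ?_⟩
  intro V _ G Q Y d₀ hYQ hn hcardY hN hdeg hlog
  have hn₁ : n₁ ≤ Q.card := (le_max_left _ _).trans hn
  have hn₂ : 1 ≤ Q.card := (le_max_right _ _).trans hn
  have hYne : Y.Nonempty := by
    rw [← Finset.card_pos]
    omega
  obtain ⟨y, hy⟩ := hYne
  have hd : d₀ ≤ Q.card := (hdeg y hy).trans (Finset.card_le_card (hN y hy))
  obtain ⟨P, hPn, hPd, -⟩ := h Q.card d₀ hn₁ hlog hd
  exact ldl_par P G Q Y hYQ hPn.symm (by rw [hPn]; exact hcardY) hN (by rw [hPd]; exact hdeg)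

end Crest.Agent.EG
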