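import Crest.Agent.EG.Closing

/-!
# Realising items: paths closed by links and routes (S0064 blueprint Step E, CLOSING)

`L` is a finite type of links.  A link `l` is a path `lw l` from its root (outside the zone `Z`)
to its tip (inside `Z`), all other vertices in `Z`; different links are edge-disjoint.  `Γ` is a graph inside `Z`
containing no link edge, with a routing property between tips.
-/

set_option autoImplicit false

namespace Crest.Agent.EG

open Finset
open scoped Classical

variable {V L : Type}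

/-- A path to be closed by one route. -/
structure MonoItem (G : SimpleGraph V) (root : L → V) where
  l : L
  l' : L
  w : G.Walk (root l) (root l')

/-- Two paths to be closed together by two routes: `a₁ ~ b₁`, `a₂ ~ b₂`. -/
structure PairItem (G : SimpleGraph V) (root : L → V) where
  a₁ : L
  a₂ : L
  b₁ : L
  b₂ : L
  aw : G.Walk (root a₁) (root a₂)
  bw : G.Walk (root b₁) (root b₂)

/-- The links are paths from outside `Z` to inside `Z`, pairwise edge-disjoint. -/
structure IsLinkSys (G : SimpleGraph V) (Z : Set V) (root tip : L → V)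
    (lw : ∀ l, G.Walk (root l) (tip l)) : Prop where
  root_out : ∀ l, root l ∉ Z
  tip_in : ∀ l, tip l ∈ Z
  isPath : ∀ l, (lw l).IsPath
  inner : ∀ l, ∀ v ∈ (lw l).support, v = root l ∨ v ∈ Z
  disj : ∀ l l', l ≠ l' → List.Disjoint (lw l).edges (lw l').edges

/-- The list of all links used by the items. -/
def usedLinks {G : SimpleGraph V} {root : L → V}
    (mono : List (MonoItem G root)) (pair : List (PairItem G root)) : List L :=
  mono.flatMap (fun it => [it.l, it.l']) ++ pair.flatMap (fun it => [it.a₁, it.a₂, it.b₁, it.b₂])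

/-- The edge lists of all the paths in the items. -/
def itemEdgeLists {G : SimpleGraph V} {root : L → V}
    (mono : List (MonoItem G root)) (pair : List (PairItem G root)) : List (List (Sym2 V)) :=
  mono.map (fun it => it.w.edges) ++ pair.map (fun it => it.aw.edges) ++
    pair.map (fun it => it.bw.edges)

namespace ItemsAux

open SimpleGraph

section links

variable {G Γ : SimpleGraph V} {Z : Set V} {root tip : L → V}
  {lw : ∀ l, G.Walk (root l) (tip l)}

theorem link_meets (hL : IsLinkSys G Z root tip lw) (l : L) {e : Sym2 V}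
    (he : e ∈ (lw l).edges) : ∃ v ∈ e, v ∈ Z := by
  induction e using Sym2.ind with
  | _ x y =>
    have hx := (lw l).fst_mem_support_of_mem_edges he
    have hy := (lw l).snd_mem_support_of_mem_edges he
    have hadj := (lw l).adj_of_mem_edges he
    rcases hL.inner l x hx with hx' | hx'
    · rcases hL.inner l y hy with hy' | hy'
      · exact absurd (hx'.trans hy'.symm) hadj.ne
      · exact ⟨y, by simp, hy'⟩
    · exact ⟨x, by simp, hx'⟩

theorem link_pos (hL : IsLinkSys G Z root tip lw) (l : L) : 0 < (lw l).length := by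
  by_contra h
  have h0 : (lw l).length = 0 := by omega
  have := Walk.eq_of_length_eq_zero h0
  exact hL.root_out l (this ▸ hL.tip_in l)

theorem link_getVert (hL : IsLinkSys G Z root tip lw) (l : L) {i : ℕ} (h0 : 0 < i)
    (hi : i ≤ (lw l).length) : (lw l).getVert i ∈ Z := by
  rcases hL.inner l _ ((lw l).getVert_mem_support i) with h | h
  · have h1 : (lw l).getVert i = (lw l).getVert 0 := by simpa using h
    have := (hL.isPath l).getVert_injOn (x₁ := i) (x₂ := 0) hi (Nat.zero_le _) h1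
    omega
  · exact h

theorem route_support {x y : V} (hΓZ : ∀ x y, Γ.Adj x y → x ∈ Z ∧ y ∈ Z) (R : Γ.Walk x y)
    (hx : x ∈ Z) : ∀ v ∈ R.support, v ∈ Z := by
  induction R with
  | nil => simpa using hx
  | cons h p ih =>
    intro v hv
    simp only [Walk.support_cons, List.mem_cons] at hv
    rcases hv with rfl | hv
    · exact hx
    · exact ih (hΓZ _ _ h).2 v hv

/-- The connector: link, route, reversed link. -/
def conn (lw : ∀ l, G.Walk (root l) (tip l)) (hΓ : Γ ≤ G) (a b : L)
    (R : Γ.Walk (tip a) (tip b)) : G.Walk (root a) (root b) :=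
  (lw a).append ((R.mapLe hΓ).append (lw b).reverse)

theorem mem_edges_conn (hΓ : Γ ≤ G) {a b : L} (R : Γ.Walk (tip a) (tip b)) {e : Sym2 V} :
    e ∈ (conn lw hΓ a b R).edges ↔ e ∈ (lw a).edges ∨ e ∈ R.edges ∨ e ∈ (lw b).edges := by
  simp [conn, Walk.edges_append, Walk.edges_reverse]

theorem conn_isConnector (hL : IsLinkSys G Z root tip lw) (hΓ : Γ ≤ G)
    (hΓZ : ∀ x y, Γ.Adj x y → x ∈ Z ∧ y ∈ Z) {a b : L} (R : Γ.Walk (tip a) (tip b)) :
    IsConnector Z (conn lw hΓ a b R) := by
  have ha := link_pos hL a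
  have hb := link_pos hL b
  refine ⟨hL.root_out a, hL.root_out b, ?_, ?_⟩
  · simp only [conn, Walk.length_append, Walk.length_reverse]
    omega
  · intro i hi0 hi
    simp only [conn, Walk.length_append, Walk.length_reverse, Walk.length_mapLe] at hi
    simp only [conn, Walk.getVert_append]
    split_ifs with h1 h2
    · exact link_getVert hL a hi0 h1.le
    · have hmem := (R.mapLe hΓ).getVert_mem_support (i - (lw a).length)
      rw [Walk.support_mapLe_eq_support] at hmem
      exact route_support hΓZ R (hL.tip_in a) _ hmem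
    · rw [Walk.getVert_reverse]
      simp only [Walk.length_mapLe] at *
      exact link_getVert hL b (by omega) (by omega)

theorem conn_isTrail (hL : IsLinkSys G Z root tip lw) (hΓ : Γ ≤ G)
    (hΓL : ∀ l, ∀ e ∈ (lw l).edges, e ∉ Γ.edgeSet) {a b : L} (hab : a ≠ b)
    {R : Γ.Walk (tip a) (tip b)} (hR : R.IsPath) : (conn lw hΓ a b R).IsTrail := by
  rw [Walk.isTrail_def]
  simp only [conn, Walk.edges_append, Walk.edges_reverse, Walk.edges_mapLe_eq_edges]
  have hRn : ∀ e ∈ R.edges, e ∈ Γ.edgeSet := fun e he => R.edges_subset_edgeSet he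
  refine List.nodup_append.2 ⟨(hL.isPath a).isTrail.edges_nodup, List.nodup_append.2
    ⟨hR.isTrail.edges_nodup, List.nodup_reverse.2 (hL.isPath b).isTrail.edges_nodup, ?_⟩, ?_⟩
  · intro e he e' he' h
    subst h
    exact hΓL b e (by simpa using he') (hRn e he)
  · intro e he e' he' h
    subst h
    rcases List.mem_append.1 he' with h | h
    · exact hΓL a e he (hRn e h)
    · exact hL.disj a b hab he (by simpa using h)

end links

section route

variable {Γ : SimpleGraph V} {tip : L → V} {col : V → ℕ} {k : ℕ}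

theorem disj4 {a b c d : L} (h : List.Disjoint [a, b] [c, d]) :
    a ≠ c ∧ a ≠ d ∧ b ≠ c ∧ b ≠ d := by
  refine ⟨?_, ?_, ?_, ?_⟩ <;> rintro rfl <;> simp at h

/-- The routing hypothesis in a form indexed by the demand list. -/
theorem route_list
    (hroute : ∀ (c : ℕ) (x y : Fin c → L), c ≤ k → Function.Injective (Sum.elim x y) →
      (∀ i, col (tip (x i)) = col (tip (y i))) →
      ∃ w : ∀ i, Γ.Walk (tip (x i)) (tip (y i)), (∀ i, (w i).IsPath) ∧
        (∀ i j, i ≠ j → List.Disjoint (w i).edges (w j).edges))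
    (D : List (L × L)) (hD : (D.flatMap fun p => [p.1, p.2]).Nodup)
    (hc : ∀ p ∈ D, col (tip p.1) = col (tip p.2)) (hk : D.length ≤ k) :
    ∃ R : ∀ p, p ∈ D → Γ.Walk (tip p.1) (tip p.2), (∀ p hp, (R p hp).IsPath) ∧
      (∀ p hp q hq, p ≠ q → List.Disjoint (R p hp).edges (R q hq).edges) := by
  obtain ⟨hD1, hD2⟩ := List.nodup_flatMap.1 hD
  have key : ∀ i j : Fin D.length, i ≠ j →
      List.Disjoint [(D.get i).1, (D.get i).2] [(D.get j).1, (D.get j).2] := by
    intro i j hij
    rcases lt_or_gt_of_ne hij with h | h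
    · exact List.pairwise_iff_get.1 hD2 i j h
    · exact (List.pairwise_iff_get.1 hD2 j i h).symm
  have self : ∀ i : Fin D.length, (D.get i).1 ≠ (D.get i).2 := by
    intro i
    have := hD1 (D.get i) (List.get_mem _ _)
    simpa using this
  have key' : ∀ i j : Fin D.length, i ≠ j → (D.get i).1 ≠ (D.get j).1 ∧ (D.get i).1 ≠ (D.get j).2 ∧
      (D.get i).2 ≠ (D.get j).1 ∧ (D.get i).2 ≠ (D.get j).2 := by
    intro i j hij
    exact disj4 (key i j hij)
  have hinj : Function.Injective (Sum.elim (fun i => (D.get i).1) (fun i => (D.get i).2)) := by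
    rintro (i | i) (j | j) h
    · simp only [Sum.elim_inl] at h
      by_contra hne
      exact (key' i j (fun h' => hne (by rw [h']))).1 h
    · simp only [Sum.elim_inl, Sum.elim_inr] at h
      by_cases hij : i = j
      · subst hij; exact absurd h (self i)
      · exact absurd h (key' i j hij).2.1
    · simp only [Sum.elim_inl, Sum.elim_inr] at h
      by_cases hij : i = j
      · subst hij; exact absurd h.symm (self i)
      · exact absurd h (key' i j hij).2.2.1
    · simp only [Sum.elim_inr] at h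
      by_contra hne
      exact (key' i j (fun h' => hne (by rw [h']))).2.2.2 h
  obtain ⟨w, hw1, hw2⟩ := hroute D.length (fun i => (D.get i).1) (fun i => (D.get i).2) hk hinj
    (fun i => hc _ (List.get_mem _ _))
  have hex : ∀ p, p ∈ D → ∃ r : Γ.Walk (tip p.1) (tip p.2), r.IsPath ∧
      ∃ i, D.get i = p ∧ r.edges = (w i).edges := by
    intro p hp
    obtain ⟨i, rfl⟩ := List.mem_iff_get.1 hp
    exact ⟨w i, hw1 i, i, rfl, rfl⟩
  choose R hR1 idx hidx hedges using hex
  refine ⟨R, hR1, ?_⟩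
  intro p hp q hq hpq
  rw [hedges p hp, hedges q hq]
  refine hw2 _ _ ?_
  intro h
  apply hpq
  rw [← hidx p hp, ← hidx q hq, h]

end route

section assemble

variable {G Γ : SimpleGraph V} {Z : Set V} {root tip : L → V}
  {lw : ∀ l, G.Walk (root l) (tip l)} {col : V → ℕ} {k : ℕ}

/-- Abstract assembly over a list of items with demands and closing property. -/
theorem realize_abstract {ι : Type} (hL : IsLinkSys G Z root tip lw)
    (hΓZ : ∀ x y, Γ.Adj x y → x ∈ Z ∧ y ∈ Z)
    (hΓL : ∀ l, ∀ e ∈ (lw l).edges, e ∉ Γ.edgeSet)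
    (hroute : ∀ (c : ℕ) (x y : Fin c → L), c ≤ k → Function.Injective (Sum.elim x y) →
      (∀ i, col (tip (x i)) = col (tip (y i))) →
      ∃ w : ∀ i, Γ.Walk (tip (x i)) (tip (y i)), (∀ i, (w i).IsPath) ∧
        (∀ i j, i ≠ j → List.Disjoint (w i).edges (w j).edges))
    (l : List ι) (dem : ι → List (L × L)) (pth : ι → List (List (Sym2 V))) (k' : ι → ℕ)
    (hnodup : (l.flatMap fun i => (dem i).flatMap fun p => [p.1, p.2]).Nodup)
    (hcol : ∀ i ∈ l, ∀ p ∈ dem i, col (tip p.1) = col (tip p.2))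
    (hcount : (l.flatMap dem).length ≤ k)
    (hpd : (l.flatMap pth).Pairwise List.Disjoint)
    (hpZ : ∀ i ∈ l, ∀ P ∈ pth i, ∀ e ∈ P, ∀ v ∈ e, v ∉ Z)
    (hclose : ∀ i ∈ l, ∀ r : (∀ p, p ∈ dem i → Γ.Walk (tip p.1) (tip p.2)),
      (∀ p hp, (r p hp).IsPath) →
      (∀ p hp q hq, p ≠ q → List.Disjoint (r p hp).edges (r q hq).edges) →
      ∃ E : Set (Sym2 V), (∀ P ∈ pth i, ∀ e ∈ P, e ∈ E) ∧
        (∀ e ∈ E, (∃ P ∈ pth i, e ∈ P) ∨
          ∃ p, ∃ hp : p ∈ dem i, e ∈ (lw p.1).edges ∨ e ∈ (r p hp).edges ∨ e ∈ (lw p.2).edges) ∧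
        Cov G E (k' i)) :
    ∃ E : Set (Sym2 V), (∀ P ∈ l.flatMap pth, ∀ e ∈ P, e ∈ E) ∧
      (∀ e ∈ E, (∃ P ∈ l.flatMap pth, e ∈ P) ∨
        (∃ a ∈ l.flatMap (fun i => (dem i).flatMap fun p => [p.1, p.2]), e ∈ (lw a).edges) ∨
        e ∈ Γ.edgeSet) ∧
      Cov G E (l.map k').sum := by
  have hDn : ((l.flatMap dem).flatMap fun p => [p.1, p.2]).Nodup := by
    rw [List.flatMap_assoc]; exact hnodup
  have hDc : ∀ p ∈ l.flatMap dem, col (tip p.1) = col (tip p.2) := by
    intro p hp
    obtain ⟨i, hi, hpi⟩ := List.mem_flatMap.1 hp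
    exact hcol i hi p hpi
  obtain ⟨R, hR1, hR2⟩ := route_list hroute (l.flatMap dem) hDn hDc hcount
  have hmem : ∀ i (_ : i ∈ l) p (_ : p ∈ dem i), p ∈ l.flatMap dem :=
    fun i hi p hp => List.mem_flatMap.2 ⟨i, hi, hp⟩
  have hex := fun i (hi : i ∈ l) => hclose i hi (fun p hp => R p (hmem i hi p hp))
      (fun p hp => hR1 _ _) (fun p hp q hq hpq => hR2 _ _ _ _ hpq)
  choose! E hE1 hE2 hE3 using hex
  have h1 : l.Pairwise (fun i j => ∀ P ∈ pth i, ∀ Q ∈ pth j, List.Disjoint P Q) :=
    (List.pairwise_flatMap.1 hpd).2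
  have h2 : l.Pairwise (fun i j => ∀ a ∈ (dem i).flatMap (fun p => [p.1, p.2]),
      ∀ b ∈ (dem j).flatMap (fun p => [p.1, p.2]), a ≠ b) := (List.pairwise_flatMap.1 hnodup).2
  have hΓmeet : ∀ e ∈ Γ.edgeSet, ∃ v ∈ e, v ∈ Z := by
    intro e he
    induction e using Sym2.ind with
    | _ x y => exact ⟨x, by simp, (hΓZ x y he).1⟩
  have hmeet : ∀ i (hi : i ∈ l) e p (hp : p ∈ dem i),
      (e ∈ (lw p.1).edges ∨ e ∈ (R p (hmem i hi p hp)).edges ∨ e ∈ (lw p.2).edges) →
      ∃ v ∈ e, v ∈ Z := by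
    intro i hi e p hp h
    rcases h with h | h | h
    · exact link_meets hL _ h
    · exact hΓmeet e ((R p (hmem i hi p hp)).edges_subset_edgeSet h)
    · exact link_meets hL _ h
  have hd : l.Pairwise fun i j => Disjoint (E i) (E j) := by
    refine (h1.and h2).imp_of_mem ?_
    rintro i j hi hj ⟨hij1, hij2⟩
    rw [Set.disjoint_left]
    intro e hei hej
    rcases hE2 i hi e hei with ⟨P, hP, heP⟩ | ⟨p, hp, hep⟩
    · rcases hE2 j hj e hej with ⟨Q, hQ, heQ⟩ | ⟨q, hq, heq⟩
      · exact hij1 P hP Q hQ heP heQ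
      · obtain ⟨v, hv, hvZ⟩ := hmeet j hj e q hq heq
        exact hpZ i hi P hP e heP v hv hvZ
    · rcases hE2 j hj e hej with ⟨Q, hQ, heQ⟩ | ⟨q, hq, heq⟩
      · obtain ⟨v, hv, hvZ⟩ := hmeet i hi e p hp hep
        exact hpZ j hj Q hQ e heQ v hv hvZ
      · have m1 : ∀ (s : ι) (t : L × L), t ∈ dem s →
            t.1 ∈ (dem s).flatMap (fun p => [p.1, p.2]) ∧
            t.2 ∈ (dem s).flatMap (fun p => [p.1, p.2]) := fun s t ht =>
          ⟨List.mem_flatMap.2 ⟨t, ht, by simp⟩, List.mem_flatMap.2 ⟨t, ht, by simp⟩⟩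
        have n11 := hij2 _ (m1 i p hp).1 _ (m1 j q hq).1
        have n12 := hij2 _ (m1 i p hp).1 _ (m1 j q hq).2
        have n21 := hij2 _ (m1 i p hp).2 _ (m1 j q hq).1
        have n22 := hij2 _ (m1 i p hp).2 _ (m1 j q hq).2
        have hpq : p ≠ q := fun h => n11 (by rw [h])
        have hsub : ∀ s (hs : s ∈ l.flatMap dem), ∀ e ∈ (R s hs).edges, e ∈ Γ.edgeSet :=
          fun s hs e he => (R s hs).edges_subset_edgeSet he
        rcases hep with h | h | h <;> rcases heq with h' | h' | h'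
        · exact hL.disj _ _ n11 h h'
        · exact hΓL _ e h (hsub _ _ e h')
        · exact hL.disj _ _ n12 h h'
        · exact hΓL _ e h' (hsub _ _ e h)
        · exact hR2 _ _ _ _ hpq h h'
        · exact hΓL _ e h' (hsub _ _ e h)
        · exact hL.disj _ _ n21 h h'
        · exact hΓL _ e h (hsub _ _ e h')
        · exact hL.disj _ _ n22 h h'
  refine ⟨⋃ i ∈ l, E i, ?_, ?_, Cov.list_union l E k' (fun i hi => hE3 i hi) hd⟩
  · intro P hP e he
    obtain ⟨i, hi, hPi⟩ := List.mem_flatMap.1 hP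
    exact Set.mem_iUnion₂.2 ⟨i, hi, hE1 i hi P hPi e he⟩
  · intro e he
    obtain ⟨i, hi, hei⟩ := Set.mem_iUnion₂.1 he
    rcases hE2 i hi e hei with ⟨P, hP, heP⟩ | ⟨p, hp, h | h | h⟩
    · exact Or.inl ⟨P, List.mem_flatMap.2 ⟨i, hi, hP⟩, heP⟩
    · exact Or.inr (Or.inl ⟨p.1, List.mem_flatMap.2 ⟨i, hi, List.mem_flatMap.2 ⟨p, hp, by simp⟩⟩, h⟩)
    · exact Or.inr (Or.inr ((R p (hmem i hi p hp)).edges_subset_edgeSet h))
    · exact Or.inr (Or.inl ⟨p.2, List.mem_flatMap.2 ⟨i, hi, List.mem_flatMap.2 ⟨p, hp, by simp⟩⟩, h⟩)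

theorem perm_map_append_map {α β : Type} (s : List α) (f g : α → β) :
    (s.map f ++ s.map g).Perm (s.flatMap fun a => [f a, g a]) := by
  induction s with
  | nil => simp
  | cons a t ih =>
    simp only [List.map_cons, List.cons_append, List.flatMap_cons, List.nil_append]
    refine List.Perm.cons _ ?_
    refine List.perm_middle.trans ?_
    exact List.Perm.cons _ ih

theorem length_flatMap_const {α β : Type} (s : List α) (f : α → List β) (c : ℕ)
    (h : ∀ a, (f a).length = c) : (s.flatMap f).length = c * s.length := by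
  induction s with
  | nil => simp
  | cons a t ih =>
    simp only [List.flatMap_cons, List.length_append, List.length_cons, h, ih]
    ring

end assemble

section items

variable {G Γ : SimpleGraph V} {Z : Set V} {root tip : L → V}
  {lw : ∀ l, G.Walk (root l) (tip l)}

/-- All items as one list. -/
def itList (mono : List (MonoItem G root)) (pair : List (PairItem G root)) :
    List (MonoItem G root ⊕ PairItem G root) :=
  mono.map Sum.inl ++ pair.map Sum.inr

/-- The demands of an item. -/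
def itDem : (MonoItem G root ⊕ PairItem G root) → List (L × L)
  | .inl it => [(it.l, it.l')]
  | .inr it => [(it.a₁, it.b₁), (it.a₂, it.b₂)]

/-- The path edge lists of an item. -/
def itPth : (MonoItem G root ⊕ PairItem G root) → List (List (Sym2 V))
  | .inl it => [it.w.edges]
  | .inr it => [it.aw.edges, it.bw.edges]

/-- The number of cycles allowed for an item. -/
def itK : (MonoItem G root ⊕ PairItem G root) → ℕ
  | .inl _ => 1
  | .inr _ => 2

theorem perm_links (mono : List (MonoItem G root)) (pair : List (PairItem G root)) :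
    ((itList mono pair).flatMap fun i => (itDem i).flatMap fun p => [p.1, p.2]).Perm
      (usedLinks mono pair) := by
  simp only [itList, usedLinks, List.flatMap_append, List.flatMap_map]
  refine List.Perm.append ?_ ?_
  · simp [itDem]
  · refine List.Perm.flatMap_left _ ?_
    intro it _
    simp only [itDem, List.flatMap_cons, List.flatMap_nil, List.cons_append, List.nil_append,
      List.append_nil]
    exact List.Perm.cons _ (List.Perm.swap _ _ _)

theorem perm_edges (mono : List (MonoItem G root)) (pair : List (PairItem G root)) :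
    (itemEdgeLists mono pair).Perm ((itList mono pair).flatMap itPth) := by
  simp only [itList, itemEdgeLists, List.flatMap_append, List.flatMap_map, List.append_assoc]
  refine List.Perm.append ?_ ?_
  · simp [itPth, List.map_eq_flatMap]
  · exact perm_map_append_map pair _ _

theorem length_dem (mono : List (MonoItem G root)) (pair : List (PairItem G root)) :
    ((itList mono pair).flatMap (itDem (L := L))).length = mono.length + 2 * pair.length := by
  simp only [itList, List.flatMap_append, List.flatMap_map, List.length_append]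
  rw [length_flatMap_const mono _ 1 (fun a => by simp [itDem]),
    length_flatMap_const pair _ 2 (fun a => by simp [itDem])]
  ring

theorem sum_k (mono : List (MonoItem G root)) (pair : List (PairItem G root)) :
    ((itList mono pair).map itK).sum = mono.length + 2 * pair.length := by
  simp only [itList, List.map_append, List.map_map, List.sum_append]
  congr 1
  · induction mono with
    | nil => simp
    | cons a t ih => simp [itK, ih]; ring
  · induction pair with
    | nil => simp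
    | cons a t ih => simp [itK, ih]; ring

theorem close_mono_item (hL : IsLinkSys G Z root tip lw) (hΓ : Γ ≤ G)
    (hΓZ : ∀ x y, Γ.Adj x y → x ∈ Z ∧ y ∈ Z) (it : MonoItem G root)
    (hit : it.w.IsPath ∧ 0 < it.w.length ∧ (∀ v ∈ it.w.support, v ∉ Z))
    (r : ∀ p, p ∈ itDem (Sum.inl it : MonoItem G root ⊕ PairItem G root) →
      Γ.Walk (tip p.1) (tip p.2)) :
    ∃ E : Set (Sym2 V), (∀ P ∈ itPth (Sum.inl it : MonoItem G root ⊕ PairItem G root), ∀ e ∈ P, e ∈ E) ∧
      (∀ e ∈ E, (∃ P ∈ itPth (Sum.inl it : MonoItem G root ⊕ PairItem G root), e ∈ P) ∨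
        ∃ p, ∃ hp : p ∈ itDem (Sum.inl it : MonoItem G root ⊕ PairItem G root),
          e ∈ (lw p.1).edges ∨ e ∈ (r p hp).edges ∨ e ∈ (lw p.2).edges) ∧
      Cov G E (itK (Sum.inl it : MonoItem G root ⊕ PairItem G root)) := by
  have hp0 : (it.l, it.l') ∈ itDem (Sum.inl it : MonoItem G root ⊕ PairItem G root) := by
    simp [itDem]
  let R : Γ.Walk (tip it.l) (tip it.l') := r (it.l, it.l') hp0
  obtain ⟨E, h1, h2, h3⟩ := close_mono Z it.w (conn lw hΓ it.l' it.l R.reverse) hit.1 hit.2.1 hit.2.2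
    (conn_isConnector hL hΓ hΓZ _)
  refine ⟨E, ?_, ?_, h3⟩
  · intro P hP e he
    have hPe : P = it.w.edges := by simpa [itPth] using hP
    subst hPe
    exact h1 he
  · intro e he
    rcases h2 he with h | h
    · exact Or.inl ⟨it.w.edges, by simp [itPth], h⟩
    · rcases (mem_edges_conn hΓ _).1 h with h | h | h
      · exact Or.inr ⟨(it.l, it.l'), hp0, Or.inr (Or.inr h)⟩
      · refine Or.inr ⟨(it.l, it.l'), hp0, Or.inr (Or.inl ?_)⟩
        simpa [R] using h
      · exact Or.inr ⟨(it.l, it.l'), hp0, Or.inl h⟩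

theorem close_pair_item (hL : IsLinkSys G Z root tip lw) (hΓ : Γ ≤ G)
    (hΓZ : ∀ x y, Γ.Adj x y → x ∈ Z ∧ y ∈ Z)
    (hΓL : ∀ l, ∀ e ∈ (lw l).edges, e ∉ Γ.edgeSet) (it : PairItem G root)
    (hit : it.aw.IsPath ∧ 0 < it.aw.length ∧ (∀ v ∈ it.aw.support, v ∉ Z) ∧
      it.bw.IsPath ∧ 0 < it.bw.length ∧ (∀ v ∈ it.bw.support, v ∉ Z) ∧
      List.Disjoint it.aw.support it.bw.support)
    (hnd : [it.a₁, it.a₂, it.b₁, it.b₂].Nodup)
    (r : ∀ p, p ∈ itDem (Sum.inr it : MonoItem G root ⊕ PairItem G root) →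
      Γ.Walk (tip p.1) (tip p.2))
    (hr1 : ∀ p hp, (r p hp).IsPath)
    (hr2 : ∀ p hp q hq, p ≠ q → List.Disjoint (r p hp).edges (r q hq).edges) :
    ∃ E : Set (Sym2 V), (∀ P ∈ itPth (Sum.inr it : MonoItem G root ⊕ PairItem G root), ∀ e ∈ P, e ∈ E) ∧
      (∀ e ∈ E, (∃ P ∈ itPth (Sum.inr it : MonoItem G root ⊕ PairItem G root), e ∈ P) ∨
        ∃ p, ∃ hp : p ∈ itDem (Sum.inr it : MonoItem G root ⊕ PairItem G root),
          e ∈ (lw p.1).edges ∨ e ∈ (r p hp).edges ∨ e ∈ (lw p.2).edges) ∧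
      Cov G E (itK (Sum.inr it : MonoItem G root ⊕ PairItem G root)) := by
  obtain ⟨h1p, h1l, h1Z, h2p, h2l, h2Z, hdj⟩ := hit
  have hp1 : (it.a₁, it.b₁) ∈ itDem (Sum.inr it : MonoItem G root ⊕ PairItem G root) := by
    simp [itDem]
  have hp2 : (it.a₂, it.b₂) ∈ itDem (Sum.inr it : MonoItem G root ⊕ PairItem G root) := by
    simp [itDem]
  have hne : it.a₁ ≠ it.a₂ ∧ it.a₁ ≠ it.b₁ ∧ it.a₁ ≠ it.b₂ ∧ it.a₂ ≠ it.b₁ ∧ it.a₂ ≠ it.b₂ ∧
      it.b₁ ≠ it.b₂ := by
    simpa [List.nodup_cons, not_or, and_assoc] using hnd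
  obtain ⟨naa, nab1, nab2, nba1, nab3, nbb⟩ := hne
  have hpp : (it.a₁, it.b₁) ≠ (it.a₂, it.b₂) := fun h => naa (congrArg Prod.fst h)
  have hJJ : List.Disjoint (conn lw hΓ it.a₁ it.b₁ (r _ hp1)).edges
      (conn lw hΓ it.a₂ it.b₂ (r _ hp2)).edges := by
    intro e he he'
    have hsub : ∀ p hp, ∀ e ∈ (r p hp).edges, e ∈ Γ.edgeSet :=
      fun p hp e he => (r p hp).edges_subset_edgeSet he
    rcases (mem_edges_conn hΓ _).1 he with h | h | h <;>
      rcases (mem_edges_conn hΓ _).1 he' with h' | h' | h'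
    · exact hL.disj _ _ naa h h'
    · exact hΓL _ e h (hsub _ _ e h')
    · exact hL.disj _ _ nab2 h h'
    · exact hΓL _ e h' (hsub _ _ e h)
    · exact hr2 _ hp1 _ hp2 hpp h h'
    · exact hΓL _ e h' (hsub _ _ e h)
    · exact hL.disj _ _ nba1.symm h h'
    · exact hΓL _ e h (hsub _ _ e h')
    · exact hL.disj _ _ nbb h h'
  obtain ⟨E, hE1, hE2, hE3⟩ := close_pair Z it.aw it.bw
    (conn lw hΓ it.a₁ it.b₁ (r _ hp1)) (conn lw hΓ it.a₂ it.b₂ (r _ hp2))
    h1p h1l h2p h2l h1Z h2Z hdj (conn_isConnector hL hΓ hΓZ _) (conn_isConnector hL hΓ hΓZ _)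
    (conn_isTrail hL hΓ hΓL nab1 (hr1 _ hp1)) (conn_isTrail hL hΓ hΓL nab3 (hr1 _ hp2)) hJJ
  refine ⟨E, ?_, ?_, hE3⟩
  · intro P hP e he
    have hPe : P = it.aw.edges ∨ P = it.bw.edges := by simpa [itPth] using hP
    rcases hPe with rfl | rfl
    · exact hE1 (Or.inl he)
    · exact hE1 (Or.inr he)
  · intro e he
    rcases hE2 he with ((h | h) | h) | h
    · exact Or.inl ⟨it.aw.edges, by simp [itPth], h⟩
    · exact Or.inl ⟨it.bw.edges, by simp [itPth], h⟩
    · rcases (mem_edges_conn hΓ _).1 h with h | h | h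
      · exact Or.inr ⟨_, hp1, Or.inl h⟩
      · exact Or.inr ⟨_, hp1, Or.inr (Or.inl h)⟩
      · exact Or.inr ⟨_, hp1, Or.inr (Or.inr h)⟩
    · rcases (mem_edges_conn hΓ _).1 h with h | h | h
      · exact Or.inr ⟨_, hp2, Or.inl h⟩
      · exact Or.inr ⟨_, hp2, Or.inr (Or.inl h)⟩
      · exact Or.inr ⟨_, hp2, Or.inr (Or.inr h)⟩

end items

end ItemsAux

/-- Realisation.  Demands: one pair of tips per mono item, two per pair item, at most `k` in all,
routed by `hroute`.  Connectors are `lw l`, the route, `(lw l').reverse`; `close_mono`, `close_pair`;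
the sets obtained are pairwise disjoint; `Cov.list_union`. -/
theorem realize [Fintype V] [Fintype L] (G Γ : SimpleGraph V) (Z : Set V) (root tip : L → V)
    (lw : ∀ l, G.Walk (root l) (tip l)) (hL : IsLinkSys G Z root tip lw)
    (hΓ : Γ ≤ G) (hΓZ : ∀ x y, Γ.Adj x y → x ∈ Z ∧ y ∈ Z)
    (hΓL : ∀ l, ∀ e ∈ (lw l).edges, e ∉ Γ.edgeSet)
    (col : V → ℕ) (k : ℕ)
    (hroute : ∀ (c : ℕ) (x y : Fin c → L), c ≤ k → Function.Injective (Sum.elim x y) →
      (∀ i, col (tip (x i)) = col (tip (y i))) →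
      ∃ w : ∀ i, Γ.Walk (tip (x i)) (tip (y i)), (∀ i, (w i).IsPath) ∧
        (∀ i j, i ≠ j → List.Disjoint (w i).edges (w j).edges))
    (mono : List (MonoItem G root)) (pair : List (PairItem G root))
    (hm_path : ∀ it ∈ mono, it.w.IsPath ∧ 0 < it.w.length ∧ (∀ v ∈ it.w.support, v ∉ Z))
    (hp_path : ∀ it ∈ pair, it.aw.IsPath ∧ 0 < it.aw.length ∧ (∀ v ∈ it.aw.support, v ∉ Z) ∧
      it.bw.IsPath ∧ 0 < it.bw.length ∧ (∀ v ∈ it.bw.support, v ∉ Z) ∧
      List.Disjoint it.aw.support it.bw.support)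
    (hm_col : ∀ it ∈ mono, col (tip it.l) = col (tip it.l'))
    (hp_col : ∀ it ∈ pair, col (tip it.a₁) = col (tip it.b₁) ∧ col (tip it.a₂) = col (tip it.b₂))
    (hnodup : (usedLinks mono pair).Nodup)
    (hedges : (itemEdgeLists mono pair).Pairwise List.Disjoint)
    (hcount : mono.length + 2 * pair.length ≤ k) :
    ∃ E : Set (Sym2 V),
      (∀ l ∈ itemEdgeLists mono pair, ∀ e ∈ l, e ∈ E) ∧
      (∀ e ∈ E, (∃ l ∈ itemEdgeLists mono pair, e ∈ l) ∨
        (∃ l ∈ usedLinks mono pair, e ∈ (lw l).edges) ∨ e ∈ Γ.edgeSet) ∧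
      Cov G E (mono.length + 2 * pair.length) := by
  classical
  have hpermL := ItemsAux.perm_links mono pair
  have hpermE := ItemsAux.perm_edges mono pair
  have hlist : ∀ i, i ∈ ItemsAux.itList mono pair →
      (∃ it, it ∈ mono ∧ i = Sum.inl it) ∨ (∃ it, it ∈ pair ∧ i = Sum.inr it) := by
    intro i hi
    rcases List.mem_append.1 hi with h | h
    · obtain ⟨it, hit, rfl⟩ := List.mem_map.1 h
      exact Or.inl ⟨it, hit, rfl⟩
    · obtain ⟨it, hit, rfl⟩ := List.mem_map.1 h
      exact Or.inr ⟨it, hit, rfl⟩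
  have hnd' := (hpermL.nodup_iff).2 hnodup
  have hpnd : ∀ it ∈ pair, [it.a₁, it.a₂, it.b₁, it.b₂].Nodup := by
    intro it hit
    have h2 := (List.nodup_append.1 hnodup).2.1
    exact (List.nodup_flatMap.1 h2).1 it hit
  obtain ⟨E, hE1, hE2, hE3⟩ := ItemsAux.realize_abstract (lw := lw) (Γ := Γ) (col := col) (k := k)
    hL hΓZ hΓL hroute (ItemsAux.itList mono pair) ItemsAux.itDem ItemsAux.itPth ItemsAux.itK hnd'
    (by
      intro i hi p hp
      rcases hlist i hi with ⟨it, hit, rfl⟩ | ⟨it, hit, rfl⟩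
      · have hpe : p = (it.l, it.l') := by simpa [ItemsAux.itDem] using hp
        subst hpe
        exact hm_col it hit
      · have hpe : p = (it.a₁, it.b₁) ∨ p = (it.a₂, it.b₂) := by
          simpa [ItemsAux.itDem] using hp
        rcases hpe with rfl | rfl
        · exact (hp_col it hit).1
        · exact (hp_col it hit).2)
    (by rw [ItemsAux.length_dem]; exact hcount)
    ((hpermE.pairwise_iff (fun h => List.Disjoint.symm h)).1 hedges)
    (by
      intro i hi P hP e he v hv
      rcases hlist i hi with ⟨it, hit, rfl⟩ | ⟨it, hit, rfl⟩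
      · have hPe : P = it.w.edges := by simpa [ItemsAux.itPth] using hP
        subst hPe
        exact (hm_path it hit).2.2 v (ClosingAux.mem_support_of_mem_edge he hv)
      · have hPe : P = it.aw.edges ∨ P = it.bw.edges := by simpa [ItemsAux.itPth] using hP
        rcases hPe with rfl | rfl
        · exact (hp_path it hit).2.2.1 v (ClosingAux.mem_support_of_mem_edge he hv)
        · exact (hp_path it hit).2.2.2.2.2.1 v (ClosingAux.mem_support_of_mem_edge he hv))
    (by
      intro i hi r hr1 hr2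
      rcases hlist i hi with ⟨it, hit, rfl⟩ | ⟨it, hit, rfl⟩
      · exact ItemsAux.close_mono_item hL hΓ hΓZ it (hm_path it hit) r
      · exact ItemsAux.close_pair_item hL hΓ hΓZ hΓL it (hp_path it hit) (hpnd it hit) r hr1 hr2)
  refine ⟨E, ?_, ?_, ?_⟩
  · intro P hP e he
    exact hE1 P (hpermE.mem_iff.1 hP) e he
  · intro e he
    rcases hE2 e he with ⟨P, hP, heP⟩ | ⟨a, ha, hea⟩ | h
    · exact Or.inl ⟨P, hpermE.mem_iff.2 hP, heP⟩
    · exact Or.inr (Or.inl ⟨a, hpermL.mem_iff.1 ha, hea⟩)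
    · exact Or.inr (Or.inr h)
  · rw [ItemsAux.sum_k] at hE3
    exact hE3

end Crest.Agent.EG
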