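import Crest.Agent.EG.Basic
import Crest.Agent.S0064Lib.Lovasz

/-!
# Lovász's path decomposition theorem (weak form sufficient for S0064)

Every finite simple graph decomposes into paths such that every vertex is an end of at most two
of the paths.  The proof is in `Crest.Agent.S0064Lib.Lovasz`; here it is translated to walks.
-/

set_option autoImplicit false

namespace Crest.Agent.EG

open Finset
open scoped Classical

variable {V : Type} [Fintype V]

section translate

open Crest.Agent.S0064Lib.Lovasz

omit [Fintype V] in
theorem edges_eq_edgesL {H : SimpleGraph V} {u v : V} (p : H.Walk u v) :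
    p.edges = edgesL p.support := by
  induction p with
  | nil => simp
  | cons h p ih =>
    rw [SimpleGraph.Walk.edges_cons, SimpleGraph.Walk.support_cons, ih,
      ← SimpleGraph.Walk.cons_tail_support p]
    rfl

omit [Fintype V] in
theorem isChain_of_edges {H : SimpleGraph V} (l : List V)
    (h : ∀ e ∈ edgesL l, e ∈ H.edgeSet) : l.IsChain H.Adj := by
  induction l with
  | nil => simp
  | cons a l ih =>
    cases l with
    | nil => simp
    | cons b l =>
      refine List.IsChain.cons_cons ?_ (ih fun e he => h e (by simp [he]))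
      exact h s(a, b) (by simp)

omit [Fintype V] in
theorem ends_eq (l : List V) (hne : l ≠ []) (v : V) :
    ends l v = (if l.head hne = v then 1 else 0) + (if l.getLast hne = v then 1 else 0) := by
  unfold ends
  rw [List.head?_eq_some_head hne, List.getLast?_eq_getLast_of_ne_nil hne]
  simp

end translate

/-- The number of paths is at most the number of non-isolated vertices. -/
theorem exists_path_decomposition' (H : SimpleGraph V) :
    ∃ (m : ℕ) (s t : Fin m → V) (w : ∀ i, H.Walk (s i) (t i)),
      (∀ i, (w i).IsPath ∧ 0 < (w i).length) ∧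
      (∀ i j, i ≠ j → List.Disjoint (w i).edges (w j).edges) ∧
      (∀ e ∈ H.edgeSet, ∃ i, e ∈ (w i).edges) ∧
      (∀ v, (univ.filter fun i => s i = v).card + (univ.filter fun i => t i = v).card ≤ 2) ∧
      m ≤ (univ.filter fun v => ∃ x, H.Adj v x).card := by
  open Crest.Agent.S0064Lib.Lovasz in
  obtain ⟨D, hD, hle⟩ := exists_decomp (Set.toFinite H.edgeSet).toFinset (by
    intro e he
    exact H.not_isDiag_of_mem_edgeSet ((Set.toFinite H.edgeSet).mem_toFinset.1 he))
  set L : List (List V) := D.toList with hL
  have hLD : ∀ l, l ∈ L ↔ l ∈ D := fun l => Multiset.mem_toList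
  have hmem : ∀ i : Fin L.length, L.get i ∈ D := fun i => (hLD _).1 (List.get_mem L i)
  have hnd : ∀ i : Fin L.length, (L.get i).Nodup := fun i => (hD.path _ (hmem i)).1
  have hln : ∀ i : Fin L.length, 2 ≤ (L.get i).length := fun i => (hD.path _ (hmem i)).2
  have hne : ∀ i : Fin L.length, L.get i ≠ [] := by
    intro i h
    have := hln i
    rw [h] at this
    simp at this
  have hch : ∀ i : Fin L.length, (L.get i).IsChain H.Adj := by
    intro i
    apply isChain_of_edges
    intro e he
    exact (Set.toFinite H.edgeSet).mem_toFinset.1 (mem_of_mem_edges hD (hmem i) he)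
  have hsum : ∀ f : List V → ℕ, (D.map f).sum = ∑ i : Fin L.length, f (L.get i) := by
    intro f
    have h1 : D = (L : Multiset (List V)) := (Multiset.coe_toList D).symm
    rw [h1, Multiset.map_coe, Multiset.sum_coe, ← Fin.sum_univ_fun_getElem]
    simp [hL]
  have hcnt : ∀ e, ∑ i : Fin L.length, (edgesL (L.get i)).count e =
      if e ∈ (Set.toFinite H.edgeSet).toFinset then 1 else 0 := by
    intro e
    rw [← hD.edges e]
    exact (hsum (fun l => (edgesL l).count e)).symm
  have hends : ∀ v, ∑ i : Fin L.length, ends (L.get i) v = endc D v := by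
    intro v
    exact (hsum (fun l => ends l v)).symm
  refine ⟨L.length, fun i => (L.get i).head (hne i), fun i => (L.get i).getLast (hne i),
    fun i => SimpleGraph.Walk.ofSupport (L.get i) (hne i) (hch i), ?_, ?_, ?_, ?_, ?_⟩
  · intro i
    refine ⟨?_, ?_⟩
    · rw [SimpleGraph.Walk.isPath_def, SimpleGraph.Walk.support_ofSupport]
      exact hnd i
    · rw [SimpleGraph.Walk.length_ofSupport]
      have := hln i
      omega
  · intro i j hij e hi hj
    rw [edges_eq_edgesL, SimpleGraph.Walk.support_ofSupport] at hi hj
    have h1 := hcnt e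
    have h2 : (∑ k ∈ ({i, j} : Finset (Fin L.length)), (edgesL (L.get k)).count e) ≤
        ∑ k : Fin L.length, (edgesL (L.get k)).count e :=
      Finset.sum_le_sum_of_subset (Finset.subset_univ _)
    rw [Finset.sum_pair hij] at h2
    have h3 := List.count_pos_iff.2 hi
    have h4 := List.count_pos_iff.2 hj
    split_ifs at h1 <;> omega
  · intro e he
    have h1 := hcnt e
    rw [if_pos ((Set.toFinite H.edgeSet).mem_toFinset.2 he)] at h1
    obtain ⟨i, -, hi⟩ := Finset.exists_ne_zero_of_sum_ne_zero (s := Finset.univ)
      (f := fun i : Fin L.length => (edgesL (L.get i)).count e) (by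
        rw [h1]; exact one_ne_zero)
    refine ⟨i, ?_⟩
    rw [edges_eq_edgesL, SimpleGraph.Walk.support_ofSupport]
    exact List.count_pos_iff.1 (Nat.pos_of_ne_zero hi)
  · intro v
    have h1 := hle v
    rw [← hends v] at h1
    simp only [ends_eq _ (hne _), Finset.sum_add_distrib] at h1
    rw [Finset.card_filter, Finset.card_filter]
    exact h1
  · -- counting
    have h1 : ∑ v : V, endc D v = 2 * L.length := by
      simp only [← hends]
      rw [Finset.sum_comm]
      have : ∀ i : Fin L.length, ∑ v : V, ends (L.get i) v = 2 := by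
        intro i
        simp only [ends_eq _ (hne i), Finset.sum_add_distrib]
        simp
      rw [Finset.sum_congr rfl (fun i _ => this i)]
      simp [mul_comm]
    have h2 : ∑ v : V, endc D v ≤ ∑ v ∈ univ.filter (fun v => ∃ x, H.Adj v x), 2 := by
      rw [← Finset.sum_filter_add_sum_filter_not univ (fun v => ∃ x, H.Adj v x)]
      have h3 : ∑ v ∈ univ.filter (fun v => ¬ ∃ x, H.Adj v x), endc D v = 0 := by
        apply Finset.sum_eq_zero
        intro v hv
        by_contra hne0
        obtain ⟨u, hu⟩ := exists_edge_of_end hD hne0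
        have hu' : s(v, u) ∈ H.edgeSet := (Set.toFinite H.edgeSet).mem_toFinset.1 hu
        exact (Finset.mem_filter.1 hv).2 ⟨u, hu'⟩
      rw [h3, add_zero]
      exact Finset.sum_le_sum fun v _ => hle v
    rw [h1] at h2
    simp only [Finset.sum_const, smul_eq_mul] at h2
    omega

/-- Lovász. `w i` for `i : Fin m` are paths of positive length in `H`, pairwise edge-disjoint,
covering all edges of `H`; every vertex is an end of at most two of them. -/
theorem exists_path_decomposition (H : SimpleGraph V) :
    ∃ (m : ℕ) (s t : Fin m → V) (w : ∀ i, H.Walk (s i) (t i)),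
      (∀ i, (w i).IsPath ∧ 0 < (w i).length) ∧
      (∀ i j, i ≠ j → List.Disjoint (w i).edges (w j).edges) ∧
      (∀ e ∈ H.edgeSet, ∃ i, e ∈ (w i).edges) ∧
      (∀ v, (univ.filter fun i => s i = v).card + (univ.filter fun i => t i = v).card ≤ 2) := by
  obtain ⟨m, s, t, w, h1, h2, h3, h4, -⟩ := exists_path_decomposition' H
  exact ⟨m, s, t, w, h1, h2, h3, h4⟩

end Crest.Agent.EG
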