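import Crest.Agent.EG.Basic

/-!
# Nets (blueprint Step A)
-/

set_option autoImplicit false

namespace Crest.Agent.EG

open Finset
open scoped Classical

variable {V : Type} [Fintype V]

/-- Bonferroni in the form used below. -/
private theorem bonferroni (G : SimpleGraph V) (s : ℕ) (F : Finset V)
    (hF : ∀ x ∈ F, ∀ y ∈ F, x ≠ y → (nbr G x ∩ nbr G y).card < s) :
    2 * ∑ y ∈ F, (nbr G y).card ≤ 2 * (F.biUnion (nbr G)).card + F.card ^ 2 * s := by
  induction F using Finset.induction_on with
  | empty => simp
  | insert a F ha ih =>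
    have ih' := ih (fun x hx y hy hxy =>
      hF x (Finset.mem_insert_of_mem hx) y (Finset.mem_insert_of_mem hy) hxy)
    rw [Finset.sum_insert ha, Finset.card_insert_of_notMem ha, Finset.biUnion_insert]
    have h1 : (nbr G a ∩ F.biUnion (nbr G)).card ≤ F.card * s := by
      rw [Finset.inter_biUnion]
      refine Finset.card_biUnion_le.trans ?_
      calc ∑ y ∈ F, (nbr G a ∩ nbr G y).card ≤ ∑ _y ∈ F, s := by
            refine Finset.sum_le_sum fun y hy => ?_
            refine (hF a (Finset.mem_insert_self _ _) y (Finset.mem_insert_of_mem hy) ?_).le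
            rintro rfl
            exact ha hy
        _ = F.card * s := by simp
    have h2 := Finset.card_union_add_card_inter (nbr G a) (F.biUnion (nbr G))
    nlinarith

/-- Bonferroni bound: a family in `Y` with pairwise codegree `< s` has at most `2Λ` elements
when `4Λ²s ≤ |Q|`, degrees `≥ d₀`, `|Q| ≤ Λ d₀` and all neighbourhoods lie in `Q`. -/
theorem card_le_of_small_codegree (G : SimpleGraph V) (Q F : Finset V) (d₀ s Λ : ℕ)
    (hN : ∀ y ∈ F, nbr G y ⊆ Q) (hdeg : ∀ y ∈ F, d₀ ≤ (nbr G y).card)
    (hn : Q.card ≤ Λ * d₀) (hs : 4 * Λ ^ 2 * s ≤ Q.card) (hQ : 0 < Q.card)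
    (hF : ∀ x ∈ F, ∀ y ∈ F, x ≠ y → (nbr G x ∩ nbr G y).card < s) :
    F.card ≤ 2 * Λ := by
  by_contra hcon
  push Not at hcon
  obtain ⟨F', hF'F, hF'c⟩ := Finset.exists_subset_card_eq hcon.le
  have hb := bonferroni G s F'
    (fun x hx y hy hxy => hF x (hF'F hx) y (hF'F hy) hxy)
  have hU : (F'.biUnion (nbr G)).card ≤ Q.card :=
    Finset.card_le_card (Finset.biUnion_subset.2 fun y hy => hN y (hF'F hy))
  have hsum : F'.card * d₀ ≤ ∑ y ∈ F', (nbr G y).card := by
    calc F'.card * d₀ = ∑ _y ∈ F', d₀ := by simp
      _ ≤ _ := Finset.sum_le_sum fun y hy => hdeg y (hF'F hy)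
  rw [hF'c] at hb hsum
  have h1 : (2 * Λ) ^ 2 * s = 4 * Λ ^ 2 * s := by ring
  rw [h1] at hb
  nlinarith

/-- Levels of nets: pairwise disjoint, each a maximal family with small pairwise codegree within
what is left of `Y`.  Every `y ∈ Y` outside all the nets has in every level a mate of codegree
`≥ s`. -/
theorem exists_nets {ι : Type} [Fintype ι] (G : SimpleGraph V) (Q Y : Finset V) (d₀ s Λ : ℕ)
    (hN : ∀ y ∈ Y, nbr G y ⊆ Q) (hdeg : ∀ y ∈ Y, d₀ ≤ (nbr G y).card)
    (hn : Q.card ≤ Λ * d₀) (hs : 4 * Λ ^ 2 * s ≤ Q.card) (hQ : 0 < Q.card) :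
    ∃ Net : ι → Finset V,
      (∀ l, Net l ⊆ Y) ∧
      (∀ l l', l ≠ l' → Disjoint (Net l) (Net l')) ∧
      (∀ l, (Net l).card ≤ 2 * Λ) ∧
      ∀ y ∈ Y, (∀ l, y ∉ Net l) → ∀ l, ∃ m ∈ Net l, s ≤ (nbr G y ∩ nbr G m).card := by
  -- sparse families
  let P : Finset V → Prop := fun F => ∀ x ∈ F, ∀ y ∈ F, x ≠ y → (nbr G x ∩ nbr G y).card < s
  -- a maximal sparse family in a given set
  have hmax : ∀ Y' : Finset V, ∃ F ⊆ Y', P F ∧
      ∀ y ∈ Y', y ∉ F → ∃ m ∈ F, s ≤ (nbr G y ∩ nbr G m).card := by
    intro Y'
    have hne : (Y'.powerset.filter P).Nonempty :=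
      ⟨∅, by simp [P]⟩
    obtain ⟨F, hF, hFmax⟩ := (Y'.powerset.filter P).exists_max_image Finset.card hne
    rw [Finset.mem_filter, Finset.mem_powerset] at hF
    refine ⟨F, hF.1, hF.2, ?_⟩
    intro y hy hyF
    by_contra hcon
    push Not at hcon
    have hPins : P (insert y F) := by
      intro a ha b hb hab
      rw [Finset.mem_insert] at ha hb
      rcases ha with rfl | ha <;> rcases hb with rfl | hb
      · exact absurd rfl hab
      · exact hcon b hb
      · rw [Finset.inter_comm]
        exact hcon a ha
      · exact hF.2 a ha b hb hab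
    have hmem : insert y F ∈ Y'.powerset.filter P := by
      rw [Finset.mem_filter, Finset.mem_powerset]
      exact ⟨Finset.insert_subset hy hF.1, hPins⟩
    have := hFmax _ hmem
    rw [Finset.card_insert_of_notMem hyF] at this
    omega
  -- induction over the finite set of levels already treated
  have key : ∀ I : Finset ι, ∃ Net : ι → Finset V,
      (∀ l, Net l ⊆ Y) ∧
      (∀ l l', l ≠ l' → Disjoint (Net l) (Net l')) ∧
      (∀ l, P (Net l)) ∧
      (∀ l, l ∉ I → Net l = ∅) ∧
      ∀ y ∈ Y, (∀ l, y ∉ Net l) → ∀ l ∈ I, ∃ m ∈ Net l, s ≤ (nbr G y ∩ nbr G m).card := by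
    intro I
    induction I using Finset.induction_on with
    | empty =>
      refine ⟨fun _ => ∅, by simp, by simp, by simp [P], by simp, by simp⟩
    | insert a I ha ih =>
      obtain ⟨Net, h1, h2, h3, h4, h5⟩ := ih
      obtain ⟨F, hFsub, hFP, hFmax⟩ := hmax (Y \ I.biUnion Net)
      have hNa : Net a = ∅ := h4 a ha
      refine ⟨Function.update Net a F, ?_, ?_, ?_, ?_, ?_⟩
      · intro l
        by_cases hl : l = a
        · subst hl
          rw [Function.update_self]
          exact hFsub.trans Finset.sdiff_subset
        · rw [Function.update_of_ne hl]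
          exact h1 l
      · intro l l' hll'
        by_cases hl : l = a
        · subst hl
          rw [Function.update_self, Function.update_of_ne (Ne.symm hll')]
          by_cases hl' : l' ∈ I
          · rw [Finset.disjoint_left]
            intro x hx hx'
            have := (Finset.mem_sdiff.1 (hFsub hx)).2
            exact this (Finset.mem_biUnion.2 ⟨l', hl', hx'⟩)
          · rw [h4 l' hl']
            exact Finset.disjoint_empty_right _
        · by_cases hl' : l' = a
          · subst hl'
            rw [Function.update_self, Function.update_of_ne hl]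
            by_cases hlI : l ∈ I
            · rw [Finset.disjoint_right]
              intro x hx hx'
              have := (Finset.mem_sdiff.1 (hFsub hx)).2
              exact this (Finset.mem_biUnion.2 ⟨l, hlI, hx'⟩)
            · rw [h4 l hlI]
              exact Finset.disjoint_empty_left _
          · rw [Function.update_of_ne hl, Function.update_of_ne hl']
            exact h2 l l' hll'
      · intro l
        by_cases hl : l = a
        · subst hl
          rw [Function.update_self]
          exact hFP
        · rw [Function.update_of_ne hl]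
          exact h3 l
      · intro l hl
        rw [Finset.mem_insert, not_or] at hl
        rw [Function.update_of_ne hl.1]
        exact h4 l hl.2
      · intro y hy hyN l hl
        have hyNet : ∀ l, y ∉ Net l := by
          intro l'
          by_cases hl' : l' = a
          · subst hl'
            rw [hNa]
            exact Finset.notMem_empty y
          · have := hyN l'
            rwa [Function.update_of_ne hl'] at this
        rw [Finset.mem_insert] at hl
        by_cases hla : l = a
        · subst hla
          rw [Function.update_self]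
          refine hFmax y ?_ ?_
          · rw [Finset.mem_sdiff]
            refine ⟨hy, ?_⟩
            intro hmem
            obtain ⟨l', _, hl'⟩ := Finset.mem_biUnion.1 hmem
            exact hyNet l' hl'
          · have := hyN l
            rwa [Function.update_self] at this
        · rw [Function.update_of_ne hla]
          exact h5 y hy hyNet l (hl.resolve_left hla)
  obtain ⟨Net, h1, h2, h3, _, h5⟩ := key Finset.univ
  refine ⟨Net, h1, h2, ?_, ?_⟩
  · intro l
    exact card_le_of_small_codegree G Q (Net l) d₀ s Λ
      (fun y hy => hN y (h1 l hy)) (fun y hy => hdeg y (h1 l hy)) hn hs hQ (h3 l)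
  · intro y hy hyN l
    exact h5 y hy hyN l (Finset.mem_univ l)

end Crest.Agent.EG
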