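import Crest.Agent.EG.Setup
import Crest.Agent.EG.Coloring
import Crest.Agent.EG.Nets
import Crest.Agent.EG.NetworkAux

/-!
# Nets and colouring: the sets `W, T i, A i, B i` and the pseudo-random properties
(S0064 blueprint Steps A, B)
-/

set_option autoImplicit false
set_option linter.unusedSectionVars false
set_option linter.unusedSimpArgs false

namespace Crest.Agent.EG

open Finset
open scoped Classical

variable {V : Type} [Fintype V]

namespace RandomAux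

/-! ### Colours -/

/-- The colour of `W`. -/
def cW : Fin 10 := ⟨0, by omega⟩
/-- The colour of `T i`. -/
def cT (i : Fin 3) : Fin 10 := ⟨1 + i.1, by omega⟩
/-- The colour of `A i`. -/
def cA (i : Fin 3) : Fin 10 := ⟨4 + i.1, by omega⟩
/-- The colour of `B i`. -/
def cB (i : Fin 3) : Fin 10 := ⟨7 + i.1, by omega⟩

theorem val_cW : (cW).val = 0 := rfl
theorem val_cT (i : Fin 3) : (cT i).val = 1 + i.val := rfl
theorem val_cA (i : Fin 3) : (cA i).val = 4 + i.val := rfl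
theorem val_cB (i : Fin 3) : (cB i).val = 7 + i.val := rfl

theorem colour_cases (c : Fin 10) :
    c = cW ∨ (∃ i, c = cT i) ∨ (∃ i, c = cA i) ∨ ∃ i, c = cB i := by
  revert c
  decide

/-! ### Numerics -/

theorem pow_ten_le_two_pow (L : ℕ) (hL : 1000 ≤ L) : L ^ 10 ≤ 2 ^ L := by
  induction L, hL using Nat.le_induction with
  | base =>
    have h1 : (1000 : ℕ) ^ 10 ≤ (2 ^ 10) ^ 10 := Nat.pow_le_pow_left (by norm_num) 10
    have h2 : ((2 : ℕ) ^ 10) ^ 10 = 2 ^ 100 := by rw [← pow_mul]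
    have h3 : (2 : ℕ) ^ 100 ≤ 2 ^ 1000 := Nat.pow_le_pow_right (by norm_num) (by norm_num)
    omega
  | succ L hL ih =>
    have h1 : (1000 * (L + 1)) ^ 10 ≤ (1001 * L) ^ 10 :=
      Nat.pow_le_pow_left (by omega) 10
    have h2 : 1000 ^ 10 * (L + 1) ^ 10 ≤ 1001 ^ 10 * L ^ 10 := by
      rw [← mul_pow, ← mul_pow]
      exact h1
    have h3 : (1001 : ℕ) ^ 10 ≤ 2 * 1000 ^ 10 := by norm_num
    have h4 : 1000 ^ 10 * (L + 1) ^ 10 ≤ 1000 ^ 10 * (2 * L ^ 10) := by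
      calc 1000 ^ 10 * (L + 1) ^ 10 ≤ 1001 ^ 10 * L ^ 10 := h2
        _ ≤ (2 * 1000 ^ 10) * L ^ 10 := Nat.mul_le_mul_right _ h3
        _ = 1000 ^ 10 * (2 * L ^ 10) := by ring
    have h5 : (L + 1) ^ 10 ≤ 2 * L ^ 10 := Nat.le_of_mul_le_mul_left h4 (by positivity)
    calc (L + 1) ^ 10 ≤ 2 * L ^ 10 := h5
      _ ≤ 2 * 2 ^ L := Nat.mul_le_mul_left _ ih
      _ = 2 ^ (L + 1) := by ring

variable (P : Par)

theorem p_eq : P.p = (2 * (2 * 10 ^ 13 * P.Λ ^ 4) + 1) * (2 * P.Λ) := rfl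

theorem p_le : P.p ≤ 10 ^ 14 * P.Λ ^ 5 := by
  rw [p_eq]
  have h1 : 1 ≤ P.Λ ^ 4 := Nat.one_le_pow _ _ P.Λ_pos
  calc (2 * (2 * 10 ^ 13 * P.Λ ^ 4) + 1) * (2 * P.Λ)
      ≤ (2 * (2 * 10 ^ 13 * P.Λ ^ 4) + P.Λ ^ 4) * (2 * P.Λ) :=
        Nat.mul_le_mul_right _ (by omega)
    _ = (8 * 10 ^ 13 + 2) * P.Λ ^ 5 := by ring
    _ ≤ 10 ^ 14 * P.Λ ^ 5 := Nat.mul_le_mul_right _ (by norm_num)

theorem four_le_p : 4 ≤ P.p := by
  rw [p_eq]
  have h1 := P.hΛ
  have h2 : 1 * (2 * 1000) ≤ (2 * (2 * 10 ^ 13 * P.Λ ^ 4) + 1) * (2 * P.Λ) :=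
    Nat.mul_le_mul (by omega) (by omega)
  omega

theorem m1_le_h : 20 * (6 * P.Λ * P.p) ≤ P.h := by
  rw [p_eq]
  unfold Par.h
  have h1 : 1 ≤ P.Λ ^ 4 := Nat.one_le_pow _ _ P.Λ_pos
  calc 20 * (6 * P.Λ * ((2 * (2 * 10 ^ 13 * P.Λ ^ 4) + 1) * (2 * P.Λ)))
      ≤ 20 * (6 * P.Λ * ((2 * (2 * 10 ^ 13 * P.Λ ^ 4) + P.Λ ^ 4) * (2 * P.Λ))) := by
        refine Nat.mul_le_mul_left _ (Nat.mul_le_mul_left _ (Nat.mul_le_mul_right _ ?_))
        omega
    _ = 9600000000000240 * P.Λ ^ 6 := by ring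
    _ ≤ 2 * 10 ^ 16 * P.Λ ^ 6 := Nat.mul_le_mul_right _ (by norm_num)

theorem big_n : 10 ^ 72 * P.Λ ^ 22 ≤ P.n := by
  calc 10 ^ 72 * P.Λ ^ 22 ≤ 10 ^ 73 * P.Λ ^ 24 :=
        Nat.mul_le_mul (by norm_num) (Nat.pow_le_pow_right P.Λ_pos (by norm_num))
    _ ≤ P.n := P.hn_big

theorem big_s : 10 ^ 72 * P.Λ ^ 22 ≤ P.s := by
  unfold Par.s
  have hpos : 0 < 4 * P.Λ ^ 2 := by have := P.Λ_pos; positivity
  rw [Nat.le_div_iff_mul_le hpos]
  calc 10 ^ 72 * P.Λ ^ 22 * (4 * P.Λ ^ 2) = (4 * 10 ^ 72) * P.Λ ^ 24 := by ring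
    _ ≤ 10 ^ 73 * P.Λ ^ 24 := Nat.mul_le_mul_right _ (by norm_num)
    _ ≤ P.n := P.hn_big

theorem big_d : 10 ^ 72 * P.Λ ^ 22 ≤ P.d₀ := by
  calc 10 ^ 72 * P.Λ ^ 22 ≤ 10 ^ 73 * P.Λ ^ 23 :=
        Nat.mul_le_mul (by norm_num) (Nat.pow_le_pow_right P.Λ_pos (by norm_num))
    _ ≤ P.d₀ := P.d₀_big

theorem small : 1000 * P.p + 1000 * (6 * P.Λ * P.p) ≤ 10 ^ 72 * P.Λ ^ 22 := by
  have h1 := p_le P
  have h2 : P.Λ ^ 5 ≤ P.Λ ^ 22 := Nat.pow_le_pow_right P.Λ_pos (by norm_num)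
  have h3 : P.Λ ^ 6 ≤ P.Λ ^ 22 := Nat.pow_le_pow_right P.Λ_pos (by norm_num)
  calc 1000 * P.p + 1000 * (6 * P.Λ * P.p)
      ≤ 1000 * (10 ^ 14 * P.Λ ^ 5) + 1000 * (6 * P.Λ * (10 ^ 14 * P.Λ ^ 5)) := by
        refine Nat.add_le_add (Nat.mul_le_mul_left _ h1)
          (Nat.mul_le_mul_left _ (Nat.mul_le_mul_left _ h1))
    _ = 10 ^ 17 * P.Λ ^ 5 + 6 * 10 ^ 17 * P.Λ ^ 6 := by ring
    _ ≤ 10 ^ 17 * P.Λ ^ 22 + 6 * 10 ^ 17 * P.Λ ^ 22 :=
        Nat.add_le_add (Nat.mul_le_mul_left _ h2) (Nat.mul_le_mul_left _ h3)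
    _ = 7 * 10 ^ 17 * P.Λ ^ 22 := by ring
    _ ≤ 10 ^ 72 * P.Λ ^ 22 := Nat.mul_le_mul_right _ (by norm_num)

theorem u_le_two_pow : 2 * P.u + 1 ≤ 2 ^ P.Λ := by
  refine le_trans ?_ (pow_ten_le_two_pow P.Λ P.hΛ)
  unfold Par.u
  have h1 : 1 ≤ P.Λ ^ 4 := Nat.one_le_pow _ _ P.Λ_pos
  have h2 : 1000 ^ 6 ≤ P.Λ ^ 6 := Nat.pow_le_pow_left P.hΛ 6
  calc 2 * (2 * 10 ^ 13 * P.Λ ^ 4) + 1 ≤ (4 * 10 ^ 13 + 1) * P.Λ ^ 4 := by
        rw [add_mul]; omega
    _ ≤ P.Λ ^ 6 * P.Λ ^ 4 := Nat.mul_le_mul_right _ (h2.trans' (by norm_num))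
    _ = P.Λ ^ 10 := by ring

theorem r₀_le_two_pow : P.r₀ ≤ 2 ^ P.Λ := by
  refine le_trans ?_ (pow_ten_le_two_pow P.Λ P.hΛ)
  unfold Par.r₀
  have h1 : 1 ≤ P.Λ ^ 9 := Nat.one_le_pow _ _ P.Λ_pos
  have h2 : 1000 ^ 9 ≤ P.Λ ^ 9 := Nat.pow_le_pow_left P.hΛ 9
  calc 320 * P.Λ ≤ P.Λ ^ 9 * P.Λ := Nat.mul_le_mul_right _ (h2.trans' (by norm_num))
    _ = P.Λ ^ 10 := by ring

/-! ### The union bound -/

/-- The colouring lemma for a finite family of pairs. -/
theorem coloring_of_family (Fam : Finset (Finset V × Fin 10)) (m₁ : ℕ)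
    (hFam : (Fam.card : ℝ) * (3 / 4 : ℝ) ^ m₁ < 1) :
    ∃ χ : V → Fin 10, ∀ x ∈ Fam, 20 * m₁ ≤ x.1.card →
      x.1.card ≤ 20 * (x.1.filter fun v => χ v = x.2).card := by
  let Fam' := Fam.filter fun x => 20 * m₁ ≤ x.1.card
  have hle : (Fintype.card {x // x ∈ Fam'} : ℝ) ≤ Fam.card := by
    rw [Fintype.card_coe]
    exact_mod_cast Finset.card_filter_le _ _
  have hpos : (0 : ℝ) ≤ (3 / 4 : ℝ) ^ m₁ := by positivity
  obtain ⟨χ, hχ⟩ := exists_coloring (α := V) (κ := Fin 10) (ι := {x // x ∈ Fam'})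
    (by simp) (fun x => x.1.1) (fun x => x.1.2) m₁
    (fun x => (Finset.mem_filter.1 x.2).2)
    (lt_of_le_of_lt (mul_le_mul_of_nonneg_right hle hpos) hFam)
  refine ⟨χ, fun x hx hc => ?_⟩
  convert hχ ⟨x, Finset.mem_filter.2 ⟨hx, hc⟩⟩

/-- The numeric part of the union bound. -/
theorem family_numeric (n r U A B c : ℕ) (hn : n ≤ A) (hr : r ≤ A) (hU : U ≤ A)
    (hA : 1000 ≤ A) (hB : A ^ 4 ≤ B)
    (hc : c ≤ 6 * n + 3 * U * n + 3 * (B * (n * r)) + 3 * (B * (r + 1)) + 1) :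
    c ≤ B * B := by
  have hB1 : 1 ≤ B := by
    have : 1 ≤ A ^ 4 := Nat.one_le_pow _ _ (by omega)
    omega
  have hA2 : 1000 * A ≤ A * A := Nat.mul_le_mul_right _ hA
  have h1 : 6 * n ≤ 6 * (A * A) := by nlinarith
  have h2 : 3 * U * n ≤ 3 * (A * A) := by
    calc 3 * U * n = 3 * (U * n) := by ring
      _ ≤ 3 * (A * A) := Nat.mul_le_mul_left _ (Nat.mul_le_mul hU hn)
  have h3 : 3 * (B * (n * r)) ≤ 3 * (B * (A * A)) :=
    Nat.mul_le_mul_left _ (Nat.mul_le_mul_left _ (Nat.mul_le_mul hn hr))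
  have h4 : 3 * (B * (r + 1)) ≤ 3 * (B * (A * A)) := by
    refine Nat.mul_le_mul_left _ (Nat.mul_le_mul_left _ ?_)
    omega
  have h5 : 1 ≤ A * A := by omega
  have h6 : A * A ≤ B * (A * A) := Nat.le_mul_of_pos_left _ (by omega)
  have h7 : c ≤ 16 * (B * (A * A)) := by omega
  have h8 : 16 * (A * A) ≤ A ^ 4 := by
    have : A ^ 4 = (A * A) * (A * A) := by ring
    rw [this]
    exact Nat.mul_le_mul_right _ (by omega)
  calc c ≤ 16 * (B * (A * A)) := h7
    _ = B * (16 * (A * A)) := by ring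
    _ ≤ B * B := Nat.mul_le_mul_left _ (h8.trans hB)

/-- The probability bound for the family. -/
theorem family_prob (P : Par) (c : ℕ) (hc : c ≤ 2 ^ (P.Λ * P.p) * 2 ^ (P.Λ * P.p)) :
    (c : ℝ) * (3 / 4 : ℝ) ^ (6 * P.Λ * P.p) < 1 := by
  have hne : P.Λ * P.p ≠ 0 := by
    have h1 := P.Λ_pos
    have h2 := four_le_p P
    positivity
  have h1 : (c : ℝ) ≤ (4 : ℝ) ^ (P.Λ * P.p) := by
    have : (c : ℝ) ≤ (2 : ℝ) ^ (P.Λ * P.p) * (2 : ℝ) ^ (P.Λ * P.p) := by exact_mod_cast hc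
    refine this.trans (le_of_eq ?_)
    rw [← mul_pow]
    norm_num
  have h2 : (3 / 4 : ℝ) ^ (6 * P.Λ * P.p) = ((3 / 4 : ℝ) ^ 6) ^ (P.Λ * P.p) := by
    rw [← pow_mul]
    congr 1
    ring
  have hpos : (0 : ℝ) ≤ (3 / 4 : ℝ) ^ (6 * P.Λ * P.p) := by positivity
  calc (c : ℝ) * (3 / 4 : ℝ) ^ (6 * P.Λ * P.p)
      ≤ (4 : ℝ) ^ (P.Λ * P.p) * (3 / 4 : ℝ) ^ (6 * P.Λ * P.p) :=
        mul_le_mul_of_nonneg_right h1 hpos
    _ = (4 * (3 / 4 : ℝ) ^ 6) ^ (P.Λ * P.p) := by rw [h2, mul_pow]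
    _ < 1 := pow_lt_one₀ (by norm_num) (by norm_num) hne

/-- The colouring with all five kinds of sets. -/
theorem exists_chi (P : Par) (G : SimpleGraph V) (Q Y Y₀ Q₀ NN : Finset V)
    (hY : Y.card ≤ P.n) (hY₀ : Y₀.card ≤ P.n) (hQ : Q.card ≤ P.n)
    (Ni : Fin 3 → Finset V) (hNi : ∀ i, (Ni i).card ≤ P.p)
    (m : Fin 3 → Fin (2 * P.u + 1) → V → V) :
    ∃ χ : V → Fin 10,
      (∀ y ∈ Y, ∀ i, 20 * (6 * P.Λ * P.p) ≤ (nbr G y \ NN).card →
        (nbr G y \ NN).card ≤ 20 * ((nbr G y \ NN).filter fun v => χ v = cA i).card) ∧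
      (∀ y ∈ Y, ∀ i, 20 * (6 * P.Λ * P.p) ≤ (nbr G y \ NN).card →
        (nbr G y \ NN).card ≤ 20 * ((nbr G y \ NN).filter fun v => χ v = cB i).card) ∧
      (∀ y ∈ Y₀, ∀ i l, 20 * (6 * P.Λ * P.p) ≤ ((nbr G y ∩ nbr G (m i l y)) \ NN).card →
        ((nbr G y ∩ nbr G (m i l y)) \ NN).card ≤
          20 * (((nbr G y ∩ nbr G (m i l y)) \ NN).filter fun v => χ v = cA i).card) ∧
      (∀ i (σ : {x // x ∈ Ni i} → Fin P.r₀), ∀ a ∈ Q, ∀ j < P.r₀,
        20 * (6 * P.Λ * P.p) ≤ (Xset G Y₀ P.u (m i) (extσ (Ni i) σ) a j).card →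
        (Xset G Y₀ P.u (m i) (extσ (Ni i) σ) a j).card ≤
          20 * ((Xset G Y₀ P.u (m i) (extσ (Ni i) σ) a j).filter fun v => χ v = cT i).card) ∧
      (∀ i (σ : {x // x ∈ Ni i} → Fin P.r₀), ∀ l < P.r₀ + 1,
        20 * (6 * P.Λ * P.p) ≤ (Sl G Y₀ Q₀ P.u (m i) (extσ (Ni i) σ) P.h P.r₀ l).card →
        (Sl G Y₀ Q₀ P.u (m i) (extσ (Ni i) σ) P.h P.r₀ l).card ≤
          20 * ((Sl G Y₀ Q₀ P.u (m i) (extσ (Ni i) σ) P.h P.r₀ l).filter
            fun v => χ v = cA i).card) ∧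
      (20 * (6 * P.Λ * P.p) ≤ Y₀.card → Y₀.card ≤ 20 * (Y₀.filter fun v => χ v = cW).card) := by
  let F1 : Finset (Finset V × Fin 10) :=
    (Y ×ˢ (univ : Finset (Fin 3 × Bool))).image fun x =>
      (nbr G x.1 \ NN, if x.2.2 then cA x.2.1 else cB x.2.1)
  let F2 : Finset (Finset V × Fin 10) :=
    (Y₀ ×ˢ (univ : Finset (Fin 3 × Fin (2 * P.u + 1)))).image fun x =>
      ((nbr G x.1 ∩ nbr G (m x.2.1 x.2.2 x.1)) \ NN, cA x.2.1)
  let F3 : Fin 3 → Finset (Finset V × Fin 10) := fun i =>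
    ((univ : Finset ({x // x ∈ Ni i} → Fin P.r₀)) ×ˢ (Q ×ˢ range P.r₀)).image fun x =>
      (Xset G Y₀ P.u (m i) (extσ (Ni i) x.1) x.2.1 x.2.2, cT i)
  let F4 : Fin 3 → Finset (Finset V × Fin 10) := fun i =>
    ((univ : Finset ({x // x ∈ Ni i} → Fin P.r₀)) ×ˢ range (P.r₀ + 1)).image fun x =>
      (Sl G Y₀ Q₀ P.u (m i) (extσ (Ni i) x.1) P.h P.r₀ x.2, cA i)
  let Fam : Finset (Finset V × Fin 10) :=
    F1 ∪ F2 ∪ (univ.biUnion F3) ∪ (univ.biUnion F4) ∪ {(Y₀, cW)}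
  -- sizes
  set A := 2 ^ P.Λ with hA
  set B := 2 ^ (P.Λ * P.p) with hB
  have hA1000 : 1000 ≤ A := by
    calc 1000 ≤ 2 ^ 10 := by norm_num
      _ ≤ A := Nat.pow_le_pow_right (by norm_num) (P.hΛ.trans' (by norm_num))
  have hAB : A ^ 4 ≤ B := by
    rw [hA, hB, ← pow_mul]
    exact Nat.pow_le_pow_right (by norm_num) (Nat.mul_le_mul_left _ (four_le_p P))
  have hσ : ∀ i, Fintype.card ({x // x ∈ Ni i} → Fin P.r₀) ≤ B := by
    intro i
    rw [Fintype.card_fun, Fintype.card_fin, Fintype.card_coe, hB, pow_mul]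
    calc P.r₀ ^ (Ni i).card ≤ P.r₀ ^ P.p :=
          Nat.pow_le_pow_right P.r₀_pos (hNi i)
      _ ≤ (2 ^ P.Λ) ^ P.p := Nat.pow_le_pow_left (r₀_le_two_pow P) _
  have hF1 : F1.card ≤ 6 * P.n := by
    refine Finset.card_image_le.trans ?_
    rw [Finset.card_product, Finset.card_univ]
    simp only [Fintype.card_prod, Fintype.card_fin, Fintype.card_bool]
    omega
  have hF2 : F2.card ≤ 3 * (2 * P.u + 1) * P.n := by
    refine Finset.card_image_le.trans ?_
    rw [Finset.card_product, Finset.card_univ]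
    simp only [Fintype.card_prod, Fintype.card_fin]
    calc Y₀.card * (3 * (2 * P.u + 1)) ≤ P.n * (3 * (2 * P.u + 1)) := Nat.mul_le_mul_right _ hY₀
      _ = _ := by ring
  have hF3 : ∀ i, (F3 i).card ≤ B * (P.n * P.r₀) := by
    intro i
    refine Finset.card_image_le.trans ?_
    rw [Finset.card_product, Finset.card_product, Finset.card_univ, Finset.card_range]
    exact Nat.mul_le_mul (hσ i) (Nat.mul_le_mul_right _ hQ)
  have hF4 : ∀ i, (F4 i).card ≤ B * (P.r₀ + 1) := by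
    intro i
    refine Finset.card_image_le.trans ?_
    rw [Finset.card_product, Finset.card_univ, Finset.card_range]
    exact Nat.mul_le_mul_right _ (hσ i)
  have hF3' : (univ.biUnion F3).card ≤ 3 * (B * (P.n * P.r₀)) := by
    refine Finset.card_biUnion_le.trans ?_
    calc ∑ i, (F3 i).card ≤ ∑ _i : Fin 3, B * (P.n * P.r₀) :=
          Finset.sum_le_sum fun i _ => hF3 i
      _ = _ := by simp
  have hF4' : (univ.biUnion F4).card ≤ 3 * (B * (P.r₀ + 1)) := by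
    refine Finset.card_biUnion_le.trans ?_
    calc ∑ i, (F4 i).card ≤ ∑ _i : Fin 3, B * (P.r₀ + 1) :=
          Finset.sum_le_sum fun i _ => hF4 i
      _ = _ := by simp
  have hFam : Fam.card ≤ 6 * P.n + 3 * (2 * P.u + 1) * P.n + 3 * (B * (P.n * P.r₀))
      + 3 * (B * (P.r₀ + 1)) + 1 := by
    have h1 := Finset.card_union_le (F1 ∪ F2 ∪ (univ.biUnion F3) ∪ (univ.biUnion F4))
      ({(Y₀, cW)} : Finset (Finset V × Fin 10))
    have h2 := Finset.card_union_le (F1 ∪ F2 ∪ (univ.biUnion F3)) (univ.biUnion F4)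
    have h3 := Finset.card_union_le (F1 ∪ F2) (univ.biUnion F3)
    have h4 := Finset.card_union_le F1 F2
    have h5 : ({(Y₀, cW)} : Finset (Finset V × Fin 10)).card = 1 := Finset.card_singleton _
    show (F1 ∪ F2 ∪ (univ.biUnion F3) ∪ (univ.biUnion F4) ∪ {(Y₀, cW)}).card ≤ _
    omega
  have hFam2 : Fam.card ≤ B * B :=
    family_numeric P.n P.r₀ (2 * P.u + 1) A B Fam.card P.hn_log (r₀_le_two_pow P)
      (u_le_two_pow P) hA1000 hAB hFam
  obtain ⟨χ, hχ⟩ := coloring_of_family (V := V) Fam (6 * P.Λ * P.p) (family_prob P _ hFam2)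
  refine ⟨χ, ?_, ?_, ?_, ?_, ?_, ?_⟩
  · intro y hy i hc
    have hmem : ((nbr G y \ NN, cA i) : Finset V × Fin 10) ∈ Fam := by
      refine Finset.mem_union_left _ (Finset.mem_union_left _ (Finset.mem_union_left _
        (Finset.mem_union_left _ ?_)))
      exact Finset.mem_image.2 ⟨(y, i, true), by simp [hy], by simp⟩
    exact hχ _ hmem hc
  · intro y hy i hc
    have hmem : ((nbr G y \ NN, cB i) : Finset V × Fin 10) ∈ Fam := by
      refine Finset.mem_union_left _ (Finset.mem_union_left _ (Finset.mem_union_left _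
        (Finset.mem_union_left _ ?_)))
      exact Finset.mem_image.2 ⟨(y, i, false), by simp [hy], by simp⟩
    exact hχ _ hmem hc
  · intro y hy i l hc
    have hmem : (((nbr G y ∩ nbr G (m i l y)) \ NN, cA i) : Finset V × Fin 10) ∈ Fam := by
      refine Finset.mem_union_left _ (Finset.mem_union_left _ (Finset.mem_union_left _
        (Finset.mem_union_right _ ?_)))
      exact Finset.mem_image.2 ⟨(y, i, l), by simp [hy], rfl⟩
    exact hχ _ hmem hc
  · intro i σ a ha j hj hc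
    have hmem : ((Xset G Y₀ P.u (m i) (extσ (Ni i) σ) a j, cT i) : Finset V × Fin 10) ∈ Fam := by
      refine Finset.mem_union_left _ (Finset.mem_union_left _ (Finset.mem_union_right _ ?_))
      refine Finset.mem_biUnion.2 ⟨i, Finset.mem_univ _, ?_⟩
      exact Finset.mem_image.2 ⟨(σ, a, j), by simp [ha, hj], rfl⟩
    exact hχ _ hmem hc
  · intro i σ l hl hc
    have hmem : ((Sl G Y₀ Q₀ P.u (m i) (extσ (Ni i) σ) P.h P.r₀ l, cA i) :
        Finset V × Fin 10) ∈ Fam := by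
      refine Finset.mem_union_left _ (Finset.mem_union_right _ ?_)
      refine Finset.mem_biUnion.2 ⟨i, Finset.mem_univ _, ?_⟩
      exact Finset.mem_image.2 ⟨(σ, l), by simp [hl], rfl⟩
    exact hχ _ hmem hc
  · intro hc
    have hmem : ((Y₀, cW) : Finset V × Fin 10) ∈ Fam :=
      Finset.mem_union_right _ (Finset.mem_singleton_self _)
    exact hχ _ hmem hc


/-! ### The final sets -/

/-- `T i`. -/
noncomputable def sT (Ni : Fin 3 → Finset V) (Y₀ : Finset V) (χ : V → Fin 10) (i : Fin 3) : Finset V :=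
  Ni i ∪ Y₀.filter fun v => χ v = cT i

/-- `A i`. -/
noncomputable def sA (Y Q₀ : Finset V) (χ : V → Fin 10) (i : Fin 3) : Finset V :=
  Q₀.filter fun v => χ v = cA i ∨ (v ∉ Y ∧ χ v = cT i) ∨ (i = 0 ∧ v ∉ Y ∧ χ v = cW)

/-- `B i`. -/
noncomputable def sB (Q₀ : Finset V) (χ : V → Fin 10) (i : Fin 3) : Finset V :=
  Q₀.filter fun v => χ v = cB i

theorem mem_sT {Ni : Fin 3 → Finset V} {Y₀ : Finset V} {χ : V → Fin 10} {i : Fin 3} {v : V} :
    v ∈ sT Ni Y₀ χ i ↔ v ∈ Ni i ∨ (v ∈ Y₀ ∧ χ v = cT i) := by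
  simp [sT]

theorem mem_sA {Y Q₀ : Finset V} {χ : V → Fin 10} {i : Fin 3} {v : V} :
    v ∈ sA Y Q₀ χ i ↔
      v ∈ Q₀ ∧ (χ v = cA i ∨ (v ∉ Y ∧ χ v = cT i) ∨ (i = 0 ∧ v ∉ Y ∧ χ v = cW)) := by
  simp [sA]

theorem mem_sB {Q₀ : Finset V} {χ : V → Fin 10} {i : Fin 3} {v : V} :
    v ∈ sB Q₀ χ i ↔ v ∈ Q₀ ∧ χ v = cB i := by
  simp [sB]

theorem card_filter_le_inter (X S : Finset V) (p : V → Prop) [DecidablePred p]
    (h : ∀ v ∈ X, p v → v ∈ S) : (X.filter p).card ≤ (X ∩ S).card := by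
  refine Finset.card_le_card fun v hv => ?_
  rw [Finset.mem_filter] at hv
  exact Finset.mem_inter.2 ⟨hv.1, h v hv.1 hv.2⟩

end RandomAux

open RandomAux in
/-- Blueprint Steps A and B.

Nets: `exists_nets` with index `Fin 3 × Fin (2u+1)`, codegree threshold `P.s`; `Ni i` is the union of
the levels `(i, l)`, `N` the union of all; `Y₀ = Y \ N`, `Q₀ = Q \ N`; `m i l y ∈ Net (i, l)` a mate of
`y ∈ Y₀`.

Colouring `χ : V → Fin 10` from `exists_coloring` with `m₁ = 6 Λ p` (so `20 m₁ ≤ P.h`) for the family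
of all pairs `(X, colour)`:
* `X = N(y) \ N`, `y ∈ Y`, colours `A i`, `B i`;
* `X = N(y) ∩ N(m i l y) \ N`, `y ∈ Y₀`, colour `A i`;
* `X = Xset … σ a j` with `|X| ≥ P.h`, `a ∈ Q`, `σ : Ni i → Fin r₀`, `j < r₀`, colour `T i`
  (note `X ⊆ Y₀` is disjoint from `N`);
* `X = Sl … σ l` with `|X| ≥ P.h`, `l ≤ r₀`, colour `A i`;
* `X = Y₀`, colour `W`.
The family has at most `2 ^ (2 Λ p)` members since `r₀ ≤ 2 ^ Λ`, `n ≤ 2 ^ Λ`; `(3/4)^(6Λp) 2^(2Λp) < 1`.

Final sets: `W = Y₀ ∩ χ⁻¹(W)`, `T i = Ni i ∪ (Y₀ ∩ χ⁻¹(T i))`,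
`A i = (Q₀ ∩ χ⁻¹(A i)) ∪ ((Q₀ \ Y) ∩ χ⁻¹(T i))`, and for `i = 0` also `(Q₀ \ Y) ∩ χ⁻¹(W)`,
`B i = Q₀ ∩ χ⁻¹(B i)`.
`|N| ≤ 3 p` is negligible against `d₀`, `s`, `n`, which turns `1/20` into `1/40` in `pr1`, `pr2`. -/
theorem exists_slices (P : Par) (G : SimpleGraph V) (Q Y : Finset V)
    (hYQ : Y ⊆ Q) (hcard : Q.card = P.n) (hY : P.n ≤ 6 * Y.card)
    (hN : ∀ y ∈ Y, nbr G y ⊆ Q) (hdeg : ∀ y ∈ Y, P.d₀ ≤ (nbr G y).card) :
    ∃ (Y₀ Q₀ W : Finset V) (Ni T A B : Fin 3 → Finset V) (m : Fin 3 → Fin (2 * P.u + 1) → V → V),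
      (∀ i, NetPR P G Q Y Y₀ Q₀ (Ni i) (T i) (A i) (B i) (m i)) ∧
      W ⊆ Y₀ ∧ P.n ≤ 240 * W.card ∧
      (Q \ Q₀).card ≤ 3 * P.p ∧
      -- `Q = W ⊔ ⨆ i, (T i ⊔ A i ⊔ B i)`
      (∀ v ∈ Q, v ∈ W ∨ ∃ i, v ∈ T i ∨ v ∈ A i ∨ v ∈ B i) ∧
      (∀ i, Disjoint W (T i) ∧ Disjoint W (A i) ∧ Disjoint W (B i)) ∧
      (∀ i i', i ≠ i' → Disjoint (T i ∪ A i ∪ B i) (T i' ∪ A i' ∪ B i')) := by
  have hn0 : 0 < Q.card := by rw [hcard]; exact P.n_pos
  obtain ⟨Net, hNetY, hNetDisj, hNetCard, hNetMate⟩ :=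
    exists_nets (ι := Fin 3 × Fin (2 * P.u + 1)) G Q Y P.d₀ P.s P.Λ hN hdeg
      (by rw [hcard]; exact P.hn_d) (by rw [hcard]; exact P.s_mul) hn0
  -- the nets of one network and all nets
  obtain ⟨Ni, hNi⟩ : ∃ Ni : Fin 3 → Finset V, ∀ i x, x ∈ Ni i ↔ ∃ l, x ∈ Net (i, l) :=
    ⟨fun i => univ.biUnion fun l => Net (i, l), fun i x => by simp⟩
  obtain ⟨NN, hNN⟩ : ∃ NN : Finset V, ∀ x, x ∈ NN ↔ ∃ i, x ∈ Ni i :=
    ⟨univ.biUnion Ni, fun x => by simp⟩
  have hNiNN : ∀ i x, x ∈ Ni i → x ∈ NN := fun i x hx => (hNN x).2 ⟨i, hx⟩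
  have hNiY : ∀ i, Ni i ⊆ Y := by
    intro i x hx
    obtain ⟨l, hl⟩ := (hNi i x).1 hx
    exact hNetY _ hl
  have hNicard : ∀ i, (Ni i).card ≤ P.p := by
    intro i
    have hsub : Ni i ⊆ univ.biUnion fun l => Net (i, l) := by
      intro x hx
      simpa using (hNi i x).1 hx
    calc (Ni i).card ≤ (univ.biUnion fun l => Net (i, l)).card := Finset.card_le_card hsub
      _ ≤ ∑ l : Fin (2 * P.u + 1), (Net (i, l)).card := Finset.card_biUnion_le
      _ ≤ ∑ _l : Fin (2 * P.u + 1), 2 * P.Λ := Finset.sum_le_sum fun l _ => hNetCard _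
      _ = P.p := by simp [Par.p]
  have hNNcard : NN.card ≤ 3 * P.p := by
    have hsub : NN ⊆ univ.biUnion Ni := by
      intro x hx
      simpa using (hNN x).1 hx
    calc NN.card ≤ (univ.biUnion Ni).card := Finset.card_le_card hsub
      _ ≤ ∑ i, (Ni i).card := Finset.card_biUnion_le
      _ ≤ ∑ _i : Fin 3, P.p := Finset.sum_le_sum fun i _ => hNicard i
      _ = 3 * P.p := by simp
  have hNidisj : ∀ i i', i ≠ i' → ∀ x, x ∈ Ni i → x ∈ Ni i' → False := by
    intro i i' hii x hx hx'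
    obtain ⟨l, hl⟩ := (hNi i x).1 hx
    obtain ⟨l', hl'⟩ := (hNi i' x).1 hx'
    have hne : ((i, l) : Fin 3 × Fin (2 * P.u + 1)) ≠ (i', l') := fun h => hii (congrArg Prod.fst h)
    exact Finset.disjoint_left.1 (hNetDisj _ _ hne) hl hl'
  -- `Y₀`, `Q₀`
  obtain ⟨Y₀, hY₀⟩ : ∃ Y₀ : Finset V, Y₀ = Y \ NN := ⟨_, rfl⟩
  obtain ⟨Q₀, hQ₀⟩ : ∃ Q₀ : Finset V, Q₀ = Q \ NN := ⟨_, rfl⟩
  have hmemY₀ : ∀ x, x ∈ Y₀ ↔ x ∈ Y ∧ x ∉ NN := fun x => by rw [hY₀, Finset.mem_sdiff]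
  have hmemQ₀ : ∀ x, x ∈ Q₀ ↔ x ∈ Q ∧ x ∉ NN := fun x => by rw [hQ₀, Finset.mem_sdiff]
  -- mates
  have hmates : ∀ (i : Fin 3) (l : Fin (2 * P.u + 1)) (y : V), ∃ x : V, y ∈ Y₀ →
      x ∈ Net (i, l) ∧ P.s ≤ (nbr G y ∩ nbr G x).card := by
    intro i l y
    by_cases hy : y ∈ Y₀
    · have hy' := (hmemY₀ y).1 hy
      have hno : ∀ l', y ∉ Net l' := by
        rintro ⟨i', l'⟩ hl'
        exact hy'.2 ((hNN y).2 ⟨i', (hNi i' y).2 ⟨l', hl'⟩⟩)
      obtain ⟨x, hx, hx2⟩ := hNetMate y hy'.1 hno (i, l)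
      exact ⟨x, fun _ => ⟨hx, hx2⟩⟩
    · exact ⟨y, fun h => absurd h hy⟩
  choose m hm using hmates
  -- sizes
  have hYn : Y.card ≤ P.n := by rw [← hcard]; exact Finset.card_le_card hYQ
  have hY₀Y : Y₀ ⊆ Y := fun x hx => ((hmemY₀ x).1 hx).1
  have hQ₀Q : Q₀ ⊆ Q := fun x hx => ((hmemQ₀ x).1 hx).1
  have hY₀n : Y₀.card ≤ P.n := (Finset.card_le_card hY₀Y).trans hYn
  obtain ⟨χ, hχ1, hχ2, hχ3, hχ4, hχ5, hχ6⟩ := exists_chi P G Q Y Y₀ Q₀ NN hYn hY₀n hcard.le
    Ni hNicard m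
  -- numerics
  have hs := small P
  have hbd := big_d P
  have hbs := big_s P
  have hbn := big_n P
  have hmh := m1_le_h P
  have hX1 : ∀ y ∈ Y, (nbr G y).card ≤ 2 * (nbr G y \ NN).card := by
    intro y hy
    have h1 := Finset.card_le_card_sdiff_add_card (s := nbr G y) (t := NN)
    have h2 := hdeg y hy
    omega
  have hX1' : ∀ y ∈ Y, 20 * (6 * P.Λ * P.p) ≤ (nbr G y \ NN).card := by
    intro y hy
    have h1 := Finset.card_le_card_sdiff_add_card (s := nbr G y) (t := NN)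
    have h2 := hdeg y hy
    omega
  -- the sets
  refine ⟨Y₀, Q₀, Y₀.filter fun v => χ v = cW, Ni, sT Ni Y₀ χ, sA Y Q₀ χ, sB Q₀ χ, m,
    ?_, Finset.filter_subset _ _, ?_, ?_, ?_, ?_, ?_⟩
  · intro i
    have hi3 := i.isLt
    have hT_Y : sT Ni Y₀ χ i ⊆ Y := by
      intro x hx
      rcases mem_sT.1 hx with h | h
      · exact hNiY i h
      · exact hY₀Y h.1
    refine
      { hT := hT_Y
        hA := fun x hx => hQ₀Q (mem_sA.1 hx).1
        hB := fun x hx => hQ₀Q (mem_sB.1 hx).1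
        hTA := ?_
        hTB := ?_
        hAB := ?_
        hNi := fun x hx => mem_sT.2 (Or.inl hx)
        hNicard := hNicard i
        hY₀ := hY₀Y
        hQ₀ := hQ₀Q
        hmate := fun y hy l => (hNi i _).2 ⟨l, (hm i l y hy).1⟩
        hmate_inj := ?_
        pr1A := ?_
        pr1B := ?_
        pr2 := ?_
        pr3 := ?_
        pr4 := ?_ }
    · rw [Finset.disjoint_left]
      intro x hx hx'
      have hxA := mem_sA.1 hx'
      have hxNN := ((hmemQ₀ x).1 hxA.1).2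
      rcases mem_sT.1 hx with h | h
      · exact hxNN (hNiNN i x h)
      · rcases hxA.2 with h2 | ⟨h2, _⟩ | ⟨_, h2, _⟩
        · have h3 := h.2.symm.trans h2
          have h3' := congrArg Fin.val h3
          simp only [val_cW, val_cT, val_cA, val_cB] at h3'
          omega
        · exact h2 (hY₀Y h.1)
        · exact h2 (hY₀Y h.1)
    · rw [Finset.disjoint_left]
      intro x hx hx'
      have hxB := mem_sB.1 hx'
      have hxNN := ((hmemQ₀ x).1 hxB.1).2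
      rcases mem_sT.1 hx with h | h
      · exact hxNN (hNiNN i x h)
      · have h3 := h.2.symm.trans hxB.2
        have h3' := congrArg Fin.val h3
        simp only [val_cW, val_cT, val_cA, val_cB] at h3'
        omega
    · rw [Finset.disjoint_left]
      intro x hx hx'
      have hxB := mem_sB.1 hx'
      rcases (mem_sA.1 hx).2 with h2 | ⟨_, h2⟩ | ⟨_, _, h2⟩
      · have h3 := h2.symm.trans hxB.2
        have h3' := congrArg Fin.val h3
        simp only [val_cW, val_cT, val_cA, val_cB] at h3'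
        omega
      · have h3 := h2.symm.trans hxB.2
        have h3' := congrArg Fin.val h3
        simp only [val_cW, val_cT, val_cA, val_cB] at h3'
        omega
      · have h3 := h2.symm.trans hxB.2
        have h3' := congrArg Fin.val h3
        simp only [val_cW, val_cT, val_cA, val_cB] at h3'
        omega
    · intro y hy l l' hll
      by_contra hne
      have h1 := (hm i l y hy).1
      have h2 := (hm i l' y hy).1
      simp only at hll
      rw [hll] at h1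
      have hne' : ((i, l) : Fin 3 × Fin (2 * P.u + 1)) ≠ (i, l') :=
        fun h => hne (congrArg Prod.snd h)
      exact Finset.disjoint_left.1 (hNetDisj _ _ hne') h1 h2
    · intro y hy
      have h1 := hχ1 y hy i (hX1' y hy)
      have h2 := card_filter_le_inter (nbr G y \ NN) (sA Y Q₀ χ i) (fun v => χ v = cA i) (by
        intro v hv hc
        rw [Finset.mem_sdiff] at hv
        exact mem_sA.2 ⟨(hmemQ₀ v).2 ⟨hN y hy hv.1, hv.2⟩, Or.inl hc⟩)
      have h3 : ((nbr G y \ NN) ∩ sA Y Q₀ χ i).card ≤ (nbr G y ∩ sA Y Q₀ χ i).card :=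
        Finset.card_le_card (Finset.inter_subset_inter_right Finset.sdiff_subset)
      have h4 := hX1 y hy
      have h5 : ((nbr G y \ NN).filter fun v => χ v = cA i).card
          ≤ (nbr G y ∩ sA Y Q₀ χ i).card := by
        exact h2.trans h3
      omega
    · intro y hy
      have h1 := hχ2 y hy i (hX1' y hy)
      have h2 := card_filter_le_inter (nbr G y \ NN) (sB Q₀ χ i) (fun v => χ v = cB i) (by
        intro v hv hc
        rw [Finset.mem_sdiff] at hv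
        exact mem_sB.2 ⟨(hmemQ₀ v).2 ⟨hN y hy hv.1, hv.2⟩, hc⟩)
      have h3 : ((nbr G y \ NN) ∩ sB Q₀ χ i).card ≤ (nbr G y ∩ sB Q₀ χ i).card :=
        Finset.card_le_card (Finset.inter_subset_inter_right Finset.sdiff_subset)
      have h4 := hX1 y hy
      have h5 : ((nbr G y \ NN).filter fun v => χ v = cB i).card
          ≤ (nbr G y ∩ sB Q₀ χ i).card := by
        exact h2.trans h3
      omega
    · intro y hy l
      have hyY := hY₀Y hy
      have hc0 := (hm i l y hy).2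
      have h0 := Finset.card_le_card_sdiff_add_card (s := nbr G y ∩ nbr G (m i l y)) (t := NN)
      have hc1 : 20 * (6 * P.Λ * P.p) ≤ ((nbr G y ∩ nbr G (m i l y)) \ NN).card := by omega
      have h1 := hχ3 y hy i l hc1
      have h2 := card_filter_le_inter ((nbr G y ∩ nbr G (m i l y)) \ NN) (sA Y Q₀ χ i)
        (fun v => χ v = cA i) (by
        intro v hv hc
        rw [Finset.mem_sdiff, Finset.mem_inter] at hv
        exact mem_sA.2 ⟨(hmemQ₀ v).2 ⟨hN y hyY hv.1.1, hv.2⟩, Or.inl hc⟩)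
      have h3 : (((nbr G y ∩ nbr G (m i l y)) \ NN) ∩ sA Y Q₀ χ i).card
          ≤ (nbr G y ∩ nbr G (m i l y) ∩ sA Y Q₀ χ i).card :=
        Finset.card_le_card (Finset.inter_subset_inter_right Finset.sdiff_subset)
      have h5 : (((nbr G y ∩ nbr G (m i l y)) \ NN).filter fun v => χ v = cA i).card
          ≤ (nbr G y ∩ nbr G (m i l y) ∩ sA Y Q₀ χ i).card := by
        exact h2.trans h3
      omega
    · intro σ a j ha hh
      have hhpos : 0 < P.h := by
        unfold Par.h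
        have := P.Λ_pos
        positivity
      have hne : (Xset G Y₀ P.u (m i) (extσ (Ni i) σ) a j).Nonempty := by
        rw [← Finset.card_pos]
        omega
      obtain ⟨y, hy⟩ := hne
      have hjr : j < P.r₀ := by
        unfold Xset at hy
        rw [Finset.mem_filter] at hy
        rw [← hy.2]
        exact homeOf_lt P.r₀_pos (m i) (Ni i) σ y
      have h1 := hχ4 i σ a ha j hjr (by omega)
      have h2 := card_filter_le_inter (Xset G Y₀ P.u (m i) (extσ (Ni i) σ) a j) (sT Ni Y₀ χ i)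
        (fun v => χ v = cT i) (by
        intro v hv hc
        unfold Xset at hv
        rw [Finset.mem_filter, Finset.mem_inter] at hv
        exact mem_sT.2 (Or.inr ⟨hv.1.2, hc⟩))
      have h5 : ((Xset G Y₀ P.u (m i) (extσ (Ni i) σ) a j).filter fun v => χ v = cT i).card
          ≤ (Xset G Y₀ P.u (m i) (extσ (Ni i) σ) a j ∩ sT Ni Y₀ χ i).card := h2
      omega
    · intro σ l hh
      have hhpos : 0 < P.h := by
        unfold Par.h
        have := P.Λ_pos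
        positivity
      have hne : (Sl G Y₀ Q₀ P.u (m i) (extσ (Ni i) σ) P.h P.r₀ l).Nonempty := by
        rw [← Finset.card_pos]
        omega
      obtain ⟨y, hy⟩ := hne
      have hlr : l < P.r₀ + 1 := by
        unfold Sl at hy
        rw [Finset.mem_filter] at hy
        have h1 : (Lab G Y₀ P.u (m i) (extσ (Ni i) σ) P.h P.r₀ y).card ≤ P.r₀ := by
          unfold Lab
          exact (Finset.card_filter_le _ _).trans (by simp)
        omega
      have h1 := hχ5 i σ l hlr (by omega)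
      have h2 := card_filter_le_inter (Sl G Y₀ Q₀ P.u (m i) (extσ (Ni i) σ) P.h P.r₀ l)
        (sA Y Q₀ χ i) (fun v => χ v = cA i) (by
        intro v hv hc
        unfold Sl at hv
        rw [Finset.mem_filter] at hv
        exact mem_sA.2 ⟨hv.1, Or.inl hc⟩)
      have h5 : ((Sl G Y₀ Q₀ P.u (m i) (extσ (Ni i) σ) P.h P.r₀ l).filter
          fun v => χ v = cA i).card
          ≤ (Sl G Y₀ Q₀ P.u (m i) (extσ (Ni i) σ) P.h P.r₀ l ∩ sA Y Q₀ χ i).card := h2
      omega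
  · -- `n ≤ 240 |W|`
    have h0 := Finset.card_le_card_sdiff_add_card (s := Y) (t := NN)
    rw [← hY₀] at h0
    have h1 := hχ6 (by omega)
    omega
  · -- `|Q \ Q₀| ≤ 3 p`
    refine le_trans (Finset.card_le_card ?_) hNNcard
    intro x hx
    rw [Finset.mem_sdiff, hmemQ₀] at hx
    by_contra hxNN
    exact hx.2 ⟨hx.1, hxNN⟩
  · -- covering
    intro v hv
    by_cases hvN : v ∈ NN
    · obtain ⟨i, hi⟩ := (hNN v).1 hvN
      exact Or.inr ⟨i, Or.inl (mem_sT.2 (Or.inl hi))⟩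
    have hvQ₀ : v ∈ Q₀ := (hmemQ₀ v).2 ⟨hv, hvN⟩
    rcases colour_cases (χ v) with hc | ⟨i, hc⟩ | ⟨i, hc⟩ | ⟨i, hc⟩
    · by_cases hvY : v ∈ Y
      · exact Or.inl (Finset.mem_filter.2 ⟨(hmemY₀ v).2 ⟨hvY, hvN⟩, hc⟩)
      · exact Or.inr ⟨0, Or.inr (Or.inl (mem_sA.2 ⟨hvQ₀, Or.inr (Or.inr ⟨rfl, hvY, hc⟩)⟩))⟩
    · by_cases hvY : v ∈ Y
      · exact Or.inr ⟨i, Or.inl (mem_sT.2 (Or.inr ⟨(hmemY₀ v).2 ⟨hvY, hvN⟩, hc⟩))⟩
      · exact Or.inr ⟨i, Or.inr (Or.inl (mem_sA.2 ⟨hvQ₀, Or.inr (Or.inl ⟨hvY, hc⟩)⟩))⟩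
    · exact Or.inr ⟨i, Or.inr (Or.inl (mem_sA.2 ⟨hvQ₀, Or.inl hc⟩))⟩
    · exact Or.inr ⟨i, Or.inr (Or.inr (mem_sB.2 ⟨hvQ₀, hc⟩))⟩
  · -- `W` is disjoint from the others
    intro i
    have hi3 := i.isLt
    refine ⟨?_, ?_, ?_⟩
    · rw [Finset.disjoint_left]
      intro x hx hx'
      rw [Finset.mem_filter] at hx
      rcases mem_sT.1 hx' with h | h
      · exact ((hmemY₀ x).1 hx.1).2 (hNiNN i x h)
      · have h3 := hx.2.symm.trans h.2
        have h3' := congrArg Fin.val h3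
        simp only [val_cW, val_cT, val_cA, val_cB] at h3'
        omega
    · rw [Finset.disjoint_left]
      intro x hx hx'
      rw [Finset.mem_filter] at hx
      rcases (mem_sA.1 hx').2 with h2 | ⟨h2, _⟩ | ⟨_, h2, _⟩
      · have h3 := hx.2.symm.trans h2
        have h3' := congrArg Fin.val h3
        simp only [val_cW, val_cT, val_cA, val_cB] at h3'
        omega
      · exact h2 (hY₀Y hx.1)
      · exact h2 (hY₀Y hx.1)
    · rw [Finset.disjoint_left]
      intro x hx hx'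
      rw [Finset.mem_filter] at hx
      have h3 := hx.2.symm.trans (mem_sB.1 hx').2
      have h3' := congrArg Fin.val h3
      simp only [val_cW, val_cT, val_cA, val_cB] at h3'
      omega
  · -- different networks
    intro i i' hii
    have hii' : i.1 ≠ i'.1 := fun h => hii (Fin.ext h)
    have hi3 := i.isLt
    have hi3' := i'.isLt
    rw [Finset.disjoint_left]
    intro x hx hx'
    rw [Finset.mem_union, Finset.mem_union] at hx hx'
    -- a vertex of a part of network `i` in `NN` lies in `Ni i`; otherwise its colour tells `i`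
    rcases hx with (hx | hx) | hx <;> rcases hx' with (hx' | hx') | hx'
    · rcases mem_sT.1 hx with h | h <;> rcases mem_sT.1 hx' with h' | h'
      · exact hNidisj i i' hii x h h'
      · exact ((hmemY₀ x).1 h'.1).2 (hNiNN i x h)
      · exact ((hmemY₀ x).1 h.1).2 (hNiNN i' x h')
      · have h3 := h.2.symm.trans h'.2
        have h3' := congrArg Fin.val h3
        simp only [val_cW, val_cT, val_cA, val_cB] at h3'
        omega
    · have hxA := mem_sA.1 hx'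
      have hxNN := ((hmemQ₀ x).1 hxA.1).2
      rcases mem_sT.1 hx with h | h
      · exact hxNN (hNiNN i x h)
      · rcases hxA.2 with h2 | ⟨h2, _⟩ | ⟨_, h2, _⟩
        · have h3 := h.2.symm.trans h2
          have h3' := congrArg Fin.val h3
          simp only [val_cW, val_cT, val_cA, val_cB] at h3'
          omega
        · exact h2 (hY₀Y h.1)
        · exact h2 (hY₀Y h.1)
    · have hxB := mem_sB.1 hx'
      have hxNN := ((hmemQ₀ x).1 hxB.1).2
      rcases mem_sT.1 hx with h | h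
      · exact hxNN (hNiNN i x h)
      · have h3 := h.2.symm.trans hxB.2
        have h3' := congrArg Fin.val h3
        simp only [val_cW, val_cT, val_cA, val_cB] at h3'
        omega
    · have hxA := mem_sA.1 hx
      have hxNN := ((hmemQ₀ x).1 hxA.1).2
      rcases mem_sT.1 hx' with h | h
      · exact hxNN (hNiNN i' x h)
      · rcases hxA.2 with h2 | ⟨h2, _⟩ | ⟨_, h2, _⟩
        · have h3 := h.2.symm.trans h2
          have h3' := congrArg Fin.val h3
          simp only [val_cW, val_cT, val_cA, val_cB] at h3'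
          omega
        · exact h2 (hY₀Y h.1)
        · exact h2 (hY₀Y h.1)
    · have hxA := mem_sA.1 hx
      have hxA' := mem_sA.1 hx'
      rcases hxA.2 with h2 | ⟨h2, h2c⟩ | ⟨_, h2, h2c⟩ <;>
        rcases hxA'.2 with h4 | ⟨h4, h4c⟩ | ⟨_, h4, h4c⟩
      · have h3 := h2.symm.trans h4
        have h3' := congrArg Fin.val h3
        simp only [val_cW, val_cT, val_cA, val_cB] at h3'
        omega
      · have h3 := h2.symm.trans h4c
        have h3' := congrArg Fin.val h3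
        simp only [val_cW, val_cT, val_cA, val_cB] at h3'
        omega
      · have h3 := h2.symm.trans h4c
        have h3' := congrArg Fin.val h3
        simp only [val_cW, val_cT, val_cA, val_cB] at h3'
        omega
      · have h3 := h2c.symm.trans h4
        have h3' := congrArg Fin.val h3
        simp only [val_cW, val_cT, val_cA, val_cB] at h3'
        omega
      · have h3 := h2c.symm.trans h4c
        have h3' := congrArg Fin.val h3
        simp only [val_cW, val_cT, val_cA, val_cB] at h3'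
        omega
      · have h3 := h2c.symm.trans h4c
        have h3' := congrArg Fin.val h3
        simp only [val_cW, val_cT, val_cA, val_cB] at h3'
        omega
      · have h3 := h2c.symm.trans h4
        have h3' := congrArg Fin.val h3
        simp only [val_cW, val_cT, val_cA, val_cB] at h3'
        omega
      · have h3 := h2c.symm.trans h4c
        have h3' := congrArg Fin.val h3
        simp only [val_cW, val_cT, val_cA, val_cB] at h3'
        omega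
      · rename_i hi0 hi0'
        exact hii (hi0.trans hi0'.symm)
    · have hxB := mem_sB.1 hx'
      rcases (mem_sA.1 hx).2 with h2 | ⟨_, h2⟩ | ⟨_, _, h2⟩
      · have h3 := h2.symm.trans hxB.2
        have h3' := congrArg Fin.val h3
        simp only [val_cW, val_cT, val_cA, val_cB] at h3'
        omega
      · have h3 := h2.symm.trans hxB.2
        have h3' := congrArg Fin.val h3
        simp only [val_cW, val_cT, val_cA, val_cB] at h3'
        omega
      · have h3 := h2.symm.trans hxB.2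
        have h3' := congrArg Fin.val h3
        simp only [val_cW, val_cT, val_cA, val_cB] at h3'
        omega
    · have hxB := mem_sB.1 hx
      have hxNN := ((hmemQ₀ x).1 hxB.1).2
      rcases mem_sT.1 hx' with h | h
      · exact hxNN (hNiNN i' x h)
      · have h3 := h.2.symm.trans hxB.2
        have h3' := congrArg Fin.val h3
        simp only [val_cW, val_cT, val_cA, val_cB] at h3'
        omega
    · have hxB := mem_sB.1 hx
      rcases (mem_sA.1 hx').2 with h2 | ⟨_, h2⟩ | ⟨_, _, h2⟩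
      · have h3 := h2.symm.trans hxB.2
        have h3' := congrArg Fin.val h3
        simp only [val_cW, val_cT, val_cA, val_cB] at h3'
        omega
      · have h3 := h2.symm.trans hxB.2
        have h3' := congrArg Fin.val h3
        simp only [val_cW, val_cT, val_cA, val_cB] at h3'
        omega
      · have h3 := h2.symm.trans hxB.2
        have h3' := congrArg Fin.val h3
        simp only [val_cW, val_cT, val_cA, val_cB] at h3'
        omega
    · have h3 := (mem_sB.1 hx).2.symm.trans (mem_sB.1 hx').2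
      have h3' := congrArg Fin.val h3
      simp only [val_cW, val_cT, val_cA, val_cB] at h3'
      omega

end Crest.Agent.EG
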