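import Crest.Agent.EG.Basic

/-!
# Parameters and the fingerprint definitions for the Local Dense Lemma (S0064 blueprint Part 3)

All parameters are explicit polynomials in `Λ` (and `n`).  `Par` packs the three free numbers and the
hypotheses; the inequalities needed elsewhere are lemmas `Par.*` (package `EG/Par.lean`).
-/

set_option autoImplicit false

namespace Crest.Agent.EG

open Finset
open scoped Classical

/-- Free parameters: `n = |Q|`, `Λ`, minimum degree `d₀`. -/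
structure Par where
  n : ℕ
  Λ : ℕ
  d₀ : ℕ
  hΛ : 1000 ≤ Λ
  hn_log : n ≤ 2 ^ Λ
  hn_big : 10 ^ 73 * Λ ^ 24 ≤ n
  hn_d : n ≤ Λ * d₀
  hd_n : d₀ ≤ n

namespace Par

variable (P : Par)

/-- lower bound for `|N(t) ∩ A|`, `t ∈ T`. -/
def d₁ : ℕ := P.d₀ / 40
/-- lower bound for the network degree of an alive `t`. -/
def d₂ : ℕ := P.d₁ / 4
/-- codegree threshold of the nets. -/
def s : ℕ := P.n / (4 * P.Λ ^ 2)
/-- a vertex of `T` is clean if it lost fewer than `s'` edges. -/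
def s' : ℕ := P.s / 80
/-- upper bound for the number of dirty vertices. -/
def u : ℕ := 2 * 10 ^ 13 * P.Λ ^ 4
/-- upper bound for the size of the nets of one network. -/
def p : ℕ := (2 * P.u + 1) * (2 * P.Λ)
/-- label threshold. -/
def h : ℕ := 2 * 10 ^ 16 * P.Λ ^ 6
/-- upper bound for the number of classes. -/
def r₀ : ℕ := 320 * P.Λ
/-- hub degree in the final network. -/
def g₂ : ℕ := 3 * 10 ^ 9 * P.Λ ^ 2
/-- hub threshold in the partition lemma. -/
def g : ℕ := 2 * P.g₂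
/-- thin cut threshold. -/
def τ : ℕ := 10 ^ 6 * P.n * P.Λ
/-- route length. -/
def L : ℕ := 5120 * P.Λ
/-- number of routes per network. -/
def k : ℕ := 7 * P.n
/-- friendliness threshold (light degree). -/
def t₁ : ℕ := 10 ^ 22 * P.Λ ^ 7
/-- pending units per vertex. -/
def M : ℕ := P.t₁ + 2
/-- pending group size. -/
def Ga : ℕ := 2 * 10 ^ 6
/-- attach group size. -/
def Kt : ℕ := 20480

end Par

variable {V : Type} [Fintype V]

/-- The majority label among the `2u+1` mates of `y` (default `0`). -/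
noncomputable def homeOf (u : ℕ) (m : Fin (2 * u + 1) → V → V) (σ : V → ℕ) (y : V) : ℕ :=
  if h : ∃ j, u + 1 ≤ (univ.filter fun l => σ (m l y) = j).card then Classical.choose h else 0

/-- Neighbours of `a` in `Y₀` of home `j`. -/
noncomputable def Xset (G : SimpleGraph V) (Y₀ : Finset V) (u : ℕ) (m : Fin (2 * u + 1) → V → V)
    (σ : V → ℕ) (a : V) (j : ℕ) : Finset V :=
  (nbr G a ∩ Y₀).filter fun y => homeOf u m σ y = j

/-- The heavy classes of `a`: `j < r` with at least `h` neighbours of home `j`. -/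
noncomputable def Lab (G : SimpleGraph V) (Y₀ : Finset V) (u : ℕ) (m : Fin (2 * u + 1) → V → V)
    (σ : V → ℕ) (h r : ℕ) (a : V) : Finset ℕ :=
  (range r).filter fun j => h ≤ (Xset G Y₀ u m σ a j).card

/-- Vertices of `Q₀` with at least `l` extra labels. -/
noncomputable def Sl (G : SimpleGraph V) (Y₀ Q₀ : Finset V) (u : ℕ) (m : Fin (2 * u + 1) → V → V)
    (σ : V → ℕ) (h r l : ℕ) : Finset V :=
  Q₀.filter fun a => l ≤ (Lab G Y₀ u m σ h r a).card - 1

/-- Extend a labelling of `Ni` by `0`. -/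
noncomputable def extσ {r : ℕ} (Ni : Finset V) (σ : {x // x ∈ Ni} → Fin r) (v : V) : ℕ :=
  if h : v ∈ Ni then (σ ⟨v, h⟩ : ℕ) else 0

/-- Pseudo-random properties of one network: the output of the colouring. -/
structure NetPR (P : Par) (G : SimpleGraph V) (Q Y Y₀ Q₀ Ni T A B : Finset V)
    (m : Fin (2 * P.u + 1) → V → V) : Prop where
  hT : T ⊆ Y
  hA : A ⊆ Q
  hB : B ⊆ Q
  hTA : Disjoint T A
  hTB : Disjoint T B
  hAB : Disjoint A B
  hNi : Ni ⊆ T
  hNicard : Ni.card ≤ P.p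
  hY₀ : Y₀ ⊆ Y
  hQ₀ : Q₀ ⊆ Q
  hmate : ∀ y ∈ Y₀, ∀ l, m l y ∈ Ni
  hmate_inj : ∀ y ∈ Y₀, Function.Injective fun l => m l y
  pr1A : ∀ y ∈ Y, (nbr G y).card ≤ 40 * (nbr G y ∩ A).card
  pr1B : ∀ y ∈ Y, (nbr G y).card ≤ 40 * (nbr G y ∩ B).card
  pr2 : ∀ y ∈ Y₀, ∀ l, P.s ≤ 40 * (nbr G y ∩ nbr G (m l y) ∩ A).card
  pr3 : ∀ (σ : {x // x ∈ Ni} → Fin P.r₀) (a : V) (j : ℕ), a ∈ Q →
    P.h ≤ (Xset G Y₀ P.u m (extσ Ni σ) a j).card →
    (Xset G Y₀ P.u m (extσ Ni σ) a j).card ≤ 20 * (Xset G Y₀ P.u m (extσ Ni σ) a j ∩ T).card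
  pr4 : ∀ (σ : {x // x ∈ Ni} → Fin P.r₀) (l : ℕ),
    P.h ≤ (Sl G Y₀ Q₀ P.u m (extσ Ni σ) P.h P.r₀ l).card →
    (Sl G Y₀ Q₀ P.u m (extσ Ni σ) P.h P.r₀ l).card ≤
      20 * (Sl G Y₀ Q₀ P.u m (extσ Ni σ) P.h P.r₀ l ∩ A).card

end Crest.Agent.EG
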